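import Crest.Agent.R101.Basic

/-!
# Row 101: density of `∂(Test)` in `L²(D)`, and a Poincaré lemma   (TASK B)
-/

open Complex MeasureTheory Set Metric Filter Topology
open scoped ComplexConjugate

noncomputable section

namespace Crest.Agent.R101

lemma dense_contDiff_mono (α : ℂ) (m n : ℕ) :
    ContDiff ℝ 2 (fun z : ℂ => α * z ^ m * conj z ^ n) :=
  (contDiff_const.mul (contDiff_id.pow m)).mul (contDiff_conj.pow n)

lemma dense_hasW_mono (α : ℂ) (m n : ℕ) (z : ℂ) :
    HasW (fun z : ℂ => α * z ^ m * conj z ^ n) (α * (m * z ^ (m - 1)) * conj z ^ n)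
      (α * z ^ m * (n * conj z ^ (n - 1))) z :=
  ((((hasW_id z).pow m).const_mul α).mul ((hasW_conj z).pow n)).congr' (by simp) (by simp)

lemma dense_mul_conj {z : ℂ} (hz : ‖z‖ = 1) : z * conj z = 1 := by
  rw [mul_conj, normSq_eq_norm_sq, hz]; simp

/-- Every monomial `α z^m conj(z)^n` is `∂Φ` with `Φ` a test field.  Recipe:
`Φ₀ = α/(m+1) z^(m+1) conj(z)^n`; add an anti-holomorphic correction: on the circle
`conj z = z⁻¹`; if `m + 1 ≥ n`, `j = m+1-n`, add `conj(α/(m+1)) conj(z)^j` (sum is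
`w + conj w` on the circle); otherwise subtract `α/(m+1) conj(z)^(n-m-1)` (sum vanishes on the
circle).  Use `HasW.pow`, `hasW_conj`, `HasW.dzc_eq`, `contDiff_conj`. -/
theorem exists_test_monomial (α : ℂ) (m n : ℕ) :
    ∃ Φ, Test Φ ∧ ∀ z, dzc Φ z = α * z ^ m * conj z ^ n := by
  have hm : ((m : ℂ) + 1) ≠ 0 := by exact_mod_cast Nat.succ_ne_zero m
  have key : ∀ (β : ℂ) (j : ℕ), (∀ z : ℂ, ‖z‖ = 1 →
      (α / (m + 1) * z ^ (m + 1) * conj z ^ n + β * z ^ 0 * conj z ^ j).im = 0) →
      ∃ Φ, Test Φ ∧ ∀ z, dzc Φ z = α * z ^ m * conj z ^ n := by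
    intro β j h
    refine ⟨fun z => α / (m + 1) * z ^ (m + 1) * conj z ^ n + β * z ^ 0 * conj z ^ j,
      ⟨(dense_contDiff_mono _ _ _).add (dense_contDiff_mono _ _ _), h⟩, fun z => ?_⟩
    rw [((dense_hasW_mono _ _ _ z).add (dense_hasW_mono _ _ _ z)).dzc_eq]
    simp only [Nat.add_sub_cancel, Nat.cast_zero, zero_mul, mul_zero, add_zero]
    push_cast
    field_simp
  rcases le_total n (m + 1) with h | h
  · obtain ⟨j, hj⟩ := Nat.exists_eq_add_of_le h
    refine key (conj (α / (m + 1))) j fun z hz => ?_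
    have : α / (m + 1) * z ^ (m + 1) * conj z ^ n = α / (m + 1) * z ^ j := by
      rw [hj, pow_add]
      calc α / (m + 1) * (z ^ n * z ^ j) * conj z ^ n
          = α / (m + 1) * z ^ j * (z * conj z) ^ n := by ring
        _ = _ := by rw [dense_mul_conj hz, one_pow, mul_one]
    rw [this, pow_zero, mul_one, ← map_pow, ← map_mul, add_conj, ofReal_im]
  · obtain ⟨j, hj⟩ := Nat.exists_eq_add_of_le h
    refine key (-(α / (m + 1))) j fun z hz => ?_
    have : α / (m + 1) * z ^ (m + 1) * conj z ^ n = α / (m + 1) * conj z ^ j := by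
      rw [hj, pow_add (conj z)]
      calc α / (m + 1) * z ^ (m + 1) * (conj z ^ (m + 1) * conj z ^ j)
          = α / (m + 1) * conj z ^ j * (z * conj z) ^ (m + 1) := by ring
        _ = _ := by rw [dense_mul_conj hz, one_pow, mul_one]
    rw [this]
    simp

/-- Polynomials in `z` and `conj z`. -/
inductive DensePoly : (ℂ → ℂ) → Prop
  | mono (α : ℂ) (m n : ℕ) : DensePoly fun z => α * z ^ m * conj z ^ n
  | add {f g : ℂ → ℂ} : DensePoly f → DensePoly g → DensePoly fun z => f z + g z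

lemma DensePoly.mul {f g : ℂ → ℂ} (hf : DensePoly f) (hg : DensePoly g) :
    DensePoly fun z => f z * g z := by
  induction hf with
  | mono α m n =>
    induction hg with
    | mono β k l =>
      convert DensePoly.mono (α * β) (m + k) (n + l) using 2 with z
      ring
    | add _ _ h1 h2 => simpa only [mul_add] using h1.add h2
  | add _ _ h1 h2 => simpa only [add_mul] using h1.add h2

lemma DensePoly.exists_test {f : ℂ → ℂ} (hf : DensePoly f) :
    ∃ Φ, Test Φ ∧ ∀ z, dzc Φ z = f z := by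
  induction hf with
  | mono α m n => exact exists_test_monomial α m n
  | add _ _ h1 h2 =>
    obtain ⟨Φ, hΦ, e1⟩ := h1
    obtain ⟨Ψ, hΨ, e2⟩ := h2
    refine ⟨fun z => Φ z + Ψ z, ⟨hΦ.1.add hΨ.1, fun z hz => by simp [hΦ.2 z hz, hΨ.2 z hz]⟩,
      fun z => ?_⟩
    rw [((hasW_of_differentiableAt (hΦ.1.differentiable (by simp) z)).add
      (hasW_of_differentiableAt (hΨ.1.differentiable (by simp) z))).dzc_eq, e1, e2]

lemma DensePoly.continuous {f : ℂ → ℂ} (hf : DensePoly f) : Continuous f := by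
  induction hf with
  | mono α m n => exact (dense_contDiff_mono α m n).continuous
  | add _ _ h1 h2 => exact h1.add h2

lemma dense_of_mem_starClosure {s : Set ℂ} {f : C(s, ℂ)}
    (hf : f ∈ (polynomialFunctions s).starClosure) : ∃ q, DensePoly q ∧ ∀ z : s, f z = q z := by
  rw [polynomialFunctions.starClosure_eq_adjoin_X] at hf
  induction hf using StarAlgebra.adjoin_induction with
  | mem f hf =>
    rw [mem_singleton_iff] at hf
    subst hf
    exact ⟨_, DensePoly.mono 1 1 0, fun z => by simp⟩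
  | algebraMap r => exact ⟨_, DensePoly.mono r 0 0, fun z => by simp⟩
  | add _ _ _ _ hf hg =>
    obtain ⟨p, hp, e1⟩ := hf
    obtain ⟨q, hq, e2⟩ := hg
    exact ⟨_, hp.add hq, fun z => by simp [e1, e2]⟩
  | mul _ _ _ _ hf hg =>
    obtain ⟨p, hp, e1⟩ := hf
    obtain ⟨q, hq, e2⟩ := hg
    exact ⟨_, hp.mul hq, fun z => by simp [e1, e2]⟩
  | star f _ hf =>
    obtain ⟨p, hp, e1⟩ := hf
    refine ⟨fun z => conj (p z), ?_, fun z => by simp [e1]⟩
    clear e1
    induction hp with
    | mono α m n =>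
      convert DensePoly.mono (conj α) n m using 2 with z
      simp only [map_mul, map_pow, conj_conj]
      ring
    | add _ _ h1 h2 => simpa only [map_add] using h1.add h2

lemma dense_uniform {h : ℂ → ℂ} (hh : Continuous h) {δ : ℝ} (hδ : 0 < δ) :
    ∃ q, DensePoly q ∧ ∀ z ∈ D, ‖h z - q z‖ ≤ δ := by
  have : CompactSpace (closedBall (0 : ℂ) 1) :=
    isCompact_iff_compactSpace.1 (isCompact_closedBall _ _)
  set f : C(closedBall (0 : ℂ) 1, ℂ) := ContinuousMap.restrict _ ⟨h, hh⟩ with hf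
  have h1 := polynomialFunctions.starClosure_topologicalClosure (closedBall (0 : ℂ) 1) ▸
    StarSubalgebra.mem_top (x := f)
  rw [← SetLike.mem_coe, StarSubalgebra.topologicalClosure_coe, Metric.mem_closure_iff] at h1
  obtain ⟨g, hg, hd⟩ := h1 δ hδ
  obtain ⟨q, hq, e⟩ := dense_of_mem_starClosure hg
  refine ⟨q, hq, fun z hz => ?_⟩
  have h2 := ContinuousMap.dist_apply_le_dist (f := f) (g := g) ⟨z, ball_subset_closedBall hz⟩
  rw [e, dist_eq_norm] at h2
  exact h2.trans hd.le

/-- Recipe: `MemLp.exists_boundedContinuous_integral_rpow_sub_le` (or `..eLpNorm_sub_le`) gives a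
continuous `h` close to `g` in `L²(D)`; Stone-Weierstrass on `closedBall 0 1`
(`polynomialFunctions.starClosure_topologicalClosure`, `ContinuousMap.induction_on`; the set of
continuous maps that are finite sums of monomials `α z^m conj(z)^n` is closed under products, e.g.
`Submodule.span` of the monomials) gives a polynomial in `z, conj z` uniformly close to `h`;
the set of `dzc Φ`, `Φ` a test field, is closed under addition. -/
theorem exists_test_approx {g : ℂ → ℂ} (hg : MemLp g 2 (volume.restrict D)) {ε : ℝ}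
    (hε : 0 < ε) : ∃ Φ, Test Φ ∧ ∫ z in D, ‖g z - dzc Φ z‖ ^ 2 ≤ ε := by
  have hg' : MemLp g (ENNReal.ofReal 2) (volume.restrict D) := by simpa using hg
  obtain ⟨h, hh, -⟩ := hg'.exists_boundedContinuous_integral_rpow_sub_le two_pos
    (ε := ε / 4) (by positivity)
  simp only [Real.rpow_two] at hh
  set V : ℝ := (volume.restrict D).real univ with hV
  have hV0 : 0 ≤ V := measureReal_nonneg
  obtain ⟨q, hq, hqh⟩ := dense_uniform h.continuous (δ := √(ε / (4 * (V + 1)))) (by positivity)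
  obtain ⟨Φ, hΦ, e⟩ := hq.exists_test
  refine ⟨Φ, hΦ, ?_⟩
  simp only [e]
  have i1 : Integrable (fun z => ‖g z - h z‖ ^ 2) (volume.restrict D) :=
    (hg.sub (memLp_D_of_continuous h.continuous 2)).integrable_norm_pow two_ne_zero
  have i2 : Integrable (fun z => 2 * ‖g z - h z‖ ^ 2 + 2 * (ε / (4 * (V + 1))))
      (volume.restrict D) := (i1.const_mul 2).add (integrable_const _)
  have h1 : ∫ z in D, ‖g z - q z‖ ^ 2 ≤ ∫ z in D, (2 * ‖g z - h z‖ ^ 2 + 2 * (ε / (4 * (V + 1)))) := by
    refine integral_mono_of_nonneg (Eventually.of_forall fun z => by positivity) i2 ?_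
    refine (ae_restrict_iff' isOpen_D.measurableSet).2 (Eventually.of_forall fun z hz => ?_)
    have a1 : ‖g z - q z‖ ≤ ‖g z - h z‖ + ‖h z - q z‖ := norm_sub_le_norm_sub_add_norm_sub _ _ _
    have a2 := pow_le_pow_left₀ (norm_nonneg _) (hqh z hz) 2
    rw [Real.sq_sqrt (by positivity)] at a2
    have a3 := pow_le_pow_left₀ (norm_nonneg _) a1 2
    simp only
    nlinarith [sq_nonneg (‖g z - h z‖ - ‖h z - q z‖)]
  rw [integral_add (i1.const_mul 2) (integrable_const _), integral_const_mul, integral_const,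
    smul_eq_mul, ← hV] at h1
  have h2 : V * (2 * (ε / (4 * (V + 1)))) ≤ ε / 2 := by
    rw [show V * (2 * (ε / (4 * (V + 1)))) = ε / 2 * (V / (V + 1)) by field_simp; ring]
    exact mul_le_of_le_one_right (by positivity) (div_le_one_of_le₀ (by linarith) (by positivity))
  linarith

lemma dense_measurable_dz (U : ℂ → ℝ) : Measurable (dz U) := by
  unfold dz
  exact ((measurable_ofReal.comp (measurable_fderiv_apply_const ℝ U 1)).sub
    (measurable_const.mul (measurable_ofReal.comp
      (measurable_fderiv_apply_const ℝ U I)))).div_const 2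

lemma dense_ray {U : ℂ → ℝ} (hU : ContDiffOn ℝ 1 U D) {z : ℂ} (hz : z ∈ D) :
    (U z - U ((1 / 2 : ℝ) • z)) ^ 2 ≤ 4 * ∫ t in (1 / 2 : ℝ)..1, ‖dz U (t • z)‖ ^ 2 := by
  have hz1 := mem_D.1 hz
  have hmem : ∀ t ∈ uIcc (1 / 2 : ℝ) 1, t • z ∈ D := by
    intro t ht
    rw [uIcc_of_le (by norm_num)] at ht
    rw [mem_D, norm_smul, Real.norm_eq_abs, abs_of_nonneg (by linarith [ht.1])]
    exact (mul_le_of_le_one_left (norm_nonneg _) ht.2).trans_lt hz1
  have hc : ContinuousOn (fun t : ℝ => dz U (t • z)) (uIcc (1 / 2 : ℝ) 1) :=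
    (continuousOn_dz isOpen_D hU).comp (by fun_prop) hmem
  have hd : ∀ t ∈ uIcc (1 / 2 : ℝ) 1,
      HasDerivAt (fun t : ℝ => U (t • z)) (2 * (dz U (t • z) * z).re) t := by
    intro t ht
    have h1 := (differentiableAt_of_contDiffOn isOpen_D hU (by simp) (hmem t ht)).hasFDerivAt
    have h2 : HasDerivAt (fun t : ℝ => t • z) z t := by
      simpa using (hasDerivAt_id t).smul_const z
    have h3 := h1.comp_hasDerivAt t h2
    rwa [fderiv_apply_eq_dz] at h3
  have hc2 : ContinuousOn (fun t : ℝ => 2 * (dz U (t • z) * z).re) (uIcc (1 / 2 : ℝ) 1) :=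
    continuousOn_const.mul (continuous_re.comp_continuousOn (hc.mul continuousOn_const))
  have h1 := intervalIntegral.integral_eq_sub_of_hasDerivAt hd hc2.intervalIntegrable
  rw [one_smul] at h1
  set A := U z - U ((1 / 2 : ℝ) • z) with hA
  have i3 : IntervalIntegrable (fun t : ℝ => ‖dz U (t • z)‖ ^ 2) volume (1 / 2) 1 :=
    (hc.norm.pow 2).intervalIntegrable
  have h2 : ∫ t in (1 / 2 : ℝ)..1, 2 * A * (2 * (dz U (t • z) * z).re) ≤
      ∫ t in (1 / 2 : ℝ)..1, (A ^ 2 + 4 * ‖dz U (t • z)‖ ^ 2) := by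
    refine intervalIntegral.integral_mono_on (by norm_num) (hc2.intervalIntegrable.const_mul _)
      (intervalIntegrable_const.add (i3.const_mul _)) fun t _ => ?_
    have a1 : |(dz U (t • z) * z).re| ≤ ‖dz U (t • z)‖ := by
      refine (abs_re_le_norm _).trans ?_
      rw [norm_mul]
      exact mul_le_of_le_one_right (norm_nonneg _) hz1.le
    have a2 := sq_le_sq' (abs_le.1 a1).1 (abs_le.1 a1).2
    nlinarith [sq_nonneg (A - 2 * (dz U (t • z) * z).re)]
  rw [intervalIntegral.integral_const_mul, h1, intervalIntegral.integral_add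
    intervalIntegrable_const (i3.const_mul _), intervalIntegral.integral_const,
    intervalIntegral.integral_const_mul, smul_eq_mul] at h2
  nlinarith [sq_nonneg A]

/-- A `C¹` function on the disc with finite Dirichlet integral is in `L²(D)`.  Recipe: for
`z ∈ D`, `U z - U (z/2) = ∫_{1/2}^1 fderiv U (t z) z dt`, so (Cauchy-Schwarz / Jensen,
`norm_fderiv_eq`) `U(z)² ≤ 2 M² + 4 ∫_{1/2}^1 ‖dz U (t z)‖² dt`, `M` a bound of `U` on
`closedBall 0 (1/2)`; Tonelli (`lintegral_lintegral_swap`) and scaling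
(`lintegral_comp_smul` / `Measure.addHaar_smul`, applied to `D.indicator ‖dz U‖²`, note
`t z ∈ D`) give `∫_D ‖dz U (t z)‖² dz ≤ t⁻² ∫_D ‖dz U‖² ≤ 4 ∫_D ‖dz U‖²`. -/
theorem memLp_two_of_dz {U : ℂ → ℝ} (hU : ContDiffOn ℝ 1 U D)
    (h : IntegrableOn (fun z => ‖dz U z‖ ^ 2) D) : MemLp U 2 (volume.restrict D) := by
  have hUm : AEStronglyMeasurable U (volume.restrict D) :=
    hU.continuousOn.aestronglyMeasurable isOpen_D.measurableSet
  rw [memLp_two_iff_integrable_sq hUm]
  obtain ⟨M, hM⟩ := (isCompact_closedBall (0 : ℂ) (1 / 2)).exists_bound_of_continuousOn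
    (hU.continuousOn.mono (closedBall_subset_ball (by norm_num)))
  set g : ℂ → ℝ := D.indicator fun z => ‖dz U z‖ ^ 2 with hg
  have hgi : Integrable g := (integrable_indicator_iff isOpen_D.measurableSet).2 h
  have hgm : Measurable g :=
    ((dense_measurable_dz U).norm.pow_const 2).indicator isOpen_D.measurableSet
  have hF : Integrable (fun p : ℂ × ℝ => g (p.2 • p.1))
      (volume.prod (volume.restrict (Ioc (1 / 2 : ℝ) 1))) := by
    refine (integrable_prod_iff' (hgm.comp (by fun_prop)).aestronglyMeasurable).2 ⟨?_, ?_⟩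
    · refine (ae_restrict_iff' measurableSet_Ioc).2 (Eventually.of_forall fun t ht => ?_)
      exact hgi.comp_smul (by linarith [ht.1])
    · have e : ∀ t : ℝ, ∫ x : ℂ, ‖g (t • x)‖ = |(t ^ Module.finrank ℝ ℂ)⁻¹| • ∫ x : ℂ, ‖g x‖ :=
        fun t => Measure.integral_comp_smul volume (fun x => ‖g x‖) t
      simp only [Function.comp_apply, e]
      refine IntegrableOn.mono_set (t := Icc (1 / 2 : ℝ) 1) ?_ Ioc_subset_Icc_self
      refine ContinuousOn.integrableOn_Icc (ContinuousOn.fun_smul ?_ continuousOn_const)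
      refine ContinuousOn.abs (ContinuousOn.inv₀ (by fun_prop) fun t ht => ?_)
      exact pow_ne_zero _ (by linarith [ht.1])
  have hH : Integrable (fun z : ℂ => 2 * M ^ 2 + 8 * ∫ t in Ioc (1 / 2 : ℝ) 1, g (t • z))
      (volume.restrict D) :=
    (integrable_const _).add ((hF.integral_prod_left.restrict).const_mul 8)
  refine hH.mono' (hUm.pow 2) ?_
  refine (ae_restrict_iff' isOpen_D.measurableSet).2 (Eventually.of_forall fun z hz => ?_)
  have hz1 := mem_D.1 hz
  have h1 := dense_ray hU hz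
  have h2 : ∫ t in (1 / 2 : ℝ)..1, ‖dz U (t • z)‖ ^ 2 = ∫ t in Ioc (1 / 2 : ℝ) 1, g (t • z) := by
    rw [intervalIntegral.integral_of_le (by norm_num)]
    refine setIntegral_congr_fun measurableSet_Ioc fun t ht => ?_
    have : t • z ∈ D := by
      rw [mem_D, norm_smul, Real.norm_eq_abs, abs_of_nonneg (by linarith [ht.1])]
      exact (mul_le_of_le_one_left (norm_nonneg _) ht.2).trans_lt hz1
    simp only [hg, indicator_of_mem this]
  have h3 : |U ((1 / 2 : ℝ) • z)| ≤ M := by
    refine hM _ ?_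
    rw [mem_closedBall_zero_iff, norm_smul, Real.norm_eq_abs, abs_of_pos (by norm_num)]
    linarith
  have h4 := sq_le_sq' (abs_le.1 h3).1 (abs_le.1 h3).2
  rw [h2] at h1
  rw [Real.norm_eq_abs, abs_of_nonneg (sq_nonneg _)]
  nlinarith [sq_nonneg (U z - 2 * U ((1 / 2 : ℝ) • z))]

end Crest.Agent.R101
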