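import Crest.Agent.R101.Basic

/-!
# Row 101: first variation and the classical equation   (TASK C)
-/

open Complex MeasureTheory Set Metric Filter Topology
open scoped ComplexConjugate

noncomputable section

namespace Crest.Agent.R101

lemma var_int_mul {S : Set ℂ} (hS : IsOpen S) {ρ : ℂ → ℝ} (hρc : ContinuousOn ρ S)
    (hρ0 : ∀ z ∈ S, 0 ≤ ρ z) {U V : ℂ → ℝ} (hU : Adm S ρ U) (hV : Adm S ρ V) :
    IntegrableOn (fun z => U z * V z * ρ z) S := by
  refine Integrable.mono' (hU.2.1.add hV.2.1)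
    (((hU.1.continuousOn.mul hV.1.continuousOn).mul hρc).aestronglyMeasurable hS.measurableSet)
    ((ae_restrict_iff' hS.measurableSet).2 (Eventually.of_forall fun z hz => ?_))
  have h0 := hρ0 z hz
  rw [Real.norm_eq_abs, abs_mul, abs_of_nonneg h0, Pi.add_apply, ← add_mul]
  refine mul_le_mul_of_nonneg_right ?_ h0
  rw [abs_le]
  constructor <;> nlinarith [sq_nonneg (U z + V z), sq_nonneg (U z - V z)]

lemma var_int_dz {S : Set ℂ} (hS : IsOpen S) {ρ : ℂ → ℝ} {U V : ℂ → ℝ} (hU : Adm S ρ U)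
    (hV : Adm S ρ V) : IntegrableOn (fun z => (dz U z * conj (dz V z)).re) S := by
  have hc : ContinuousOn (fun z => (dz U z * conj (dz V z)).re) S :=
    continuous_re.comp_continuousOn ((continuousOn_dz hS hU.1).mul
      (continuous_conj.comp_continuousOn (continuousOn_dz hS hV.1)))
  refine Integrable.mono' (hU.2.2.add hV.2.2) (hc.aestronglyMeasurable hS.measurableSet)
    (Eventually.of_forall fun z => ?_)
  rw [Real.norm_eq_abs, Pi.add_apply]
  refine (abs_re_le_norm _).trans ?_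
  rw [norm_mul, RCLike.norm_conj]
  nlinarith [sq_nonneg (‖dz U z‖ - ‖dz V z‖), norm_nonneg (dz U z), norm_nonneg (dz V z)]

lemma var_adm_const {S : Set ℂ} {ρ : ℂ → ℝ} (hρ : IntegrableOn ρ S) (c : ℝ) :
    Adm S ρ (fun _ => c) :=
  ⟨contDiffOn_const, hρ.const_mul _, by simp⟩

lemma var_dz_add_mul {S : Set ℂ} (hS : IsOpen S) {U V : ℂ → ℝ} (hU : ContDiffOn ℝ 1 U S)
    (hV : ContDiffOn ℝ 1 V S) (t : ℝ) {z : ℂ} (hz : z ∈ S) :
    dz (fun w => U w + t * V w) z = dz U z + t * dz V z := by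
  have h1 := differentiableAt_of_contDiffOn hS hU (by simp) hz
  have h2 := differentiableAt_of_contDiffOn hS hV (by simp) hz
  rw [dz_add h1 (h2.const_mul t), dz_const_mul t h2]

lemma var_norm_sq (a b : ℂ) (t : ℝ) :
    ‖a + t * b‖ ^ 2 = ‖a‖ ^ 2 + 2 * t * (a * conj b).re + t ^ 2 * ‖b‖ ^ 2 := by
  simp only [← normSq_eq_norm_sq, normSq_apply, add_re, add_im, mul_re, mul_im, ofReal_re,
    ofReal_im, conj_re, conj_im]
  ring

lemma var_adm_add_mul {S : Set ℂ} (hS : IsOpen S) {ρ : ℂ → ℝ} (hρc : ContinuousOn ρ S)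
    (hρ0 : ∀ z ∈ S, 0 ≤ ρ z) {U V : ℂ → ℝ} (hU : Adm S ρ U) (hV : Adm S ρ V) (t : ℝ) :
    Adm S ρ (fun z => U z + t * V z) := by
  refine ⟨hU.1.add (contDiffOn_const.mul hV.1), ?_, ?_⟩
  · refine ((hU.2.1.add ((var_int_mul hS hρc hρ0 hU hV).const_mul (2 * t))).add
      (hV.2.1.const_mul (t ^ 2))).congr (Eventually.of_forall fun z => ?_)
    simp only [Pi.add_apply]; ring
  · refine IntegrableOn.congr_fun ((hU.2.2.add ((var_int_dz hS hU hV).const_mul (2 * t))).add
      (hV.2.2.const_mul (t ^ 2))) (fun z hz => ?_) hS.measurableSet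
    simp only [Pi.add_apply]
    rw [var_dz_add_mul hS hU.1 hV.1 t hz, var_norm_sq]

lemma var_integral_pos {S : Set ℂ} (hS : IsOpen S) (hne : S.Nonempty) {ρ : ℂ → ℝ}
    (hρ0 : ∀ z ∈ S, 0 < ρ z) (hρ : IntegrableOn ρ S) : 0 < ∫ z in S, ρ z := by
  rw [setIntegral_pos_iff_support_of_nonneg_ae ((ae_restrict_iff' hS.measurableSet).2
    (Eventually.of_forall fun z hz => (hρ0 z hz).le)) hρ]
  refine (hS.measure_pos volume hne).trans_le (measure_mono fun z hz => ⟨(hρ0 z hz).ne', hz⟩)

lemma var_integral_add3 {μ : Measure ℂ} {f g h : ℂ → ℝ} (hf : Integrable f μ)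
    (hg : Integrable g μ) (hh : Integrable h μ) (b c : ℝ) :
    ∫ z, (f z + b * g z + c * h z) ∂μ = (∫ z, f z ∂μ) + b * (∫ z, g z ∂μ) + c * ∫ z, h z ∂μ := by
  rw [integral_add (f := fun z => f z + b * g z) (hf.add (hg.const_mul b)) (hh.const_mul c),
    integral_add hf (hg.const_mul b), integral_const_mul, integral_const_mul]

lemma var_integral_re {μ : Measure ℂ} {f : ℂ → ℂ} (hf : Integrable f μ) :
    ∫ z, (f z).re ∂μ = (∫ z, f z ∂μ).re := integral_re hf

lemma var_lin_zero {A B : ℝ} (h : ∀ t : ℝ, 0 ≤ 2 * t * A + t ^ 2 * B) : A = 0 := by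
  have hd : 0 < |B| + 1 := by positivity
  have h1 := h (-A / (|B| + 1))
  have h2 : 2 * (-A / (|B| + 1)) * A + (-A / (|B| + 1)) ^ 2 * B =
      A ^ 2 * (B - 2 * (|B| + 1)) / (|B| + 1) ^ 2 := by
    field_simp; ring
  rw [h2, le_div_iff₀ (by positivity), zero_mul] at h1
  have h3 : B - 2 * (|B| + 1) < 0 := by linarith [le_abs_self B, abs_nonneg B]
  have h4 : A ^ 2 ≤ 0 := by nlinarith [sq_nonneg A]
  exact pow_eq_zero_iff (two_ne_zero) |>.1 (le_antisymm h4 (sq_nonneg A))

/-- First variation.  Recipe: `m = (∫ V ρ)/(∫ ρ)` (`∫ ρ > 0`: `setIntegral_pos_iff_support_of_nonneg_ae`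
or continuity + positivity on a non-empty open set), `V₀ = V - m`; `U + t V₀` is admissible with
mean zero (`V ρ` is integrable since `|V| ρ ≤ (V² ρ + ρ)/2`; `|U V ρ| ≤ (U²ρ + V²ρ)/2`);
`dz (U + t V₀) = dz U + t dz V` on `S` (`dz_add`, `dz_const_mul`, `dz_sub`); the Neumann
inequality gives `0 ≤ 2 t q(U,V₀) + t² q(V₀)` for all real `t`, so `q(U,V₀) = 0`, and
`∫ U V₀ ρ = ∫ U V ρ` because `∫ U ρ = 0`. -/
theorem weak_of_neu {S : Set ℂ} (hS : IsOpen S) (hne : S.Nonempty) {ρ : ℂ → ℝ}
    (hρc : ContinuousOn ρ S) (hρ0 : ∀ z ∈ S, 0 < ρ z) (hρ : IntegrableOn ρ S) {lam : ℝ}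
    (hN : Neu S ρ lam) {U : ℂ → ℝ} (hU : Adm S ρ U) (hm : ∫ z in S, U z * ρ z = 0)
    (heq : lam * ∫ z in S, U z ^ 2 * ρ z = ∫ z in S, ‖dz U z‖ ^ 2) : Weak S ρ lam U := by
  intro V hV
  have hρ0' : ∀ z ∈ S, 0 ≤ ρ z := fun z hz => (hρ0 z hz).le
  have hpos := var_integral_pos hS hne hρ0 hρ
  have h1 : Adm S ρ (fun _ => (1 : ℝ)) := var_adm_const hρ 1
  have hint : ∀ {W : ℂ → ℝ}, Adm S ρ W → IntegrableOn (fun z => W z * ρ z) S := fun hW => by
    simpa using var_int_mul hS hρc hρ0' hW h1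
  set m : ℝ := (∫ z in S, V z * ρ z) / ∫ z in S, ρ z with hmdef
  set V0 : ℂ → ℝ := fun z => V z + (-m) * 1 with hV0
  have hV0a : Adm S ρ V0 := var_adm_add_mul hS hρc hρ0' hV h1 (-m)
  have hV0m : ∫ z in S, V0 z * ρ z = 0 := by
    have : (fun z => V0 z * ρ z) = fun z => V z * ρ z - m * ρ z := by
      funext z; simp only [hV0]; ring
    rw [this, integral_sub (hint hV) (hρ.const_mul m), integral_const_mul, hmdef,
      div_mul_cancel₀ _ hpos.ne', sub_self]
  have hA : (∫ z in S, (dz U z * conj (dz V0 z)).re) - lam * ∫ z in S, U z * V0 z * ρ z = 0 := by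
    refine var_lin_zero (B := (∫ z in S, ‖dz V0 z‖ ^ 2) - lam * ∫ z in S, V0 z ^ 2 * ρ z)
      fun t => ?_
    have hW := var_adm_add_mul hS hρc hρ0' hU hV0a t
    have hWm : ∫ z in S, (U z + t * V0 z) * ρ z = 0 := by
      have : (fun z => (U z + t * V0 z) * ρ z) = fun z => U z * ρ z + t * (V0 z * ρ z) := by
        funext z; ring
      rw [this, integral_add (hint hU) ((hint hV0a).const_mul t), integral_const_mul, hm, hV0m]
      ring
    have h2 := hN _ hW hWm
    have e1 : ∫ z in S, (U z + t * V0 z) ^ 2 * ρ z = (∫ z in S, U z ^ 2 * ρ z) +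
        2 * t * (∫ z in S, U z * V0 z * ρ z) + t ^ 2 * ∫ z in S, V0 z ^ 2 * ρ z := by
      have : (fun z => (U z + t * V0 z) ^ 2 * ρ z) = fun z => (U z ^ 2 * ρ z +
          2 * t * (U z * V0 z * ρ z)) + t ^ 2 * (V0 z ^ 2 * ρ z) := by
        funext z; ring
      rw [this, var_integral_add3 hU.2.1 (var_int_mul hS hρc hρ0' hU hV0a) hV0a.2.1]
    have e2 : ∫ z in S, ‖dz (fun w => U w + t * V0 w) z‖ ^ 2 = (∫ z in S, ‖dz U z‖ ^ 2) +
        2 * t * (∫ z in S, (dz U z * conj (dz V0 z)).re) + t ^ 2 * ∫ z in S, ‖dz V0 z‖ ^ 2 := by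
      rw [setIntegral_congr_fun hS.measurableSet (g := fun z => (‖dz U z‖ ^ 2 +
          2 * t * (dz U z * conj (dz V0 z)).re) + t ^ 2 * ‖dz V0 z‖ ^ 2) (fun z hz => by
            simp only
            rw [var_dz_add_mul hS hU.1 hV0a.1 t hz, var_norm_sq]),
        var_integral_add3 hU.2.2 (var_int_dz hS hU hV0a) hV0a.2.2]
    rw [e1, e2] at h2
    nlinarith
  have e3 : ∫ z in S, (dz U z * conj (dz V0 z)).re = ∫ z in S, (dz U z * conj (dz V z)).re := by
    refine setIntegral_congr_fun hS.measurableSet fun z hz => ?_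
    simp only [hV0]
    rw [var_dz_add_mul hS hV.1 h1.1 (-m) hz]
    simp
  have e4 : ∫ z in S, U z * V0 z * ρ z = ∫ z in S, U z * V z * ρ z := by
    have : (fun z => U z * V0 z * ρ z) = fun z => U z * V z * ρ z - m * (U z * ρ z) := by
      funext z; simp only [hV0]; ring
    rw [this, integral_sub (var_int_mul hS hρc hρ0' hU hV) ((hint hU).const_mul m),
      integral_const_mul, hm]
    ring
  rw [e3, e4] at hA
  linarith

/-- Compactly supported `C¹` functions are admissible
(`integrable_mul_of_tsupport_real`, `continuous_dz`, `dz η = 0` off `tsupport η`). -/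
theorem adm_of_hasCompactSupport {S : Set ℂ} (hS : IsOpen S) {ρ : ℂ → ℝ}
    (hρc : ContinuousOn ρ S) {η : ℂ → ℝ} (hη : ContDiff ℝ 1 η) (hc : HasCompactSupport η)
    (hs : tsupport η ⊆ S) : Adm S ρ η := by
  refine ⟨hη.contDiffOn, ?_, ?_⟩
  · have := integrable_mul_of_tsupport_real hS hη.continuous hc hs
      (Y := fun z => η z * ρ z) (hη.continuous.continuousOn.mul hρc)
    refine (this.congr (Eventually.of_forall fun z => ?_)).integrableOn
    simp only; ring
  · refine (Continuous.integrable_of_hasCompactSupport ((continuous_dz hη).norm.pow 2)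
      ?_).integrableOn
    refine HasCompactSupport.intro hc fun z hz => ?_
    have : dz η z = 0 := dz_eq_zero_iff.2 (fderiv_of_notMem_tsupport ℝ hz)
    simp [this]

/-- A `C²` weak solution is a classical solution.  Recipe: the imaginary part vanishes by
`im_dbar_dz`.  For the real part let `f = (dbar (dz U)).re + lam ρ U`, continuous on `S`
(`contDiffOn_dz`, `continuousOn_dbar`); for smooth `η` with compact support in `S`,
`integral_mul_dbar` (with `↑η` and `Y = dz U`; `dbar ↑η = conj (dz η)` by `hasW_ofReal`) and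
the weak equation give `∫ η • f = 0`; `IsOpen.ae_eq_zero_of_integral_contDiff_smul_eq_zero` and
continuity (`Measure.eqOn_open_of_ae_eq` / `eqOn_of_ae_eq`) finish. -/
theorem dbar_dz_eq {S : Set ℂ} (hS : IsOpen S) {ρ : ℂ → ℝ} (hρc : ContinuousOn ρ S) {lam : ℝ}
    {U : ℂ → ℝ} (hU : ContDiffOn ℝ 2 U S) (hw : Weak S ρ lam U) {z : ℂ} (hz : z ∈ S) :
    dbar (dz U) z = -((lam * ρ z * U z : ℝ) : ℂ) := by
  have hY : ContDiffOn ℝ 1 (dz U) S := contDiffOn_dz hS hU (by norm_num)
  have hdc : ContinuousOn (dbar (dz U)) S := continuousOn_dbar hS hY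
  have hrc : ContinuousOn (fun w => (dbar (dz U) w).re) S := continuous_re.comp_continuousOn hdc
  have hUc : ContinuousOn (fun w => lam * ρ w * U w) S :=
    (continuousOn_const.mul hρc).mul hU.continuousOn
  have hfc : ContinuousOn (fun w => (dbar (dz U) w).re + lam * ρ w * U w) S := hrc.add hUc
  have hae := hS.ae_eq_zero_of_integral_contDiff_smul_eq_zero (μ := volume)
    (hfc.locallyIntegrableOn hS.measurableSet) (fun η hη hc hs => by
      have hη1 : ContDiff ℝ 1 η := hη.of_le (by exact_mod_cast le_top)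
      have hηc : ContDiff ℝ 1 (fun w => (η w : ℂ)) := ofRealCLM.contDiff.comp hη1
      have hcc : HasCompactSupport (fun w => (η w : ℂ)) := hc.comp_left ofReal_zero
      have hsc : tsupport (fun w => (η w : ℂ)) ⊆ S :=
        (tsupport_comp_subset (g := fun x : ℝ => (x : ℂ)) ofReal_zero η).trans hs
      have h1 := integral_mul_dbar hS hηc hcc hsc hY
      have h2 := hw η (adm_of_hasCompactSupport hS hρc hη1 hc hs)
      have hz0 : ∀ w, w ∉ S → η w = 0 := fun w hw =>
        image_eq_zero_of_notMem_tsupport fun h => hw (hs h)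
      have hz1 : ∀ w, w ∉ S → dz η w = 0 := fun w hw =>
        dz_eq_zero_iff.2 (fderiv_of_notMem_tsupport ℝ fun h => hw (hs h))
      rw [setIntegral_eq_integral_of_forall_compl_eq_zero (fun w hw => by simp [hz1 w hw]),
        setIntegral_eq_integral_of_forall_compl_eq_zero (fun w hw => by simp [hz0 w hw])] at h2
      have i1 : Integrable (fun w => (η w : ℂ) * dbar (dz U) w) :=
        integrable_mul_of_tsupport hS hηc.continuous hcc hsc hdc
      have hdb : dbar (fun w => (η w : ℂ)) = fun w => conj (dz η w) := by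
        funext w
        exact (hasW_ofReal (hη1.differentiable (by simp) w)).dbar_eq
      have i2 : Integrable (fun w => conj (dz η w) * dz U w) := by
        refine integrable_mul_of_tsupport hS (continuous_conj.comp (continuous_dz hη1))
          (HasCompactSupport.intro hc fun w hw => ?_) ?_ hY.continuousOn
        · simp [dz_eq_zero_iff.2 (fderiv_of_notMem_tsupport ℝ hw)]
        · refine (closure_minimal (fun w hw => ?_) (isClosed_tsupport η)).trans hs
          by_contra h
          exact hw (by simp [dz_eq_zero_iff.2 (fderiv_of_notMem_tsupport ℝ h)])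
      rw [hdb] at h1
      have h3 := congrArg re h1
      rw [neg_re, ← var_integral_re i1, ← var_integral_re i2] at h3
      have i3 := integrable_mul_of_tsupport_real hS hη1.continuous hc hs hrc
      have i4 := integrable_mul_of_tsupport_real hS hη1.continuous hc hs hUc
      have e1 : (fun w => η w • ((dbar (dz U) w).re + lam * ρ w * U w)) =
          fun w => η w * (dbar (dz U) w).re + η w * (lam * ρ w * U w) := by
        funext w; rw [smul_eq_mul, mul_add]
      have e2 : ∫ w, η w * (dbar (dz U) w).re = ∫ w, ((η w : ℂ) * dbar (dz U) w).re := by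
        simp only [re_ofReal_mul]
      have e3 : ∫ w, η w * (lam * ρ w * U w) = lam * ∫ w, U w * η w * ρ w := by
        rw [← integral_const_mul]; congr 1; funext w; ring
      have e4 : ∫ w, (conj (dz η w) * dz U w).re = ∫ w, (dz U w * conj (dz η w)).re := by
        simp only [mul_comm]
      rw [e1, integral_add i3 i4, e2, e3, h3, e4, h2]
      ring)
  have hE : EqOn (fun w => (dbar (dz U) w).re + lam * ρ w * U w) (fun _ => 0) S :=
    Measure.eqOn_open_of_ae_eq (μ := volume) ((ae_restrict_iff' hS.measurableSet).2 hae) hS hfc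
      continuousOn_const
  have h1 := hE hz
  have h2 := im_dbar_dz (hU.contDiffAt (hS.mem_nhds hz))
  apply Complex.ext
  · simp only [neg_re, ofReal_re]; simp only at h1; linarith
  · simp only [neg_im, ofReal_im, neg_zero]; exact h2

end Crest.Agent.R101
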