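import Crest.Agent.R101.Filonov
import Crest.Agent.R101.Dense
import Crest.Agent.R101.Var

/-!
# Row 101: the vector (Rohleder-type) inequality   (TASK C)
-/

open Complex MeasureTheory Set Metric Filter Topology
open scoped ComplexConjugate

noncomputable section

namespace Crest.Agent.R101

lemma vec_contDiff_re {Φ : ℂ → ℂ} {n : WithTop ℕ∞} (h : ContDiff ℝ n Φ) :
    ContDiff ℝ n (fun w => (Φ w).re) := reCLM.contDiff.comp h

lemma vec_contDiff_im {Φ : ℂ → ℂ} {n : WithTop ℕ∞} (h : ContDiff ℝ n Φ) :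
    ContDiff ℝ n (fun w => (Φ w).im) := imCLM.contDiff.comp h

lemma vec_dzc_eq {Φ : ℂ → ℂ} (h : ContDiff ℝ 1 Φ) (z : ℂ) :
    dzc Φ z = dz (fun w => (Φ w).re) z + I * dz (fun w => (Φ w).im) z := by
  have ha := hasW_ofReal ((vec_contDiff_re h).differentiable (by simp) z)
  have hb := hasW_ofReal ((vec_contDiff_im h).differentiable (by simp) z)
  have e : Φ = fun w => ((Φ w).re : ℂ) + I * ((Φ w).im : ℂ) := by
    funext w; rw [mul_comm, re_add_im]
  conv_lhs => rw [e]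
  exact (ha.add (hb.const_mul I)).dzc_eq

lemma vec_norm_sq (a b : ℂ) :
    ‖a + I * b‖ ^ 2 = ‖a‖ ^ 2 + 2 * (a * conj b).im + 1 * ‖b‖ ^ 2 := by
  simp only [← normSq_eq_norm_sq, normSq_apply, add_re, add_im, mul_re, mul_im, I_re, I_im,
    conj_re, conj_im]
  ring

lemma vec_norm_sub_sq (a b : ℂ) :
    ‖a - b‖ ^ 2 = ‖a‖ ^ 2 + (-2) * (a * conj b).re + 1 * ‖b‖ ^ 2 := by
  simp only [← normSq_eq_norm_sq, normSq_apply, sub_re, sub_im, mul_re, conj_re, conj_im]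
  ring

lemma vec_amgm (a b : ℂ) {c : ℝ} (hc : 0 < c) :
    2 * |(a * conj b).re| ≤ ‖a‖ ^ 2 / c + ‖b‖ ^ 2 * c := by
  have h1 : |(a * conj b).re| ≤ ‖a‖ * ‖b‖ := by
    refine (abs_re_le_norm _).trans ?_
    rw [norm_mul, RCLike.norm_conj]
  have h2 : ‖a‖ ^ 2 / c + ‖b‖ ^ 2 * c - 2 * (‖a‖ * ‖b‖) = (‖a‖ - ‖b‖ * c) ^ 2 / c := by
    field_simp; ring
  have h3 : 0 ≤ (‖a‖ - ‖b‖ * c) ^ 2 / c := by positivity
  linarith

/-- Energy splitting for test fields.  Recipe: `a = Re Φ`, `b = Im Φ`, `dzc Φ = dz a + I dz b`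
(from `hasW_ofReal`, `Φ = a + I b`), `‖dzc Φ‖² = ‖dz a‖² + ‖dz b‖² + 2 Im(dz a * conj (dz b))`,
and `Im(dz a * conj (dz b)) = Re dbar (-I b dz a)` (`im_dbar_dz`), integral zero by
`green_small` + `bound_of_vanish`. -/
theorem Test.energy {Φ : ℂ → ℂ} (h : Test Φ) :
    ∫ z in D, ‖dzc Φ z‖ ^ 2 =
      (∫ z in D, ‖dz (fun w => (Φ w).re) z‖ ^ 2) + ∫ z in D, ‖dz (fun w => (Φ w).im) z‖ ^ 2 := by
  set a : ℂ → ℝ := fun w => (Φ w).re with ha
  set b : ℂ → ℝ := fun w => (Φ w).im with hb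
  have h1 : ContDiff ℝ 1 Φ := h.1.of_le (by norm_num)
  have ha2 : ContDiff ℝ 2 a := vec_contDiff_re h.1
  have ha1 : ContDiff ℝ 1 a := vec_contDiff_re h1
  have hb1 : ContDiff ℝ 1 b := vec_contDiff_im h1
  have hda : ContDiff ℝ 1 (dz a) :=
    contDiffOn_univ.1 (contDiffOn_dz isOpen_univ ha2.contDiffOn (by norm_num))
  have hX : IntegrableOn (fun z => (dz a z * conj (dz b z)).im) D :=
    integrableOn_D_of_continuous (continuous_im.comp ((continuous_dz ha1).mul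
      (continuous_conj.comp (continuous_dz hb1))))
  obtain ⟨L, hL0, hL⟩ := bound_of_vanish hb1 h.2
  obtain ⟨M, hM0, hM⟩ := exists_bound_D (continuous_dz ha1)
  have h0 : ∫ z in D, (dz a z * conj (dz b z)).im = 0 := by
    refine green_small (Y := fun z => -I * ((b z : ℂ) * dz a z))
      (contDiffOn_const.mul ((contDiff_ofReal_comp hb1.contDiffOn).mul hda.contDiffOn))
      (fun z _ => ?_) hX (E := fun _ => L * M) (integrableOn_D_of_continuous continuous_const)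
      (fun z hz => ?_)
    · have e1 := (((hasW_ofReal (hb1.differentiable (by simp) z)).mul
        (hasW_of_differentiableAt (hda.differentiable (by simp) z))).const_mul (-I)).dbar_eq
      have e2 := im_dbar_dz (ha2.contDiffAt (x := z))
      rw [e1]
      simp only [mul_re, mul_im, neg_re, neg_im, I_re, I_im, add_re, add_im, ofReal_re, ofReal_im,
        conj_re, conj_im, e2]
      ring
    · rw [norm_mul, norm_mul, norm_neg, norm_I, one_mul, norm_real, Real.norm_eq_abs]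
      have h2 : 0 ≤ 1 - ‖z‖ ^ 2 := by
        have := mem_D.1 hz
        nlinarith [norm_nonneg z]
      calc |b z| * ‖dz a z‖ ≤ L * (1 - ‖z‖ ^ 2) * M :=
            mul_le_mul (hL z hz) (hM z hz) (norm_nonneg _) (by positivity)
        _ = _ := by ring
  have e : (fun z => ‖dzc Φ z‖ ^ 2) = fun z =>
      ‖dz a z‖ ^ 2 + 2 * (dz a z * conj (dz b z)).im + 1 * ‖dz b z‖ ^ 2 := by
    funext z; rw [vec_dzc_eq h1, vec_norm_sq]
  have ia : IntegrableOn (fun z => ‖dz a z‖ ^ 2) D :=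
    integrableOn_D_of_continuous ((continuous_dz ha1).norm.pow 2)
  have ib : IntegrableOn (fun z => ‖dz b z‖ ^ 2) D :=
    integrableOn_D_of_continuous ((continuous_dz hb1).norm.pow 2)
  rw [e, var_integral_add3 ia hX ib, h0]
  ring

namespace Setup
variable (P : Setup)

/-- `P.neu` for `Re Φ` (`adm_of_contDiff`), `P.dirichlet` for `Im Φ`, and `Test.energy`. -/
theorem test_ineq {Φ : ℂ → ℂ} (h : Test Φ) (hm : ∫ z in D, (Φ z).re * rho P.φ z = 0) :
    P.lam * ∫ z in D, ‖Φ z‖ ^ 2 * rho P.φ z ≤ ∫ z in D, ‖dzc Φ z‖ ^ 2 := by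
  have h1 : ContDiff ℝ 1 Φ := h.1.of_le (by norm_num)
  have ha := P.adm_of_contDiff (vec_contDiff_re h1)
  have hb := P.adm_of_contDiff (vec_contDiff_im h1)
  have i1 := P.neu _ ha hm
  have i2 := P.dirichlet (vec_contDiff_im h1) h.2
  have e : (fun z => ‖Φ z‖ ^ 2 * rho P.φ z) =
      fun z => (Φ z).re ^ 2 * rho P.φ z + (Φ z).im ^ 2 * rho P.φ z := by
    funext z; rw [← normSq_eq_norm_sq, normSq_apply]; ring
  rw [h.energy, e, integral_add ha.2.1 hb.2.1]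
  linarith

/-- The vector inequality.  Recipe: take `Φ` from `exists_test_approx`, subtract a real constant
so that `∫ Re Φ ρ = 0` (still a test field, same `dzc`; `∫ ρ > 0`).  Pointwise AM-GM
`-2 Re(ψ conj Φ) ≤ ‖ψ‖²/(lam ρ) + lam ‖Φ‖² ρ`; then
`ε ≥ ‖g - ∂Φ‖² = ‖g‖² - 2 Re⟨g,∂Φ⟩ + ‖∂Φ‖² = ‖g‖² + 2 Re⟨ψ,Φ⟩ + ‖∂Φ‖² ≥ ‖g‖² - (∫‖ψ‖²/ρ)/lam`
by `test_ineq`.  (`ψ` is integrable: `‖ψ‖ ≤ (‖ψ‖²/ρ + ρ)/2`.) -/
theorem vec_ineq {g ψ : ℂ → ℂ} (hg : MemLp g 2 (volume.restrict D))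
    (hψm : AEStronglyMeasurable ψ (volume.restrict D))
    (hψ : IntegrableOn (fun z => ‖ψ z‖ ^ 2 / rho P.φ z) D)
    (hbc : ∀ Φ, Test Φ →
      ∫ z in D, ((g z * conj (dzc Φ z)).re + (ψ z * conj (Φ z)).re) = 0) :
    P.lam * ∫ z in D, ‖g z‖ ^ 2 ≤ ∫ z in D, ‖ψ z‖ ^ 2 / rho P.φ z := by
  have hlam := P.lam_pos
  have hDm : MeasurableSet D := isOpen_D.measurableSet
  refine le_of_forall_pos_le_add fun δ hδ => ?_
  obtain ⟨Φ0, hΦ0, happ⟩ := exists_test_approx hg (div_pos hδ hlam)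
  have hpos := var_integral_pos isOpen_D ⟨0, zero_mem_D⟩ (fun z hz => P.rho_pos hz) P.hρ
  have h01 : ContDiff ℝ 1 Φ0 := hΦ0.1.of_le (by norm_num)
  set m : ℝ := (∫ z in D, (Φ0 z).re * rho P.φ z) / ∫ z in D, rho P.φ z with hm
  set Φ : ℂ → ℂ := fun z => Φ0 z - m with hΦdef
  have hΦ : Test Φ := ⟨hΦ0.1.sub contDiff_const, fun z hz => by simp [hΦdef, hΦ0.2 z hz]⟩
  have h1 : ContDiff ℝ 1 Φ := hΦ.1.of_le (by norm_num)
  have hd : dzc Φ0 = dzc Φ := by
    funext z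
    rw [((hasW_of_differentiableAt (h01.differentiable (by simp) z)).sub
      (hasW_const (m : ℂ) z)).dzc_eq, sub_zero]
  have hmean : ∫ z in D, (Φ z).re * rho P.φ z = 0 := by
    obtain ⟨M, -, hM⟩ := exists_bound_D (vec_contDiff_re h01).continuous
    have i0 := P.integrableOn_mul_rho (vec_contDiff_re h01).continuous.continuousOn hM
    have : (fun z => (Φ z).re * rho P.φ z) =
        fun z => (Φ0 z).re * rho P.φ z - m * rho P.φ z := by
      funext z; simp only [hΦdef, sub_re, ofReal_re]; ring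
    rw [this, integral_sub i0 (P.hρ.const_mul m), integral_const_mul, hm,
      div_mul_cancel₀ _ hpos.ne', sub_self]
  rw [hd] at happ
  have ht := P.test_ineq hΦ hmean
  have hb := hbc Φ hΦ
  have iG : IntegrableOn (fun z => ‖g z‖ ^ 2) D := (memLp_two_iff_integrable_sq_norm hg.1).1 hg
  have iE : IntegrableOn (fun z => ‖dzc Φ z‖ ^ 2) D :=
    integrableOn_D_of_continuous ((continuous_dzc h1).norm.pow 2)
  have iA : IntegrableOn (fun z => (g z * conj (dzc Φ z)).re) D :=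
    (hg.integrable_mul (memLp_D_of_continuous (F := fun z => conj (dzc Φ z))
      (continuous_conj.comp (continuous_dzc h1)) 2)).re
  have iN : IntegrableOn (fun z => ‖Φ z‖ ^ 2 * rho P.φ z) D := by
    obtain ⟨M, -, hM⟩ := exists_bound_D (h1.continuous.norm.pow 2)
    exact P.integrableOn_mul_rho (h1.continuous.norm.pow 2).continuousOn hM
  have iB : IntegrableOn (fun z => (ψ z * conj (Φ z)).re) D := by
    refine Integrable.mono' (hψ.add iN) (continuous_re.comp_aestronglyMeasurable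
      (hψm.mul (continuous_conj.comp h1.continuous).aestronglyMeasurable))
      ((ae_restrict_iff' hDm).2 (Eventually.of_forall fun z hz => ?_))
    have := vec_amgm (ψ z) (Φ z) (P.rho_pos hz)
    rw [Real.norm_eq_abs, Pi.add_apply]
    linarith [abs_nonneg (ψ z * conj (Φ z)).re]
  rw [integral_add iA iB] at hb
  have e1 : (fun z => ‖g z - dzc Φ z‖ ^ 2) = fun z =>
      ‖g z‖ ^ 2 + (-2) * (g z * conj (dzc Φ z)).re + 1 * ‖dzc Φ z‖ ^ 2 := by
    funext z; rw [vec_norm_sub_sq]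
  rw [e1, var_integral_add3 iG iA iE] at happ
  have h2 : 0 ≤ ∫ z in D, (‖ψ z‖ ^ 2 / rho P.φ z + (2 * P.lam) * (ψ z * conj (Φ z)).re +
      P.lam ^ 2 * (‖Φ z‖ ^ 2 * rho P.φ z)) := by
    refine setIntegral_nonneg hDm fun z hz => ?_
    have hr := P.rho_pos hz
    have h3 := vec_amgm (ψ z) (Φ z) (mul_pos hlam hr)
    have h4 := neg_abs_le (ψ z * conj (Φ z)).re
    have h5 : ‖ψ z‖ ^ 2 / rho P.φ z = P.lam * (‖ψ z‖ ^ 2 / (P.lam * rho P.φ z)) := by
      field_simp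
    rw [h5]
    nlinarith
  rw [var_integral_add3 hψ iB iN] at h2
  rw [le_div_iff₀ hlam] at happ
  nlinarith

end Setup

end Crest.Agent.R101
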