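import Crest.Agent.R101.Ctx
import Crest.Agent.R101.Vec

/-!
# Row 101: the fields `κ A + conj κ B` satisfy the weak boundary condition

Author: helper76.
-/

open Complex MeasureTheory Set Metric Filter Topology
open scoped ComplexConjugate

noncomputable section

namespace Crest.Agent.R101

namespace Ctx
variable (Q : Ctx)

/-- The test field. -/
def g (κ z : ℂ) : ℂ := κ * Q.A z + conj κ * Q.B z
/-- Its `∂̄` derivative. -/
def ψ (κ z : ℂ) : ℂ := κ * Q.ψA z + conj κ * Q.ψB z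

lemma cd_g (κ : ℂ) : ContDiffOn ℝ 1 (Q.g κ) Dp :=
  (contDiffOn_const.mul Q.cd_A).add (contDiffOn_const.mul Q.cd_B)

lemma cd_ψ (κ : ℂ) : ContDiffOn ℝ 1 (Q.ψ κ) Dp :=
  (contDiffOn_const.mul Q.cd_ψA).add (contDiffOn_const.mul Q.cd_ψB)

lemma L_g (κ : ℂ) : MemLp (Q.g κ) 2 (volume.restrict D) :=
  (Q.L_A.const_mul κ).add (Q.L_B.const_mul (conj κ))

lemma L_ψ (κ : ℂ) : MemLp (fun z => Q.ψ κ z * (deriv Q.φ z)⁻¹) 2 (volume.restrict D) := by
  have := (Q.L_ψA.const_mul κ).add (Q.L_ψB.const_mul (conj κ))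
  refine this.ae_eq (Eventually.of_forall fun z => ?_)
  simp only [ψ, Pi.add_apply]; ring

lemma hasW_g (κ : ℂ) {z : ℂ} (hz : z ∈ Dp) : ∃ a, HasW (Q.g κ) a (Q.ψ κ z) z := by
  obtain ⟨a, ha⟩ := Q.hasW_A hz
  obtain ⟨b, hb⟩ := Q.hasW_B hz
  exact ⟨_, (ha.const_mul κ).add (hb.const_mul (conj κ))⟩

lemma ord_g (κ : ℂ) : Ord (Q.g κ) 0 := (Q.ord_A.const_mul κ).add (Q.ord_B.const_mul _)

lemma integrableOn_ψ (κ : ℂ) : IntegrableOn (Q.ψ κ) D := by
  have := (Q.L_ψ κ).integrable_mul Q.toSetup.memLp_deriv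
  refine IntegrableOn.congr_fun this (fun z hz => ?_) isOpen_D.measurableSet
  have := Q.hφ' z hz
  simp only [Pi.mul_apply]; field_simp

lemma integrableOn_normSq_div {F : ℂ → ℂ}
    (h : MemLp (fun z => F z * (deriv Q.φ z)⁻¹) 2 (volume.restrict D)) :
    IntegrableOn (fun z => ‖F z‖ ^ 2 / Q.ρ z) D := by
  have := (memLp_two_iff_integrable_sq_norm h.1).1 h
  refine this.congr (Eventually.of_forall fun z => ?_)
  simp [rho, mul_pow, div_eq_mul_inv]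

/-- An essentially bounded function times the weight is integrable on the annulus. -/
lemma integrableOn_sq_mul_ρ {V : ℂ → ℝ} (hV : MemLp V ⊤ μA) :
    IntegrableOn (fun z => V z ^ 2 * Q.ρ z) Ann := by
  have := memLp_mul_top (memLp_mul_top hV hV)
    (memLp_one_iff_integrable.2 (Q.hρ.mono_set Ann_subset_D))
  exact (memLp_one_iff_integrable.1 this).congr (Eventually.of_forall fun z => by simp [sq])

theorem bc (κ : ℂ) {Φ : ℂ → ℂ} (hΦ : Test Φ) :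
    ∫ z in D, ((Q.g κ z * conj (dzc Φ z)).re + (Q.ψ κ z * conj (Φ z)).re) = 0 := by
  have hΦ1 : ContDiff ℝ 1 Φ := hΦ.1.of_le (by norm_num)
  have hY : ContDiffOn ℝ 1 (fun z => Q.g κ z * conj (Φ z)) Dp :=
    (Q.cd_g κ).mul (contDiffOn_conj_comp hΦ1.contDiffOn)
  refine green hY (fun z hz => ?_) ?_ ?_ ?_
  · obtain ⟨a, ha⟩ := Q.hasW_g κ hz
    rw [(ha.mul (hasW_of_differentiableAt (hΦ1.differentiable (by simp) z)).conj).dbar_eq,
      add_re, add_comm]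
  · have h1 : MemLp (fun z => Q.g κ z * conj (dzc Φ z)) 1 (volume.restrict D) :=
      MemLp.mul' (memLp_conj (memLp_D_of_continuous (continuous_dzc hΦ1) 2)) (Q.L_g κ)
    have h2 : MemLp (fun z => Q.ψ κ z * conj (Φ z)) 1 (volume.restrict D) :=
      MemLp.mul' (memLp_conj (memLp_D_of_continuous hΦ1.continuous ⊤))
        (memLp_one_iff_integrable.2 (Q.integrableOn_ψ κ))
    exact memLp_one_iff_integrable.1 ((memLp_re h1).add (memLp_re h2))
  · exact (ord_id.mul ((Q.ord_g κ).mul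
      (ord_of_continuousAt hΦ1.continuous.continuousAt).conj)).tendsto_re
  -- the outer flux
  set k : ℂ → ℂ := fun z => κ * z⁻¹ + conj κ * z with hk
  set V : ℂ → ℝ := fun z => (k z * conj (Φ z)).re with hV
  have hne : IsOpen {z : ℂ | z ≠ 0} := isOpen_ne
  have hkc : ContDiffOn ℝ 1 k {z | z ≠ 0} :=
    (contDiffOn_const.mul (contDiffOn_id.inv fun _ hz => hz)).add
      (contDiffOn_const.mul contDiffOn_id)
  have hVc : ContDiffOn ℝ 1 V {z | z ≠ 0} :=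
    contDiffOn_re_comp (hkc.mul (contDiffOn_conj_comp hΦ1.contDiffOn))
  have hVt : MemLp V ⊤ μA := memLp_top_Ann hVc.continuousOn
  obtain ⟨L, hL0, hL⟩ := bound_of_vanish (b := fun z => (Φ z).im)
    (imCLM.contDiff.comp hΦ1) hΦ.2
  have hpos : ∀ z ∈ Ann, 0 < 1 - ‖z‖ ^ 2 := fun z hz => by
    nlinarith [(mem_Ann.1 hz).2, norm_nonneg z]
  set t : ℂ → ℝ := fun z => (Φ z).im / (1 - ‖z‖ ^ 2) with ht
  have htt : MemLp t ⊤ μA := by
    refine memLp_of_bound isOpen_Ann.measurableSet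
      ((continuous_im.comp hΦ1.continuous).continuousOn.div (by fun_prop)
        fun z hz => (hpos z hz).ne') (M := L) (fun z hz => ?_) _
    rw [Real.norm_eq_abs, Pi.div_apply, abs_div, abs_of_pos (hpos z hz),
      div_le_iff₀ (hpos z hz)]
    exact hL z (Ann_subset_D hz)
  have hΦt : MemLp Φ ⊤ μA := memLp_top_Ann hΦ1.continuous.continuousOn
  have hm : MemLp (fun z => (κ * z⁻¹).im * (Φ z).re - (k z).re * t z) ⊤ μA :=
    (memLp_mul_top (memLp_im (L_inv.const_mul κ)) (memLp_re hΦt)).sub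
      (memLp_mul_top (memLp_re (memLp_top_Ann hkc.continuousOn)) htt)
  have hE : MemLp (fun z => -(((κ * z⁻¹).im * (Φ z).re - (k z).re * t z) * (z * dz Q.U z).im) -
      Q.c * ((κ - conj κ * z * (conj z)⁻¹) * conj (Φ z) * dz Q.J z).re) 1 μA := by
    refine (memLp_mul_top hm (memLp_im (memLp_mul_top L_id
      (Q.L_dzU.mono_exponent (by norm_num))))).neg.sub (MemLp.const_mul (memLp_re ?_) _)
    refine memLp_mul_top (memLp_mul_top ((memLp_top_const κ).sub (memLp_mul_top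
      (L_id.const_mul _) L_conj_inv)) (memLp_conj hΦt)) (Q.L_dzJ.mono_exponent (by norm_num))
  refine OF_of_weak' Q.toSetup.continuousOn_rho Q.toSetup.rho_nonneg Q.hU Q.hw
    (hVc.mono fun z hz => (mem_Dp.1 hz).2) (memLp_of_top hVt 2) (Q.integrableOn_sq_mul_ρ hVt)
    (memLp_of_top (memLp_top_Ann (continuousOn_dz hne hVc)) 2)
    (continuous_re.comp_continuousOn (continuousOn_id.mul hY.continuousOn)) hE fun z hz => ?_
  have hz0 : z ≠ 0 := (mem_Dp.1 (Ann_subset_Dp hz)).2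
  have hzc : conj z ≠ 0 := by simpa using hz0
  have hs : ((‖z‖ ^ 2 : ℝ) : ℂ) = z * conj z := by rw [mul_conj, normSq_eq_norm_sq]
  have e1 : z * (Q.g κ z * conj (Φ z)) = (z * dz Q.U z) * (k z * conj (Φ z)) -
      ((Q.c * (1 - ‖z‖ ^ 2) : ℝ) : ℂ) *
        ((κ - conj κ * z * (conj z)⁻¹) * conj (Φ z) * dz Q.J z) := by
    simp only [g, A, B, hk, Q.dz_W (Ann_subset_D hz), ofReal_mul, ofReal_sub, hs, ofReal_one]
    field_simp
    ring
  have e2 : (k z).im = (1 - ‖z‖ ^ 2) * (κ * z⁻¹).im := by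
    have : conj κ * z = ((‖z‖ ^ 2 : ℝ) : ℂ) * conj (κ * z⁻¹) := by
      rw [hs, map_mul, map_inv₀]; field_simp
    simp only [hk, this, add_im, im_ofReal_mul, conj_im]; ring
  have e3 : (Φ z).im = (1 - ‖z‖ ^ 2) * t z := by
    have := (hpos z hz).ne'
    simp only [ht]; field_simp
  have e4 : (k z * conj (Φ z)).im =
      (1 - ‖z‖ ^ 2) * ((κ * z⁻¹).im * (Φ z).re - (k z).re * t z) := by
    rw [mul_im, conj_im, conj_re, e2, e3]; ring
  change (z * (Q.g κ z * conj (Φ z))).re = _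
  rw [e1, sub_re, re_ofReal_mul, mul_re (z * dz Q.U z), e4]
  ring

/-- The vector inequality for the two fields, summed. -/
theorem vec_sum : Q.lam * ∫ z in D, (‖Q.A z‖ ^ 2 + ‖Q.B z‖ ^ 2) ≤
    ∫ z in D, (‖Q.ψA z‖ ^ 2 / Q.ρ z + ‖Q.ψB z‖ ^ 2 / Q.ρ z) := by
  have h : ∀ κ, Q.lam * ∫ z in D, ‖Q.g κ z‖ ^ 2 ≤ ∫ z in D, ‖Q.ψ κ z‖ ^ 2 / Q.ρ z := fun κ =>
    Q.toSetup.vec_ineq (Q.L_g κ) (Q.integrableOn_ψ κ).aestronglyMeasurable
      (Q.integrableOn_normSq_div (Q.L_ψ κ)) fun Φ hΦ => Q.bc κ hΦ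
  have par : ∀ a b : ℂ, ‖1 * a + conj 1 * b‖ ^ 2 + ‖I * a + conj I * b‖ ^ 2 =
      2 * (‖a‖ ^ 2 + ‖b‖ ^ 2) := fun a b => by
    simp only [← normSq_eq_norm_sq, normSq_apply]
    simp
    ring
  have i1 : ∀ κ, IntegrableOn (fun z => ‖Q.g κ z‖ ^ 2) D := fun κ =>
    (memLp_two_iff_integrable_sq_norm (Q.L_g κ).1).1 (Q.L_g κ)
  have e1 : (∫ z in D, ‖Q.g 1 z‖ ^ 2) + ∫ z in D, ‖Q.g I z‖ ^ 2 =
      2 * ∫ z in D, (‖Q.A z‖ ^ 2 + ‖Q.B z‖ ^ 2) := by
    rw [← integral_add (i1 1) (i1 I), ← integral_const_mul]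
    exact integral_congr_ae (Eventually.of_forall fun z => par _ _)
  have e2 : (∫ z in D, ‖Q.ψ 1 z‖ ^ 2 / Q.ρ z) + ∫ z in D, ‖Q.ψ I z‖ ^ 2 / Q.ρ z =
      2 * ∫ z in D, (‖Q.ψA z‖ ^ 2 / Q.ρ z + ‖Q.ψB z‖ ^ 2 / Q.ρ z) := by
    rw [← integral_add (Q.integrableOn_normSq_div (Q.L_ψ 1))
      (Q.integrableOn_normSq_div (Q.L_ψ I)), ← integral_const_mul]
    refine integral_congr_ae (Eventually.of_forall fun z => ?_)
    simp only [ψ]
    rw [← add_div, par]; ring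
  have e3 : Q.lam * (∫ z in D, ‖Q.g 1 z‖ ^ 2) + Q.lam * ∫ z in D, ‖Q.g I z‖ ^ 2 =
      2 * (Q.lam * ∫ z in D, (‖Q.A z‖ ^ 2 + ‖Q.B z‖ ^ 2)) := by
    rw [← mul_add, e1]; ring
  linarith [h 1, h I]

end Ctx

end Crest.Agent.R101
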