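import Crest.Agent.R101.Defs

/-!
# Row 101: basic analytic facts (integration by parts, bounds)

Author: helper76.
-/

open Complex MeasureTheory Set Metric Filter Topology
open scoped ComplexConjugate

noncomputable section

namespace Crest.Agent.R101

/-- A function continuous on an open set `S`, multiplied by a continuous function with compact
support inside `S`, is integrable. -/
lemma integrable_mul_of_tsupport {S : Set ℂ} (hS : IsOpen S) {η Y : ℂ → ℂ} (hη : Continuous η)
    (hc : HasCompactSupport η) (hs : tsupport η ⊆ S) (hY : ContinuousOn Y S) :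
    Integrable (fun z => η z * Y z) := by
  have hcont : Continuous (fun z => η z * Y z) := by
    refine continuous_of_tsupport fun z hz => ?_
    have hz' : z ∈ tsupport η := tsupport_mul_subset_left hz
    exact hη.continuousAt.mul (hY.continuousAt (hS.mem_nhds (hs hz')))
  exact hcont.integrable_of_hasCompactSupport hc.mul_right

/-- Real version of `integrable_mul_of_tsupport`. -/
lemma integrable_mul_of_tsupport_real {S : Set ℂ} (hS : IsOpen S) {η Y : ℂ → ℝ}
    (hη : Continuous η) (hc : HasCompactSupport η) (hs : tsupport η ⊆ S)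
    (hY : ContinuousOn Y S) : Integrable (fun z => η z * Y z) := by
  have hcont : Continuous (fun z => η z * Y z) := by
    refine continuous_of_tsupport fun z hz => ?_
    have hz' : z ∈ tsupport η := tsupport_mul_subset_left hz
    exact hη.continuousAt.mul (hY.continuousAt (hS.mem_nhds (hs hz')))
  exact hcont.integrable_of_hasCompactSupport hc.mul_right

lemma integral_mul_fderiv {S : Set ℂ} (hS : IsOpen S) {η Y : ℂ → ℂ} (hη : ContDiff ℝ 1 η)
    (hc : HasCompactSupport η) (hs : tsupport η ⊆ S) (hY : ContDiffOn ℝ 1 Y S) (v : ℂ) :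
    ∫ z, η z * fderiv ℝ Y z v = -∫ z, fderiv ℝ η z v * Y z := by
  have hη' : Continuous (fun z => fderiv ℝ η z v) :=
    (hη.continuous_fderiv (by simp)).clm_apply continuous_const
  have hc' : HasCompactSupport (fun z => fderiv ℝ η z v) := hc.fderiv_apply ℝ v
  have hs' : tsupport (fun z => fderiv ℝ η z v) ⊆ S :=
    (tsupport_fderiv_apply_subset ℝ v).trans hs
  refine integral_mul_fderiv_eq_neg_fderiv_mul_of_integrable
    (integrable_mul_of_tsupport hS hη' hc' hs' hY.continuousOn)
    (integrable_mul_of_tsupport hS hη.continuous hc hs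
      ((hY.continuousOn_fderiv_of_isOpen hS le_rfl).clm_apply continuousOn_const))
    (integrable_mul_of_tsupport hS hη.continuous hc hs hY.continuousOn)
    (fun z _ => hη.differentiable (by simp) z)
    (fun z hz => differentiableAt_of_contDiffOn hS hY (by simp) (hs hz))

/-- Integration by parts for `∂̄`. -/
lemma integral_mul_dbar {S : Set ℂ} (hS : IsOpen S) {η Y : ℂ → ℂ} (hη : ContDiff ℝ 1 η)
    (hc : HasCompactSupport η) (hs : tsupport η ⊆ S) (hY : ContDiffOn ℝ 1 Y S) :
    ∫ z, η z * dbar Y z = -∫ z, dbar η z * Y z := by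
  have i1 : ∀ v : ℂ, Integrable (fun z => η z * fderiv ℝ Y z v) := fun v =>
    integrable_mul_of_tsupport hS hη.continuous hc hs
      ((hY.continuousOn_fderiv_of_isOpen hS le_rfl).clm_apply continuousOn_const)
  have i2 : ∀ v : ℂ, Integrable (fun z => fderiv ℝ η z v * Y z) := fun v =>
    integrable_mul_of_tsupport hS ((hη.continuous_fderiv (by simp)).clm_apply continuous_const)
      (hc.fderiv_apply ℝ v) ((tsupport_fderiv_apply_subset ℝ v).trans hs) hY.continuousOn
  have e1 : (fun z => η z * dbar Y z) =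
      fun z => (1 / 2 : ℂ) * (η z * fderiv ℝ Y z 1) + (I / 2) * (η z * fderiv ℝ Y z I) := by
    funext z; simp only [dbar]; ring
  have e2 : (fun z => dbar η z * Y z) =
      fun z => (1 / 2 : ℂ) * (fderiv ℝ η z 1 * Y z) + (I / 2) * (fderiv ℝ η z I * Y z) := by
    funext z; simp only [dbar]; ring
  rw [e1, e2, integral_add ((i1 1).const_mul _) ((i1 I).const_mul _),
    integral_add ((i2 1).const_mul _) ((i2 I).const_mul _), integral_const_mul,
    integral_const_mul, integral_const_mul, integral_const_mul,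
    integral_mul_fderiv hS hη hc hs hY, integral_mul_fderiv hS hη hc hs hY]
  ring

/-- A continuous function on the plane is bounded on the disc. -/
lemma exists_bound_D {E : Type*} [NormedAddCommGroup E] {F : ℂ → E} (hF : Continuous F) :
    ∃ M, 0 ≤ M ∧ ∀ z ∈ D, ‖F z‖ ≤ M := by
  obtain ⟨M, hM⟩ := (isCompact_closedBall (0 : ℂ) 1).exists_bound_of_continuousOn hF.continuousOn
  exact ⟨max M 0, le_max_right _ _, fun z hz => (hM z (ball_subset_closedBall hz)).trans
    (le_max_left _ _)⟩

/-- A `C¹` function vanishing on the unit circle is `O(1 - |z|²)` on the disc. -/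
lemma bound_of_vanish {b : ℂ → ℝ} (hb : ContDiff ℝ 1 b) (hb0 : ∀ z, ‖z‖ = 1 → b z = 0) :
    ∃ L, 0 ≤ L ∧ ∀ z ∈ D, |b z| ≤ L * (1 - ‖z‖ ^ 2) := by
  obtain ⟨M, hM⟩ := (isCompact_closedBall (0 : ℂ) 1).exists_bound_of_continuousOn
    (hb.continuous_fderiv (by simp)).continuousOn
  have hM0 : 0 ≤ M := (norm_nonneg _).trans (hM 0 (by simp))
  refine ⟨M, hM0, fun z hz => ?_⟩
  have hz1 : ‖z‖ < 1 := mem_D.1 hz
  obtain ⟨w, hw1, hw⟩ : ∃ w : ℂ, ‖w‖ = 1 ∧ ‖z - w‖ = 1 - ‖z‖ := by
    by_cases h : z = 0
    · exact ⟨1, by simp, by simp [h]⟩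
    · have hn : 0 < ‖z‖ := norm_pos_iff.2 h
      refine ⟨(‖z‖⁻¹ : ℝ) • z, by simp [hn.ne'], ?_⟩
      have : z - (‖z‖⁻¹ : ℝ) • z = (1 - ‖z‖⁻¹ : ℝ) • z := by rw [sub_smul, one_smul]
      rw [this, norm_smul, Real.norm_eq_abs, abs_of_nonpos]
      · field_simp; ring
      · have : 1 ≤ ‖z‖⁻¹ := one_le_inv_iff₀.2 ⟨hn, hz1.le⟩
        linarith
  have := (convex_closedBall (0 : ℂ) 1).norm_image_sub_le_of_norm_fderiv_le
    (fun x _ => hb.differentiable (by simp) x) hM (x := w) (y := z)
    (by simp [hw1]) (ball_subset_closedBall hz)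
  rw [hb0 w hw1, sub_zero, hw, Real.norm_eq_abs] at this
  refine this.trans (mul_le_mul_of_nonneg_left ?_ hM0)
  nlinarith [norm_nonneg z]

/-- Bounded continuous functions are in `L^p` of a subset of finite measure. -/
lemma memLp_of_bound {E : Type*} [NormedAddCommGroup E] [SecondCountableTopology E]
    {S : Set ℂ} (hS : MeasurableSet S) [IsFiniteMeasure (volume.restrict S)] {F : ℂ → E}
    (hF : ContinuousOn F S) {M : ℝ} (hM : ∀ z ∈ S, ‖F z‖ ≤ M) (p : ENNReal) :
    MemLp F p (volume.restrict S) :=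
  MemLp.of_bound (hF.aestronglyMeasurable hS) M ((ae_restrict_iff' hS).2 (Eventually.of_forall hM))

lemma memLp_D_of_continuous {E : Type*} [NormedAddCommGroup E] [SecondCountableTopology E]
    {F : ℂ → E} (hF : Continuous F) (p : ENNReal) : MemLp F p (volume.restrict D) := by
  obtain ⟨M, -, hM⟩ := exists_bound_D hF
  exact memLp_of_bound isOpen_D.measurableSet hF.continuousOn hM p

lemma integrableOn_D_of_continuous {E : Type*} [NormedAddCommGroup E] [SecondCountableTopology E]
    {F : ℂ → E} (hF : Continuous F) : IntegrableOn F D :=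
  memLp_one_iff_integrable.1 (memLp_D_of_continuous hF 1)

/-- A bounded function continuous on `D` times the weight is integrable. -/
lemma Setup.integrableOn_mul_rho (P : Setup) {F : ℂ → ℝ} (hF : ContinuousOn F D) {M : ℝ}
    (hM : ∀ z ∈ D, |F z| ≤ M) : IntegrableOn (fun z => F z * rho P.φ z) D :=
  P.hρ.bdd_mul (c := M) (hF.aestronglyMeasurable isOpen_D.measurableSet)
    ((ae_restrict_iff' isOpen_D.measurableSet).2 (Eventually.of_forall hM))

/-- Globally `C¹` functions are admissible. -/
lemma Setup.adm_of_contDiff (P : Setup) {V : ℂ → ℝ} (hV : ContDiff ℝ 1 V) :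
    Adm D (rho P.φ) V := by
  obtain ⟨M, -, hM⟩ := exists_bound_D (hV.continuous.pow 2)
  exact ⟨hV.contDiffOn, P.integrableOn_mul_rho (hV.continuous.pow 2).continuousOn hM,
    integrableOn_D_of_continuous ((continuous_dz hV).norm.pow 2)⟩

/-- Integrability on the disc from boundedness near `0` and integrability on the annulus. -/
lemma memLp_D_of_near {E : Type*} [NormedAddCommGroup E] [SecondCountableTopology E]
    {F : ℂ → E} (hc : ContinuousOn F Dp) (h0 : F =O[𝓝[≠] 0] (fun _ => (1 : ℝ))) {p : ENNReal}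
    (h1 : MemLp F p (volume.restrict Ann)) : MemLp F p (volume.restrict D) := by
  obtain ⟨C, hC⟩ := h0.bound
  obtain ⟨r, hr, hr'⟩ := Metric.eventually_nhds_iff_ball.1 (eventually_nhdsWithin_iff.1 hC)
  have hK : IsCompact (closedBall (0 : ℂ) (1 / 2) \ ball 0 r) :=
    (isCompact_closedBall _ _).diff isOpen_ball
  obtain ⟨M, hM⟩ := hK.exists_bound_of_continuousOn (hc.mono fun z hz => by
    refine mem_Dp.2 ⟨(mem_closedBall_zero_iff.1 hz.1).trans_lt (by norm_num), fun h => hz.2 ?_⟩
    rw [h]; exact mem_ball_self hr)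
  set B : Set ℂ := closedBall (0 : ℂ) (1 / 2) \ {0} with hB
  have hBm : MeasurableSet B := measurableSet_closedBall.diff (measurableSet_singleton _)
  have hBD : B ⊆ Dp := fun z hz =>
    mem_Dp.2 ⟨(mem_closedBall_zero_iff.1 hz.1).trans_lt (by norm_num), hz.2⟩
  have : IsFiniteMeasure (volume.restrict B) :=
    ⟨by simpa using (measure_mono (hBD.trans Dp_subset_D)).trans_lt volume_D_lt_top⟩
  have h2 : MemLp F p (volume.restrict B) := by
    refine memLp_of_bound hBm (hc.mono hBD) (M := max M C) (fun z hz => ?_) p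
    by_cases h : z ∈ ball (0 : ℂ) r
    · have := hr' z h hz.2
      simp only [norm_one, mul_one] at this
      exact this.trans (le_max_right _ _)
    · exact (hM z ⟨hz.1, h⟩).trans (le_max_left _ _)
  have hU : B ∪ Ann = D \ {0} := by
    ext z
    simp only [hB, mem_union, Set.mem_sdiff, mem_closedBall_zero_iff, mem_singleton_iff,
      mem_ball_zero_iff, not_le]
    constructor
    · rintro (⟨h1, h2⟩ | ⟨h1, h2⟩)
      · exact ⟨h1.trans_lt (by norm_num), h2⟩
      · exact ⟨h1, fun h => by rw [h, norm_zero] at h2; norm_num at h2⟩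
    · rintro ⟨h1, h2⟩
      by_cases h : ‖z‖ ≤ 1 / 2
      · exact Or.inl ⟨h, h2⟩
      · exact Or.inr ⟨h1, not_le.1 h⟩
  have h3 : volume.restrict D = volume.restrict (B ∪ Ann) := by
    refine Measure.restrict_congr_set ?_
    rw [hU]
    exact (sdiff_null_ae_eq_self (measure_singleton _)).symm
  have hdisj : Disjoint B Ann := disjoint_left.2 fun z hz hz' => hz'.2 hz.1
  rw [h3, ← memLp_indicator_iff_restrict (hBm.union isOpen_Ann.measurableSet),
    indicator_union_of_disjoint hdisj]
  exact ((memLp_indicator_iff_restrict hBm).2 h2).add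
    ((memLp_indicator_iff_restrict isOpen_Ann.measurableSet).2 h1)

lemma integrableOn_D_of_near {E : Type*} [NormedAddCommGroup E] [SecondCountableTopology E]
    {F : ℂ → E} (hc : ContinuousOn F Dp) (h0 : F =O[𝓝[≠] 0] (fun _ => (1 : ℝ)))
    (h1 : IntegrableOn F Ann) : IntegrableOn F D :=
  memLp_one_iff_integrable.1 (memLp_D_of_near hc h0 (memLp_one_iff_integrable.2 h1))

end Crest.Agent.R101
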