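import Crest.Agent.R101.Wave

/-!
# Row 101: the comparison solution `J`   (TASK F)

`J = (cos (m Re φ) + cos (m Im φ))/2`, `K = (cos (m Re φ) - cos (m Im φ))/2`, `m = 2 √lam`,
written with the phases `th φ m` and `th φ (m I)` of `Wave.lean`.
-/

open Complex MeasureTheory Set Metric Filter Topology
open scoped ComplexConjugate

noncomputable section

namespace Crest.Agent.R101

namespace Setup
variable (P : Setup)

/-- The wave number `m = 2 √lam`. -/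
def mm : ℝ := 2 * Real.sqrt P.lam

/-- The comparison solution. -/
def Jf (z : ℂ) : ℝ := (Real.cos (th P.φ P.mm z) + Real.cos (th P.φ (P.mm * I) z)) / 2

/-- The defect function. -/
def Kf (z : ℂ) : ℝ := (Real.cos (th P.φ P.mm z) - Real.cos (th P.φ (P.mm * I) z)) / 2

lemma jfun_mm_pos : 0 < P.mm := by
  have := Real.sqrt_pos.2 P.lam_pos
  unfold mm; linarith

lemma jfun_mm_sq : P.mm ^ 2 = 4 * P.lam := by
  unfold mm; rw [mul_pow, Real.sq_sqrt P.lam_pos.le]; norm_num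

lemma jfun_mm_sq' : (P.mm : ℂ) ^ 2 = 4 * P.lam := by
  exact_mod_cast P.jfun_mm_sq

lemma jfun_th1 (z : ℂ) : th P.φ P.mm z = P.mm * (P.φ z).re := by simp [th]

lemma jfun_th2 (z : ℂ) : th P.φ (P.mm * I) z = P.mm * (P.φ z).im := by simp [th]

lemma jfun_contDiffOn_cos (a : ℂ) {n : WithTop ℕ∞} :
    ContDiffOn ℝ n (fun z => Real.cos (th P.φ a z)) D :=
  Real.contDiff_cos.comp_contDiffOn (P.contDiffOn_th a)

lemma jfun_contDiffOn_Jf {n : WithTop ℕ∞} : ContDiffOn ℝ n P.Jf D :=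
  ((P.jfun_contDiffOn_cos _).add (P.jfun_contDiffOn_cos _)).div_const 2

lemma jfun_contDiffOn_Kf {n : WithTop ℕ∞} : ContDiffOn ℝ n P.Kf D :=
  ((P.jfun_contDiffOn_cos _).sub (P.jfun_contDiffOn_cos _)).div_const 2

lemma jfun_dz_Jf {z : ℂ} (hz : z ∈ D) :
    dz P.Jf z = -(P.mm / 4 : ℂ) * (((Real.sin (th P.φ P.mm z) : ℂ) -
      I * (Real.sin (th P.φ (P.mm * I) z) : ℂ)) * deriv P.φ z) := by
  have h1 := P.hasW_wave P.mm (g := Real.cos) (g' := fun t => -Real.sin t)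
    Real.hasDerivAt_cos hz
  have h2 := P.hasW_wave (P.mm * I) (g := Real.cos) (g' := fun t => -Real.sin t)
    Real.hasDerivAt_cos hz
  have h3 := (h1.add h2).const_mul (1 / 2)
  have e : (fun w => (P.Jf w : ℂ)) = fun w => (1 / 2 : ℂ) * ((Real.cos (th P.φ P.mm w) : ℂ) +
      (Real.cos (th P.φ (P.mm * I) w) : ℂ)) := by
    funext w; simp only [Jf]; push_cast; ring
  rw [← e] at h3
  rw [h3.dz_eq]
  simp only [map_mul, conj_ofReal, conj_I, ofReal_neg]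
  ring

lemma jfun_dz_Kf {z : ℂ} (hz : z ∈ D) :
    dz P.Kf z = -(P.mm / 4 : ℂ) * (((Real.sin (th P.φ P.mm z) : ℂ) +
      I * (Real.sin (th P.φ (P.mm * I) z) : ℂ)) * deriv P.φ z) := by
  have h1 := P.hasW_wave P.mm (g := Real.cos) (g' := fun t => -Real.sin t)
    Real.hasDerivAt_cos hz
  have h2 := P.hasW_wave (P.mm * I) (g := Real.cos) (g' := fun t => -Real.sin t)
    Real.hasDerivAt_cos hz
  have h3 := (h1.sub h2).const_mul (1 / 2)
  have e : (fun w => (P.Kf w : ℂ)) = fun w => (1 / 2 : ℂ) * ((Real.cos (th P.φ P.mm w) : ℂ) -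
      (Real.cos (th P.φ (P.mm * I) w) : ℂ)) := by
    funext w; simp only [Kf]; push_cast; ring
  rw [← e] at h3
  rw [h3.dz_eq]
  simp only [map_mul, conj_ofReal, conj_I, ofReal_neg]
  ring

lemma jfun_hasW_dz_Jf {z : ℂ} (hz : z ∈ D) :
    HasW (dz P.Jf) (-(P.mm / 4 : ℂ) * (P.mm * P.Kf z * deriv P.φ z ^ 2 +
        ((Real.sin (th P.φ P.mm z) : ℂ) - I * (Real.sin (th P.φ (P.mm * I) z) : ℂ)) *
          deriv (deriv P.φ) z))
      (-((P.lam * rho P.φ z * P.Jf z : ℝ) : ℂ)) z := by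
  have h1 := P.hasW_wave P.mm (g := Real.sin) (g' := Real.cos) Real.hasDerivAt_sin hz
  have h2 := P.hasW_wave (P.mm * I) (g := Real.sin) (g' := Real.cos) Real.hasDerivAt_sin hz
  have h3 := ((h1.sub (h2.const_mul I)).mul
    (HasDerivAt.hasW (P.hasDerivAt_deriv hz))).const_mul (-(P.mm / 4 : ℂ))
  have e : dz P.Jf =ᶠ[𝓝 z] fun w => -(P.mm / 4 : ℂ) * (((Real.sin (th P.φ P.mm w) : ℂ) -
      I * (Real.sin (th P.φ (P.mm * I) w) : ℂ)) * deriv P.φ w) := by
    filter_upwards [isOpen_D.mem_nhds hz] with w hw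
    exact P.jfun_dz_Jf hw
  refine (h3.congr_of_eventuallyEq e).congr' ?_ ?_
  · simp only [map_mul, conj_ofReal, conj_I, Kf]
    push_cast
    linear_combination (-(P.mm / 4 : ℂ) * (P.mm / 2) * Complex.cos (th P.φ (P.mm * I) z) *
      deriv P.φ z ^ 2) * I_mul_I
  · simp only [ofReal_mul, P.ofReal_rho, Jf]
    push_cast
    linear_combination ((P.mm / 4 : ℂ) * (P.mm / 2) * Complex.cos (th P.φ (P.mm * I) z) *
      deriv P.φ z * conj (deriv P.φ z)) * I_mul_I -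
      (deriv P.φ z * conj (deriv P.φ z) *
        (Complex.cos (th P.φ P.mm z) + Complex.cos (th P.φ (P.mm * I) z)) / 8) * P.jfun_mm_sq'

lemma jfun_th_zero (a : ℂ) : th P.φ a 0 = 0 := by simp [th, P.hφ0]

lemma jfun_Kf_zero : P.Kf 0 = 0 := by simp [Kf, jfun_th_zero]

theorem contDiffOn_Jf : ContDiffOn ℝ 2 P.Jf D := P.jfun_contDiffOn_Jf

theorem continuousOn_Kf : ContinuousOn P.Kf D := (P.jfun_contDiffOn_Kf (n := 0)).continuousOn

theorem abs_Jf_le (z : ℂ) : |P.Jf z| ≤ 1 := by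
  unfold Jf
  have h1 := Real.cos_le_one (th P.φ P.mm z)
  have h2 := Real.neg_one_le_cos (th P.φ P.mm z)
  have h3 := Real.cos_le_one (th P.φ (P.mm * I) z)
  have h4 := Real.neg_one_le_cos (th P.φ (P.mm * I) z)
  rw [abs_le]; constructor <;> linarith

theorem abs_Kf_le (z : ℂ) : |P.Kf z| ≤ 1 := by
  unfold Kf
  have h1 := Real.cos_le_one (th P.φ P.mm z)
  have h2 := Real.neg_one_le_cos (th P.φ P.mm z)
  have h3 := Real.cos_le_one (th P.φ (P.mm * I) z)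
  have h4 := Real.neg_one_le_cos (th P.φ (P.mm * I) z)
  rw [abs_le]; constructor <;> linarith

theorem Jf_zero : P.Jf 0 = 1 := by
  simp [Jf, jfun_th_zero]

/-- Helmholtz equation (`dbar_dz_wave` twice; `dz`, `dbar` are additive on `D`). -/
theorem dbar_dz_Jf {z : ℂ} (hz : z ∈ D) :
    dbar (dz P.Jf) z = -((P.lam * rho P.φ z * P.Jf z : ℝ) : ℂ) :=
  (P.jfun_hasW_dz_Jf hz).dbar_eq

/-- `dz J = -(m/4) (sin x - I sin y) φ'`, so `‖dz J‖² = (lam/4)(sin² x + sin² y) ρ`. -/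
theorem norm_dz_Jf_sq {z : ℂ} (hz : z ∈ D) :
    2 * ‖dz P.Jf z‖ ^ 2 = P.lam * rho P.φ z * (1 - P.Jf z ^ 2 - P.Kf z ^ 2) := by
  rw [P.jfun_dz_Jf hz, norm_mul, norm_mul, mul_pow, mul_pow, norm_neg]
  have h1 : ‖(P.mm / 4 : ℂ)‖ ^ 2 = P.lam / 4 := by
    have : (P.mm / 4 : ℂ) = ((P.mm / 4 : ℝ) : ℂ) := by push_cast; ring
    rw [this, norm_real, Real.norm_eq_abs, sq_abs, div_pow, P.jfun_mm_sq]; ring
  have h2 : ∀ a b : ℝ, ‖(a : ℂ) - I * (b : ℂ)‖ ^ 2 = a ^ 2 + b ^ 2 := by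
    intro a b
    rw [Complex.sq_norm, normSq_apply]; simp; ring
  rw [h1, h2, Real.sin_sq, Real.sin_sq]
  simp only [Jf, Kf, rho]
  ring

/-- Recipe: `N = dz J + lam ρ(0) conj z` is `C²` near `0`, vanishes at `0` and has zero real
derivative at `0` (compute with `HasW` from the explicit formula of `dz J`), then
`isBigO_sub_of_differentiableAt` for `fderiv ℝ N` and `isBigO_pow_succ`. -/
theorem dz_Jf_isBigO : (fun z => dz P.Jf z + (P.lam * rho P.φ 0 : ℝ) * conj z) =O[𝓝 0]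
    fun z : ℂ => ‖z‖ ^ 2 := by
  set N : ℂ → ℂ := fun z => dz P.Jf z + (P.lam * rho P.φ 0 : ℝ) * conj z with hN
  have hC : ContDiffOn ℝ 2 N D :=
    (contDiffOn_dz isOpen_D (P.jfun_contDiffOn_Jf (n := 3)) (by norm_num)).add
      (contDiffOn_const.mul contDiff_conj.contDiffOn)
  have hN0 : N 0 = 0 := by
    simp [hN, P.jfun_dz_Jf zero_mem_D, jfun_th_zero]
  have hW : HasW N 0 0 0 :=
    ((P.jfun_hasW_dz_Jf zero_mem_D).add ((hasW_conj 0).const_mul _)).congr'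
      (by simp [jfun_th_zero, jfun_Kf_zero]) (by simp [Jf_zero])
  have hf0 : fderiv ℝ N 0 = 0 := by
    rw [hW.fderiv_eq]; ext1 v; simp
  have hd : ContDiffOn ℝ 1 (fderiv ℝ N) D := hC.fderiv_of_isOpen isOpen_D (by norm_num)
  have h1 := isBigO_sub_of_differentiableAt
    (differentiableAt_of_contDiffOn isOpen_D hd (by simp) zero_mem_D)
  simp only [hf0, sub_zero] at h1
  refine isBigO_pow_succ (k := 1) ?_ hN0 h1
  filter_upwards [isOpen_D.mem_nhds zero_mem_D] with z hz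
  exact differentiableAt_of_contDiffOn isOpen_D hC (by simp) hz

/-- From `dz_Jf_isBigO` by `isBigO_pow_succ_of_dz` (`dz_normSq`). -/
theorem Jf_isBigO : (fun z => P.Jf z - 1 + P.lam * rho P.φ 0 * ‖z‖ ^ 2) =O[𝓝 0]
    fun z : ℂ => ‖z‖ ^ 3 := by
  have hsq : ∀ z : ℂ, DifferentiableAt ℝ (fun w : ℂ => ‖w‖ ^ 2) z := fun z =>
    (hasW_normSq z).differentiableAt_real
  have hJ : ∀ z ∈ D, DifferentiableAt ℝ P.Jf z := fun z hz =>
    differentiableAt_of_contDiffOn isOpen_D P.contDiffOn_Jf (by simp) hz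
  refine isBigO_pow_succ_of_dz (k := 2) ?_ (by simp [Jf_zero]) ?_
  · filter_upwards [isOpen_D.mem_nhds zero_mem_D] with z hz
    exact ((hJ z hz).sub_const 1).add ((hsq z).const_mul _)
  · refine P.dz_Jf_isBigO.congr' ?_ EventuallyEq.rfl
    filter_upwards [isOpen_D.mem_nhds zero_mem_D] with z hz
    rw [dz_add ((hJ z hz).sub_const 1) ((hsq z).const_mul _), dz_sub (hJ z hz)
      (differentiableAt_const _), dz_const_mul _ (hsq z), dz_normSq, dz_const, sub_zero]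

/-- `|K| ≤ m² ‖φ‖²` (`1 - cos t ≤ t²/2`) and `φ = O(‖z‖)`. -/
theorem Kf_isBigO : P.Kf =O[𝓝 0] fun z : ℂ => ‖z‖ ^ 2 :=
  (isBigO_of_double_zero P.jfun_contDiffOn_Kf P.jfun_Kf_zero
    (by simp [P.jfun_dz_Kf zero_mem_D, jfun_th_zero])).2

theorem rho_isBigO : (fun z => rho P.φ z - rho P.φ 0) =O[𝓝 0] fun z : ℂ => ‖z‖ ^ 1 :=
  isBigO_sub_of_differentiableAt
    (differentiableAt_of_contDiffOn isOpen_D (P.contDiffOn_rho (n := 1)) (by simp) zero_mem_D)

/-- `φ` maps neighbourhoods of `0` onto neighbourhoods of `0` (`HasStrictDerivAt.map_nhds_eq`);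
pick `z ∈ D` with `φ z = t` real, `0 < m t < 1`: `K z = (cos (m t) - 1)/2 ≠ 0`. -/
theorem exists_Kf_ne_zero : ∃ z ∈ Dp, P.Kf z ≠ 0 := by
  have hs : HasStrictDerivAt P.φ (deriv P.φ 0) 0 :=
    (P.analyticOnNhd 0 zero_mem_D).hasStrictDerivAt
  have hmap := hs.map_nhds_eq (P.hφ' 0 zero_mem_D)
  rw [P.hφ0] at hmap
  have himg : P.φ '' D ∈ 𝓝 (0 : ℂ) := by
    rw [← hmap]; exact image_mem_map (isOpen_D.mem_nhds zero_mem_D)
  obtain ⟨r, hr, hball⟩ := Metric.mem_nhds_iff.1 himg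
  have hm := P.jfun_mm_pos
  set t : ℝ := min (r / 2) (1 / P.mm) with ht
  have ht0 : 0 < t := lt_min (by linarith) (by positivity)
  have ht1 : t < r := lt_of_le_of_lt (min_le_left _ _) (by linarith)
  have ht2 : P.mm * t ≤ 1 := by
    have : t ≤ 1 / P.mm := min_le_right _ _
    rwa [le_div_iff₀ hm, mul_comm] at this
  obtain ⟨z, hz, hzt⟩ := hball (show (t : ℂ) ∈ ball (0 : ℂ) r by
    rw [mem_ball_zero_iff, norm_real, Real.norm_eq_abs, abs_of_pos ht0]; exact ht1)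
  refine ⟨z, mem_Dp.2 ⟨mem_D.1 hz, fun h0 => ?_⟩, ?_⟩
  · rw [h0, P.hφ0] at hzt
    have : t = 0 := by exact_mod_cast hzt.symm
    exact ht0.ne' this
  · have h1 : Real.cos (P.mm * t) < 1 := by
      rw [← Real.cos_zero]
      exact Real.cos_lt_cos_of_nonneg_of_le_pi le_rfl (by linarith [Real.pi_gt_three])
        (by positivity)
    simp only [Kf, jfun_th1, jfun_th2, hzt, ofReal_re, ofReal_im, mul_zero, Real.cos_zero]
    linarith

end Setup

end Crest.Agent.R101
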