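import Crest.Agent.R101.Ord
import Crest.Agent.R101.Dense
import Crest.Agent.R101.Var
import Crest.Agent.R101.Jfun

/-!
# Row 101: the test fields `A`, `B` attached to a critical point at `0`

Author: helper76.
-/

open Complex MeasureTheory Set Metric Filter Topology
open scoped ComplexConjugate

noncomputable section

namespace Crest.Agent.R101

/-- A Neumann eigenfunction on the weighted disc with a critical point at `0`. -/
structure Ctx extends Setup where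
  U : ℂ → ℝ
  hU2 : ContDiffOn ℝ 2 U D
  hU : Adm D (rho φ) U
  hw : Weak D (rho φ) lam U
  h0 : dz U 0 = 0

namespace Ctx
variable (Q : Ctx)

/-- The value at the critical point. -/
def c : ℝ := Q.U 0
/-- The weight. -/
abbrev ρ : ℂ → ℝ := rho Q.φ
/-- The comparison solution. -/
abbrev J : ℂ → ℝ := Q.toSetup.Jf
/-- The defect function. -/
abbrev K : ℂ → ℝ := Q.toSetup.Kf
/-- `W = U - c J` has a double zero at `0`. -/
def W (z : ℂ) : ℝ := Q.U z - Q.c * Q.J z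

def A (z : ℂ) : ℂ := z⁻¹ * dz Q.W z + Q.c * conj z * dz Q.J z
def B (z : ℂ) : ℂ := z * dz Q.W z + Q.c * (conj z)⁻¹ * dz Q.J z
def A₀ (z : ℂ) : ℂ := z⁻¹ * Q.W z + Q.c * conj z * Q.J z
def B₀ (z : ℂ) : ℂ := z * Q.W z + Q.c * (conj z)⁻¹ * Q.J z
def ψA (z : ℂ) : ℂ := -(Q.lam * Q.ρ z * Q.A₀ z) + Q.c * dz Q.J z
def ψB (z : ℂ) : ℂ := -(Q.lam * Q.ρ z * Q.B₀ z) - Q.c * (conj z)⁻¹ ^ 2 * dz Q.J z

/-! ### Smoothness and derivatives -/

lemma contDiffOn_J : ContDiffOn ℝ 2 Q.J D := Q.toSetup.contDiffOn_Jf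

lemma contDiffOn_W : ContDiffOn ℝ 2 Q.W D := Q.hU2.sub (contDiffOn_const.mul Q.contDiffOn_J)

lemma diff_U {z : ℂ} (hz : z ∈ D) : DifferentiableAt ℝ Q.U z :=
  differentiableAt_of_contDiffOn isOpen_D Q.hU2 (by simp) hz

lemma diff_J {z : ℂ} (hz : z ∈ D) : DifferentiableAt ℝ Q.J z :=
  differentiableAt_of_contDiffOn isOpen_D Q.contDiffOn_J (by simp) hz

lemma diff_W {z : ℂ} (hz : z ∈ D) : DifferentiableAt ℝ Q.W z :=
  differentiableAt_of_contDiffOn isOpen_D Q.contDiffOn_W (by simp) hz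

lemma dz_W {z : ℂ} (hz : z ∈ D) : dz Q.W z = dz Q.U z - Q.c * dz Q.J z := by
  have := dz_sub (Q.diff_U hz) ((Q.diff_J hz).const_mul Q.c)
  rwa [dz_const_mul _ (Q.diff_J hz)] at this

lemma cd_dzU : ContDiffOn ℝ 1 (dz Q.U) D := contDiffOn_dz isOpen_D Q.hU2 (by norm_num)
lemma cd_dzJ : ContDiffOn ℝ 1 (dz Q.J) D := contDiffOn_dz isOpen_D Q.contDiffOn_J (by norm_num)
lemma cd_dzW : ContDiffOn ℝ 1 (dz Q.W) D := contDiffOn_dz isOpen_D Q.contDiffOn_W (by norm_num)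
lemma cd_J : ContDiffOn ℝ 1 (fun z => (Q.J z : ℂ)) D :=
  contDiff_ofReal_comp (Q.contDiffOn_J.of_le (by norm_num))
lemma cd_W : ContDiffOn ℝ 1 (fun z => (Q.W z : ℂ)) D :=
  contDiff_ofReal_comp (Q.contDiffOn_W.of_le (by norm_num))
lemma cd_ρ : ContDiffOn ℝ 1 (fun z => (Q.ρ z : ℂ)) D :=
  contDiff_ofReal_comp Q.toSetup.contDiffOn_rho

lemma hasW_dzU {z : ℂ} (hz : z ∈ D) :
    HasW (dz Q.U) (dzc (dz Q.U) z) (-(Q.lam * Q.ρ z * Q.U z)) z :=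
  (hasW_of_differentiableAt (differentiableAt_of_contDiffOn isOpen_D Q.cd_dzU (by simp) hz)).congr'
    rfl (by rw [dbar_dz_eq isOpen_D Q.toSetup.continuousOn_rho Q.hU2 Q.hw hz]; push_cast; rfl)

lemma hasW_dzJ {z : ℂ} (hz : z ∈ D) :
    HasW (dz Q.J) (dzc (dz Q.J) z) (-(Q.lam * Q.ρ z * Q.J z)) z :=
  (hasW_of_differentiableAt (differentiableAt_of_contDiffOn isOpen_D Q.cd_dzJ (by simp) hz)).congr'
    rfl (by rw [Q.toSetup.dbar_dz_Jf hz]; push_cast; rfl)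

lemma hasW_dzW {z : ℂ} (hz : z ∈ D) :
    ∃ a, HasW (dz Q.W) a (-(Q.lam * Q.ρ z * Q.W z)) z := by
  refine ⟨_, (((Q.hasW_dzU hz).sub ((Q.hasW_dzJ hz).const_mul Q.c)).congr_of_eventuallyEq
    ?_).congr' rfl ?_⟩
  · filter_upwards [isOpen_D.mem_nhds hz] with w hw using Q.dz_W hw
  · simp only [W]; push_cast; ring

lemma hasW_inv {z : ℂ} (hz : z ≠ 0) : HasW (fun w : ℂ => w⁻¹) (-(z⁻¹ ^ 2)) 0 z :=
  ((hasW_id z).inv hz).congr' (by field_simp) (by simp)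

lemma hasW_conj_inv {z : ℂ} (hz : z ≠ 0) :
    HasW (fun w : ℂ => (conj w)⁻¹) 0 (-((conj z)⁻¹ ^ 2)) z :=
  ((hasW_conj z).inv (by simpa using hz)).congr' (by simp) (by field_simp)

lemma hasW_A {z : ℂ} (hz : z ∈ Dp) : ∃ a, HasW Q.A a (Q.ψA z) z := by
  obtain ⟨a, ha⟩ := Q.hasW_dzW hz.1
  refine ⟨_, (((hasW_inv (mem_Dp.1 hz).2).mul ha).add
    (((hasW_conj z).const_mul Q.c).mul (Q.hasW_dzJ hz.1))).congr' rfl ?_⟩
  simp only [ψA, A₀]; ring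

lemma hasW_B {z : ℂ} (hz : z ∈ Dp) : ∃ a, HasW Q.B a (Q.ψB z) z := by
  obtain ⟨a, ha⟩ := Q.hasW_dzW hz.1
  refine ⟨_, (((hasW_id z).mul ha).add
    (((hasW_conj_inv (mem_Dp.1 hz).2).const_mul Q.c).mul (Q.hasW_dzJ hz.1))).congr' rfl ?_⟩
  simp only [ψB, B₀]; ring

lemma hasW_A₀ {z : ℂ} (hz : z ∈ Dp) : ∃ b, HasW Q.A₀ (Q.A z - z⁻¹ ^ 2 * Q.W z) b z := by
  refine ⟨_, (((hasW_inv (mem_Dp.1 hz).2).mul (hasW_ofReal (Q.diff_W hz.1))).add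
    (((hasW_conj z).const_mul Q.c).mul (hasW_ofReal (Q.diff_J hz.1)))).congr' ?_ rfl⟩
  simp only [A]; ring

lemma hasW_B₀ {z : ℂ} (hz : z ∈ Dp) : ∃ b, HasW Q.B₀ (Q.B z + Q.W z) b z := by
  refine ⟨_, (((hasW_id z).mul (hasW_ofReal (Q.diff_W hz.1))).add
    (((hasW_conj_inv (mem_Dp.1 hz).2).const_mul Q.c).mul
      (hasW_ofReal (Q.diff_J hz.1)))).congr' ?_ rfl⟩
  simp only [B]; ring

lemma cd_inv : ContDiffOn ℝ 1 (fun z : ℂ => z⁻¹) Dp :=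
  contDiffOn_id.inv fun _ hz => (mem_Dp.1 hz).2

lemma cd_conj : ContDiffOn ℝ 1 (fun z : ℂ => conj z) Dp := contDiff_conj.contDiffOn

lemma cd_conj_inv : ContDiffOn ℝ 1 (fun z : ℂ => (conj z)⁻¹) Dp :=
  cd_conj.inv fun _ hz => by simpa using (mem_Dp.1 hz).2

lemma cd_A : ContDiffOn ℝ 1 Q.A Dp :=
  (cd_inv.mul (Q.cd_dzW.mono Dp_subset_D)).add
    ((contDiffOn_const.mul cd_conj).mul (Q.cd_dzJ.mono Dp_subset_D))

lemma cd_B : ContDiffOn ℝ 1 Q.B Dp :=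
  (contDiffOn_id.mul (Q.cd_dzW.mono Dp_subset_D)).add
    ((contDiffOn_const.mul cd_conj_inv).mul (Q.cd_dzJ.mono Dp_subset_D))

lemma cd_A₀ : ContDiffOn ℝ 1 Q.A₀ Dp :=
  (cd_inv.mul (Q.cd_W.mono Dp_subset_D)).add
    ((contDiffOn_const.mul cd_conj).mul (Q.cd_J.mono Dp_subset_D))

lemma cd_B₀ : ContDiffOn ℝ 1 Q.B₀ Dp :=
  (contDiffOn_id.mul (Q.cd_W.mono Dp_subset_D)).add
    ((contDiffOn_const.mul cd_conj_inv).mul (Q.cd_J.mono Dp_subset_D))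

lemma cd_ψA : ContDiffOn ℝ 1 Q.ψA Dp :=
  ((contDiffOn_const.mul (Q.cd_ρ.mono Dp_subset_D)).mul Q.cd_A₀).neg.add
    (contDiffOn_const.mul (Q.cd_dzJ.mono Dp_subset_D))

lemma cd_ψB : ContDiffOn ℝ 1 Q.ψB Dp :=
  ((contDiffOn_const.mul (Q.cd_ρ.mono Dp_subset_D)).mul Q.cd_B₀).neg.sub
    ((contDiffOn_const.mul (cd_conj_inv.pow 2)).mul (Q.cd_dzJ.mono Dp_subset_D))

/-! ### Orders at `0` -/

lemma ord_n : Ord (fun z => dz Q.J z + (Q.lam * Q.ρ 0 : ℝ) * conj z) 2 :=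
  Ord.of_isBigO Q.toSetup.dz_Jf_isBigO

lemma ord_j : Ord (fun z => ((Q.J z - 1 + Q.lam * Q.ρ 0 * ‖z‖ ^ 2 : ℝ) : ℂ)) 3 :=
  Ord.of_isBigO_real Q.toSetup.Jf_isBigO

lemma ord_K : Ord (fun z => (Q.K z : ℂ)) 2 := Ord.of_isBigO_real Q.toSetup.Kf_isBigO

lemma ord_ρ_sub : Ord (fun z => ((Q.ρ z - Q.ρ 0 : ℝ) : ℂ)) 1 :=
  Ord.of_isBigO_real Q.toSetup.rho_isBigO

lemma dz_J_zero : dz Q.J 0 = 0 := by
  have h1 : Tendsto (fun z => dz Q.J z + (Q.lam * Q.ρ 0 : ℝ) * conj z) (𝓝[≠] 0) (𝓝 0) :=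
    (Q.ord_n.mono (by norm_num)).tendsto
  have h2 : ContinuousAt (fun z => dz Q.J z + (Q.lam * Q.ρ 0 : ℝ) * conj z) 0 :=
    (Q.cd_dzJ.continuousOn.continuousAt (isOpen_D.mem_nhds zero_mem_D)).add
      (continuousAt_const.mul continuous_conj.continuousAt)
  simpa using tendsto_nhds_unique (h2.tendsto.mono_left nhdsWithin_le_nhds) h1

lemma W_zero : Q.W 0 = 0 := by simp [W, c, Q.toSetup.Jf_zero]

lemma dz_W_zero : dz Q.W 0 = 0 := by rw [Q.dz_W zero_mem_D, Q.h0, Q.dz_J_zero]; simp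

lemma ord_dzW : Ord (dz Q.W) 1 :=
  Ord.of_isBigO (isBigO_of_double_zero Q.contDiffOn_W Q.W_zero Q.dz_W_zero).1

lemma ord_W : Ord (fun z => (Q.W z : ℂ)) 2 :=
  Ord.of_isBigO_real (isBigO_of_double_zero Q.contDiffOn_W Q.W_zero Q.dz_W_zero).2

lemma ord_dzJ : Ord (dz Q.J) 1 :=
  ((Q.ord_n.mono (by norm_num)).sub (ord_conj.const_mul (Q.lam * Q.ρ 0 : ℝ))).congr
    fun z _ => by ring

lemma ord_J : Ord (fun z => (Q.J z : ℂ)) 0 :=
  ord_of_continuousAt (Q.cd_J.continuousOn.continuousAt (isOpen_D.mem_nhds zero_mem_D))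

lemma ord_ρ : Ord (fun z => (Q.ρ z : ℂ)) 0 :=
  ord_of_continuousAt (Q.cd_ρ.continuousOn.continuousAt (isOpen_D.mem_nhds zero_mem_D))

lemma ord_J_sub : Ord (fun z => (Q.J z : ℂ) - 1) 2 :=
  ((Q.ord_j.mono (by norm_num)).sub
    ((ord_id.mul ord_conj).const_mul (Q.lam * Q.ρ 0 : ℝ))).congr fun z _ => by
      rw [mul_conj, normSq_eq_norm_sq]; push_cast; ring

lemma ord_A : Ord Q.A 0 :=
  (ord_inv.mul Q.ord_dzW).add (((ord_conj.const_mul Q.c).mul Q.ord_dzJ).mono (by norm_num))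

lemma ord_B : Ord Q.B 0 :=
  ((ord_id.mul Q.ord_dzW).mono (by norm_num)).add ((ord_conj_inv.const_mul Q.c).mul Q.ord_dzJ)

lemma ord_A₀ : Ord Q.A₀ 1 :=
  (ord_inv.mul Q.ord_W).add ((ord_conj.const_mul Q.c).mul Q.ord_J)

lemma ord_ψA : Ord Q.ψA 0 :=
  ((((Q.ord_ρ.const_mul Q.lam).mul Q.ord_A₀).neg).add (Q.ord_dzJ.const_mul Q.c)).mono
    (by norm_num)

lemma ord_ψB : Ord Q.ψB 0 := by
  have h1 : Ord (fun z => (Q.ρ z : ℂ) * Q.J z - Q.ρ 0) 1 :=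
    ((Q.ord_ρ_sub.mul Q.ord_J).add ((Q.ord_J_sub.const_mul (Q.ρ 0)).mono (by norm_num))).congr
      fun z _ => by push_cast; ring
  have h2 := (((Q.ord_ρ.const_mul Q.lam).mul (ord_id.mul Q.ord_W)).neg.mono
    (m := 0) (by norm_num)).sub ((((ord_conj_inv.mul ord_conj_inv).mul Q.ord_n).add
      ((ord_conj_inv.mul h1).const_mul Q.lam)).const_mul Q.c)
  refine h2.congr fun z hz => ?_
  have : conj z ≠ 0 := by simpa using (mem_Dp.1 hz).2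
  simp only [ψB, B₀]; push_cast; field_simp; ring

/-! ### `L^p` bounds on the annulus -/

lemma L_dzU : MemLp (dz Q.U) 2 μA :=
  memLp_Ann_of_D ((memLp_two_iff_integrable_sq_norm
    (Q.cd_dzU.continuousOn.aestronglyMeasurable isOpen_D.measurableSet)).2 Q.hU.2.2)

lemma norm_dzJ_le {z : ℂ} (hz : z ∈ D) : ‖dz Q.J z‖ ^ 2 ≤ Q.lam * Q.ρ z := by
  have h := Q.toSetup.norm_dz_Jf_sq hz
  have h1 : 0 ≤ Q.lam * Q.ρ z := mul_nonneg Q.lam_pos.le (Q.toSetup.rho_nonneg z)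
  have h2 : Q.lam * Q.ρ z * (1 - Q.J z ^ 2 - Q.K z ^ 2) ≤ Q.lam * Q.ρ z * 1 := by
    gcongr; nlinarith [sq_nonneg (Q.J z), sq_nonneg (Q.K z)]
  nlinarith [sq_nonneg ‖dz Q.J z‖]

lemma L_dzJ : MemLp (dz Q.J) 2 μA := by
  have hm := (Q.cd_dzJ.continuousOn.mono Ann_subset_D).aestronglyMeasurable
    (μ := volume) isOpen_Ann.measurableSet
  refine (memLp_two_iff_integrable_sq_norm hm).2
    (((Q.hρ.mono_set Ann_subset_D).const_mul Q.lam).mono' (hm.norm.pow 2) ?_)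
  filter_upwards [ae_restrict_mem isOpen_Ann.measurableSet] with z hz
  rw [Real.norm_eq_abs, abs_of_nonneg (sq_nonneg _)]
  exact Q.norm_dzJ_le (Ann_subset_D hz)

lemma L_dzW : MemLp (dz Q.W) 2 μA :=
  memLp_congr_Ann (Q.L_dzU.sub (Q.L_dzJ.const_mul Q.c)) fun _ hz =>
    (Q.dz_W (Ann_subset_D hz)).symm

lemma L_J : MemLp Q.J ⊤ μA :=
  memLp_of_bound isOpen_Ann.measurableSet (Q.contDiffOn_J.continuousOn.mono Ann_subset_D)
    (fun z _ => Q.toSetup.abs_Jf_le z) _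

lemma L_K : MemLp Q.K ⊤ μA :=
  memLp_of_bound isOpen_Ann.measurableSet (Q.toSetup.continuousOn_Kf.mono Ann_subset_D)
    (fun z _ => Q.toSetup.abs_Kf_le z) _

lemma L_U : MemLp Q.U 2 μA := memLp_Ann_of_D (memLp_two_of_dz Q.hU.1 Q.hU.2.2)

lemma L_W : MemLp Q.W 2 μA := Q.L_U.sub ((memLp_of_top Q.L_J 2).const_mul Q.c)

lemma L_φ' : MemLp (deriv Q.φ) 2 μA := memLp_Ann_of_D Q.toSetup.memLp_deriv

lemma L_φ'U : MemLp (fun z => conj (deriv Q.φ z) * Q.U z) 2 μA := by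
  have hc : ContinuousOn (fun z => conj (deriv Q.φ z) * Q.U z) D :=
    (continuous_conj.comp_continuousOn (Q.toSetup.contDiffOn_deriv (n := 0)).continuousOn).mul
      (continuous_ofReal.comp_continuousOn Q.hU2.continuousOn)
  refine memLp_Ann_of_D ((memLp_two_iff_integrable_sq_norm
    (hc.aestronglyMeasurable isOpen_D.measurableSet)).2 ?_)
  refine Q.hU.2.1.congr_fun (fun z _ => ?_) isOpen_D.measurableSet
  simp [rho, mul_pow, mul_comm]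

lemma L_φ'J : MemLp (fun z => conj (deriv Q.φ z) * Q.J z) 2 μA :=
  memLp_congr_Ann (memLp_mul_top (memLp_ofReal Q.L_J) (memLp_conj Q.L_φ')) fun _ _ => mul_comm _ _

lemma L_φ'W : MemLp (fun z => conj (deriv Q.φ z) * Q.W z) 2 μA :=
  memLp_congr_Ann (Q.L_φ'U.sub (Q.L_φ'J.const_mul Q.c)) fun z _ => by
    simp only [W, Pi.sub_apply]; push_cast; ring

lemma L_q : MemLp (fun z => dz Q.J z / deriv Q.φ z) ⊤ μA := by
  refine memLp_of_bound isOpen_Ann.measurableSet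
    ((Q.cd_dzJ.continuousOn.div (Q.toSetup.contDiffOn_deriv (n := 0)).continuousOn
      Q.hφ').mono Ann_subset_D) (M := Real.sqrt Q.lam) (fun z hz => ?_) _
  refine Real.le_sqrt_of_sq_le ?_
  rw [Pi.div_apply, norm_div, div_pow]
  refine (div_le_iff₀ (Q.toSetup.rho_pos (Ann_subset_D hz))).2 ?_
  exact Q.norm_dzJ_le (Ann_subset_D hz)

lemma L_inv : MemLp (fun z : ℂ => z⁻¹) ⊤ μA :=
  memLp_top_Ann (continuousOn_id.inv₀ fun _ hz => hz)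

lemma L_id : MemLp (fun z : ℂ => z) ⊤ μA := memLp_top_Ann continuousOn_id

lemma L_conj : MemLp (fun z : ℂ => conj z) ⊤ μA := memLp_conj L_id

lemma L_conj_inv : MemLp (fun z : ℂ => (conj z)⁻¹) ⊤ μA := by simpa using memLp_conj L_inv

lemma L_A : MemLp Q.A 2 (volume.restrict D) :=
  Q.ord_A.memLp Q.cd_A.continuousOn ((memLp_mul_top L_inv Q.L_dzW).add
    (memLp_mul_top (L_conj.const_mul Q.c) Q.L_dzJ))

lemma L_B : MemLp Q.B 2 (volume.restrict D) :=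
  Q.ord_B.memLp Q.cd_B.continuousOn ((memLp_mul_top L_id Q.L_dzW).add
    (memLp_mul_top (L_conj_inv.const_mul Q.c) Q.L_dzJ))

lemma ord_inv_φ' : Ord (fun z => (deriv Q.φ z)⁻¹) 0 :=
  ord_of_continuousAt (((Q.toSetup.contDiffOn_deriv (n := 0)).continuousOn.continuousAt
    (isOpen_D.mem_nhds zero_mem_D)).inv₀ (Q.hφ' 0 zero_mem_D))

lemma continuousOn_inv_φ' : ContinuousOn (fun z => (deriv Q.φ z)⁻¹) Dp :=
  ((Q.toSetup.contDiffOn_deriv (n := 0)).continuousOn.inv₀ Q.hφ').mono Dp_subset_D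

lemma L_ψA : MemLp (fun z => Q.ψA z * (deriv Q.φ z)⁻¹) 2 (volume.restrict D) := by
  refine (Q.ord_ψA.mul Q.ord_inv_φ').memLp (Q.cd_ψA.continuousOn.mul Q.continuousOn_inv_φ') ?_
  refine memLp_congr_Ann ((((memLp_mul_top L_inv Q.L_φ'W).add
    (memLp_mul_top (L_conj.const_mul Q.c) Q.L_φ'J)).const_mul (-Q.lam : ℂ)).add
    ((memLp_of_top Q.L_q 2).const_mul (Q.c : ℂ))) fun z hz => ?_
  have := Q.hφ' z (Ann_subset_D hz)
  simp only [ψA, A₀, Pi.add_apply, Q.toSetup.ofReal_rho]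
  field_simp

lemma L_ψB : MemLp (fun z => Q.ψB z * (deriv Q.φ z)⁻¹) 2 (volume.restrict D) := by
  refine (Q.ord_ψB.mul Q.ord_inv_φ').memLp (Q.cd_ψB.continuousOn.mul Q.continuousOn_inv_φ') ?_
  refine memLp_congr_Ann ((((memLp_mul_top L_id Q.L_φ'W).add
    (memLp_mul_top (L_conj_inv.const_mul Q.c) Q.L_φ'J)).const_mul (-Q.lam : ℂ)).sub
    ((memLp_mul_top (memLp_mul_top L_conj_inv L_conj_inv) (memLp_of_top Q.L_q 2)).const_mul
      (Q.c : ℂ))) fun z hz => ?_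
  have := Q.hφ' z (Ann_subset_D hz)
  simp only [ψB, B₀, Pi.add_apply, Pi.sub_apply, Q.toSetup.ofReal_rho]
  field_simp

end Ctx

end Crest.Agent.R101
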