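import Mathlib

/-!
# Row 101 (hot spots, S0133): definitions and a small Wirtinger calculus

Author: helper76.  See `Crest/Agent/R101/Main.lean` for the overall proof.
-/

open Complex MeasureTheory Set Metric Filter Topology
open scoped ComplexConjugate

noncomputable section

namespace Crest.Agent.R101

/-- The real-linear map `v ↦ a v + b conj v`. -/
def wl (a b : ℂ) : ℂ →L[ℝ] ℂ :=
  a • ContinuousLinearMap.id ℝ ℂ + b • (conjCLE : ℂ →L[ℝ] ℂ)

@[simp] lemma wl_apply (a b v : ℂ) : wl a b v = a * v + b * conj v := by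
  simp [wl]

/-- `F` is real-differentiable at `z` with Wirtinger derivatives `∂F = a`, `∂̄F = b`. -/
def HasW (F : ℂ → ℂ) (a b z : ℂ) : Prop := HasFDerivAt F (wl a b) z

/-- Wirtinger derivative `∂F` of a complex-valued function. -/
def dzc (F : ℂ → ℂ) (z : ℂ) : ℂ := (fderiv ℝ F z 1 - I * fderiv ℝ F z I) / 2

/-- Wirtinger derivative `∂̄F` of a complex-valued function. -/
def dbar (F : ℂ → ℂ) (z : ℂ) : ℂ := (fderiv ℝ F z 1 + I * fderiv ℝ F z I) / 2

/-- Wirtinger derivative `∂V = (V_x - i V_y)/2` of a real-valued function. -/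
def dz (V : ℂ → ℝ) (z : ℂ) : ℂ :=
  (((fderiv ℝ V z 1 : ℝ) : ℂ) - I * ((fderiv ℝ V z I : ℝ) : ℂ)) / 2

/-- The open unit disc. -/
abbrev D : Set ℂ := ball 0 1

/-- The punctured disc. -/
abbrev Dp : Set ℂ := ball 0 1 \ {0}

/-- The outer annulus `1/2 < ‖z‖ < 1`. -/
abbrev Ann : Set ℂ := ball 0 1 \ closedBall 0 (1 / 2)

/-- Admissible functions on `S` for the weight `ρ`. -/
def Adm (S : Set ℂ) (ρ : ℂ → ℝ) (V : ℂ → ℝ) : Prop :=
  ContDiffOn ℝ 1 V S ∧ IntegrableOn (fun z => V z ^ 2 * ρ z) S ∧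
    IntegrableOn (fun z => ‖dz V z‖ ^ 2) S

/-- The Neumann (Poincaré) inequality with constant `lam` (`= μ/4`). -/
def Neu (S : Set ℂ) (ρ : ℂ → ℝ) (lam : ℝ) : Prop :=
  ∀ V, Adm S ρ V → ∫ z in S, V z * ρ z = 0 →
    lam * ∫ z in S, V z ^ 2 * ρ z ≤ ∫ z in S, ‖dz V z‖ ^ 2

/-- The weak Neumann eigenvalue equation `∂̄∂U = -lam ρ U`. -/
def Weak (S : Set ℂ) (ρ : ℂ → ℝ) (lam : ℝ) (U : ℂ → ℝ) : Prop :=
  ∀ V, Adm S ρ V →
    ∫ z in S, (dz U z * conj (dz V z)).re = lam * ∫ z in S, U z * V z * ρ z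

/-- Test fields: `C²` on the plane, real on the unit circle. -/
def Test (Φ : ℂ → ℂ) : Prop := ContDiff ℝ 2 Φ ∧ ∀ z, ‖z‖ = 1 → (Φ z).im = 0

/-- The conformal weight `|φ'|²`. -/
def rho (φ : ℂ → ℂ) (z : ℂ) : ℝ := ‖deriv φ z‖ ^ 2

/-- The data on the disc: a (locally) conformal map `φ` with bounded image of finite area, and the
Neumann inequality for the weight `|φ'|²`. -/
structure Setup where
  φ : ℂ → ℂ
  lam : ℝ
  hφ : DifferentiableOn ℂ φ D
  hφ' : ∀ z ∈ D, deriv φ z ≠ 0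
  hφb : ∃ M, ∀ z ∈ D, ‖φ z‖ ≤ M
  hφ0 : φ 0 = 0
  hρ : IntegrableOn (rho φ) D
  lam_pos : 0 < lam
  neu : Neu D (rho φ) lam

/-! ### Sets -/

lemma isOpen_D : IsOpen D := isOpen_ball
lemma isOpen_Dp : IsOpen Dp := isOpen_ball.sdiff isClosed_singleton
lemma isOpen_Ann : IsOpen Ann := isOpen_ball.sdiff isClosed_closedBall
lemma mem_D {z : ℂ} : z ∈ D ↔ ‖z‖ < 1 := mem_ball_zero_iff
lemma mem_Dp {z : ℂ} : z ∈ Dp ↔ ‖z‖ < 1 ∧ z ≠ 0 := by simp
lemma mem_Ann {z : ℂ} : z ∈ Ann ↔ 1 / 2 < ‖z‖ ∧ ‖z‖ < 1 := by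
  simp only [Set.mem_sdiff, mem_ball_zero_iff, mem_closedBall_zero_iff, not_le]; tauto
lemma Dp_subset_D : Dp ⊆ D := sdiff_subset
lemma Ann_subset_D : Ann ⊆ D := sdiff_subset
lemma Ann_subset_Dp : Ann ⊆ Dp := fun z hz => by
  rw [mem_Ann] at hz
  refine mem_Dp.2 ⟨hz.2, fun h => ?_⟩
  rw [h, norm_zero] at hz; linarith [hz.1]
lemma zero_mem_D : (0 : ℂ) ∈ D := by simp
lemma volume_D_lt_top : volume D < ⊤ := measure_ball_lt_top

instance : IsFiniteMeasure (volume.restrict D) := ⟨by simp⟩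
instance : IsFiniteMeasure (volume.restrict Ann) :=
  ⟨by simpa using (measure_mono Ann_subset_D).trans_lt volume_D_lt_top⟩

/-! ### Wirtinger calculus -/

lemma wl_dzc_dbar (L : ℂ →L[ℝ] ℂ) :
    wl ((L 1 - I * L I) / 2) ((L 1 + I * L I) / 2) = L := by
  ext1 v
  have hv : v = (v.re : ℝ) • (1 : ℂ) + (v.im : ℝ) • I := by
    simp [re_add_im]
  have : L v = v.re * L 1 + v.im * L I := by
    conv_lhs => rw [hv]
    rw [map_add, map_smul, map_smul, real_smul, real_smul]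
  rw [this, wl_apply]
  have h2 : conj v = v.re - v.im * I := by
    apply Complex.ext <;> simp
  have h1 : v = v.re + v.im * I := (re_add_im v).symm
  rw [h2]
  conv_lhs => rw [h1]
  simp only [add_re, ofReal_re, mul_re, I_re, mul_zero, ofReal_im, I_im, mul_one, sub_self,
    add_zero, add_im, mul_im, zero_add]
  linear_combination (-(v.im : ℂ) * L I) * I_mul_I

lemma HasW.differentiableAt {F : ℂ → ℂ} {a b z : ℂ} (h : HasW F a b z) :
    DifferentiableAt ℝ F z := HasFDerivAt.differentiableAt h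

lemma HasW.continuousAt {F : ℂ → ℂ} {a b z : ℂ} (h : HasW F a b z) : ContinuousAt F z :=
  HasFDerivAt.continuousAt h

lemma HasW.fderiv_eq {F : ℂ → ℂ} {a b z : ℂ} (h : HasW F a b z) : fderiv ℝ F z = wl a b :=
  HasFDerivAt.fderiv h

lemma HasW.dzc_eq {F : ℂ → ℂ} {a b z : ℂ} (h : HasW F a b z) : dzc F z = a := by
  rw [dzc, h.fderiv_eq]
  simp only [wl_apply, mul_one, map_one, conj_I]
  linear_combination (-(a - b) / 2) * I_mul_I

lemma HasW.dbar_eq {F : ℂ → ℂ} {a b z : ℂ} (h : HasW F a b z) : dbar F z = b := by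
  rw [dbar, h.fderiv_eq]
  simp only [wl_apply, mul_one, map_one, conj_I]
  linear_combination ((a - b) / 2) * I_mul_I

lemma hasW_of_differentiableAt {F : ℂ → ℂ} {z : ℂ} (h : DifferentiableAt ℝ F z) :
    HasW F (dzc F z) (dbar F z) z := by
  rw [HasW, dzc, dbar, wl_dzc_dbar]
  exact h.hasFDerivAt

lemma HasW.congr' {F : ℂ → ℂ} {a b a' b' z : ℂ} (h : HasW F a b z) (ha : a = a') (hb : b = b') :
    HasW F a' b' z := ha ▸ hb ▸ h

lemma HasW.congr_of_eventuallyEq {F G : ℂ → ℂ} {a b z : ℂ} (h : HasW F a b z)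
    (hFG : G =ᶠ[𝓝 z] F) : HasW G a b z :=
  HasFDerivAt.congr_of_eventuallyEq h hFG

lemma HasW.of_fderiv {F : ℂ → ℂ} {L : ℂ →L[ℝ] ℂ} {a b z : ℂ} (h : HasFDerivAt F L z)
    (hL : ∀ v, L v = a * v + b * conj v) : HasW F a b z := by
  have : L = wl a b := by ext1 v; simp [hL]
  rwa [HasW, ← this]

lemma hasW_const (c z : ℂ) : HasW (fun _ => c) 0 0 z :=
  HasW.of_fderiv (hasFDerivAt_const c z) (by simp)

lemma hasW_id (z : ℂ) : HasW (fun w => w) 1 0 z :=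
  HasW.of_fderiv (hasFDerivAt_id z) (by simp)

lemma hasW_conj (z : ℂ) : HasW (fun w => conj w) 0 1 z :=
  HasW.of_fderiv (conjCLE : ℂ →L[ℝ] ℂ).hasFDerivAt (by simp)

lemma HasDerivAt.hasW {F : ℂ → ℂ} {f' z : ℂ} (h : HasDerivAt F f' z) : HasW F f' 0 z :=
  HasW.of_fderiv (h.hasFDerivAt.restrictScalars ℝ) (by simp [mul_comm])

lemma HasW.add {F G : ℂ → ℂ} {a b c d z : ℂ} (hF : HasW F a b z) (hG : HasW G c d z) :
    HasW (fun w => F w + G w) (a + c) (b + d) z :=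
  HasW.of_fderiv (HasFDerivAt.add hF hG) (by simp; intros; ring)

lemma HasW.sub {F G : ℂ → ℂ} {a b c d z : ℂ} (hF : HasW F a b z) (hG : HasW G c d z) :
    HasW (fun w => F w - G w) (a - c) (b - d) z :=
  HasW.of_fderiv (HasFDerivAt.sub hF hG) (by simp; intros; ring)

lemma HasW.neg {F : ℂ → ℂ} {a b z : ℂ} (hF : HasW F a b z) :
    HasW (fun w => -F w) (-a) (-b) z :=
  HasW.of_fderiv (HasFDerivAt.neg hF) (by simp; intros; ring)

lemma HasW.mul {F G : ℂ → ℂ} {a b c d z : ℂ} (hF : HasW F a b z) (hG : HasW G c d z) :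
    HasW (fun w => F w * G w) (a * G z + F z * c) (b * G z + F z * d) z :=
  HasW.of_fderiv (HasFDerivAt.mul hF hG) (by simp; intros; ring)

lemma HasW.const_mul {F : ℂ → ℂ} {a b z : ℂ} (c : ℂ) (hF : HasW F a b z) :
    HasW (fun w => c * F w) (c * a) (c * b) z :=
  ((hasW_const c z).mul hF).congr' (by simp) (by simp)

lemma HasW.conj {F : ℂ → ℂ} {a b z : ℂ} (hF : HasW F a b z) :
    HasW (fun w => conj (F w)) (conj b) (conj a) z :=
  HasW.of_fderiv ((conjCLE : ℂ →L[ℝ] ℂ).hasFDerivAt.comp z hF) (by simp; intros; ring)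

/-- Holomorphic outer function. -/
lemma HasW.hol_comp {F g : ℂ → ℂ} {a b g' z : ℂ} (hF : HasW F a b z)
    (hg : HasDerivAt g g' (F z)) : HasW (fun w => g (F w)) (g' * a) (g' * b) z :=
  HasW.of_fderiv ((hg.hasFDerivAt.restrictScalars ℝ).comp z hF) (by simp; intros; ring)

/-- Holomorphic inner function. -/
lemma HasW.comp_hol {F φ : ℂ → ℂ} {a b φ' z : ℂ} (hF : HasW F a b (φ z))
    (hφ : HasDerivAt φ φ' z) :
    HasW (fun w => F (φ w)) (a * φ') (b * (starRingEnd ℂ) φ') z :=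
  HasW.of_fderiv (HasFDerivAt.comp z hF (hφ.hasFDerivAt.restrictScalars ℝ))
    (by simp; intros; ring)

lemma HasW.inv {F : ℂ → ℂ} {a b z : ℂ} (hF : HasW F a b z) (h : F z ≠ 0) :
    HasW (fun w => (F w)⁻¹) (-a / F z ^ 2) (-b / F z ^ 2) z :=
  (hF.hol_comp (hasDerivAt_inv h)).congr' (by field_simp) (by field_simp)

lemma HasW.div {F G : ℂ → ℂ} {a b c d z : ℂ} (hF : HasW F a b z) (hG : HasW G c d z)
    (h : G z ≠ 0) :
    HasW (fun w => F w / G w) ((a * G z - F z * c) / G z ^ 2) ((b * G z - F z * d) / G z ^ 2) z := by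
  simp only [div_eq_mul_inv (F _)]
  exact (hF.mul (hG.inv h)).congr' (by field_simp; ring) (by field_simp; ring)

lemma HasW.pow {F : ℂ → ℂ} {a b z : ℂ} (hF : HasW F a b z) (n : ℕ) :
    HasW (fun w => F w ^ n) (n * F z ^ (n - 1) * a) (n * F z ^ (n - 1) * b) z :=
  hF.hol_comp (hasDerivAt_pow n (F z))

lemma hasW_normSq (z : ℂ) : HasW (fun w => ((‖w‖ ^ 2 : ℝ) : ℂ)) (conj z) z z := by
  have : (fun w : ℂ => ((‖w‖ ^ 2 : ℝ) : ℂ)) = fun w => w * conj w := by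
    funext w; rw [mul_conj, normSq_eq_norm_sq]
  rw [this]
  exact ((hasW_id z).mul (hasW_conj z)).congr' (by simp) (by simp)

lemma fderiv_apply_eq_dz (V : ℂ → ℝ) (z v : ℂ) : fderiv ℝ V z v = 2 * (dz V z * v).re := by
  have hv : v = (v.re : ℝ) • (1 : ℂ) + (v.im : ℝ) • I := by
    simp [re_add_im]
  have : fderiv ℝ V z v = v.re * fderiv ℝ V z 1 + v.im * fderiv ℝ V z I := by
    conv_lhs => rw [hv]
    simp only [map_add, map_smul, smul_eq_mul]
  rw [this, dz]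
  simp
  ring

lemma hasW_ofReal {V : ℂ → ℝ} {z : ℂ} (h : DifferentiableAt ℝ V z) :
    HasW (fun w => (V w : ℂ)) (dz V z) (conj (dz V z)) z := by
  refine HasW.of_fderiv (ofRealCLM.hasFDerivAt.comp z h.hasFDerivAt) fun v => ?_
  simp only [ContinuousLinearMap.coe_comp, Function.comp_apply, ofRealCLM_apply,
    fderiv_apply_eq_dz]
  rw [← map_mul, add_conj]

lemma HasW.differentiableAt_real {V : ℂ → ℝ} {a b z : ℂ} (h : HasW (fun w => (V w : ℂ)) a b z) :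
    DifferentiableAt ℝ V z := by
  have := reCLM.differentiableAt.comp z h.differentiableAt
  simpa [Function.comp_def] using this

lemma HasW.dz_eq {V : ℂ → ℝ} {a b z : ℂ} (h : HasW (fun w => (V w : ℂ)) a b z) : dz V z = a := by
  rw [← h.dzc_eq, (hasW_ofReal h.differentiableAt_real).dzc_eq]

lemma HasW.re {F : ℂ → ℂ} {a b z : ℂ} (hF : HasW F a b z) :
    HasW (fun w => ((F w).re : ℂ)) ((a + (starRingEnd ℂ) b) / 2) ((b + (starRingEnd ℂ) a) / 2) z := by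
  have : (fun w => ((F w).re : ℂ)) = fun w => (1 / 2 : ℂ) * (F w + (starRingEnd ℂ) (F w)) := by
    funext w; rw [add_conj]; push_cast; ring
  rw [this]
  exact ((hF.add hF.conj).const_mul _).congr' (by ring) (by ring)

lemma HasW.im {F : ℂ → ℂ} {a b z : ℂ} (hF : HasW F a b z) :
    HasW (fun w => ((F w).im : ℂ)) ((a - (starRingEnd ℂ) b) / (2 * I))
      ((b - (starRingEnd ℂ) a) / (2 * I)) z := by
  have : (fun w => ((F w).im : ℂ)) =
      fun w => (1 / (2 * I) : ℂ) * (F w - (starRingEnd ℂ) (F w)) := by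
    funext w; rw [sub_conj]; push_cast; field_simp
  rw [this]
  exact ((hF.sub hF.conj).const_mul _).congr' (by ring) (by ring)

/-- Real outer function. -/
lemma HasW.real_comp {V : ℂ → ℝ} {a b z : ℂ} (hV : HasW (fun w => (V w : ℂ)) a b z)
    {g : ℝ → ℝ} {g' : ℝ} (hg : HasDerivAt g g' (V z)) :
    HasW (fun w => (g (V w) : ℂ)) (g' * a) (g' * b) z := by
  have hd := hV.differentiableAt_real
  have h1 : HasFDerivAt (fun w => g (V w)) (g' • fderiv ℝ V z) z :=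
    hg.comp_hasFDerivAt z hd.hasFDerivAt
  refine HasW.of_fderiv (ofRealCLM.hasFDerivAt.comp z h1) fun v => ?_
  have h2 := (hasW_ofReal hd)
  have h3 : ((fderiv ℝ V z v : ℝ) : ℂ) = a * v + b * (starRingEnd ℂ) v := by
    have e1 := HasFDerivAt.unique (ofRealCLM.hasFDerivAt.comp z hd.hasFDerivAt) hV
    have := congrArg (fun L : ℂ →L[ℝ] ℂ => L v) e1
    simpa using this
  simp only [ContinuousLinearMap.coe_comp, Function.comp_apply, ofRealCLM_apply,
    smul_apply, smul_eq_mul, ofReal_mul, h3]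
  ring

/-! ### Rules for `dz` -/

lemma dz_congr {U V : ℂ → ℝ} {z : ℂ} (h : U =ᶠ[𝓝 z] V) : dz U z = dz V z := by
  simp only [dz, h.fderiv_eq]

lemma dbar_congr {F G : ℂ → ℂ} {z : ℂ} (h : F =ᶠ[𝓝 z] G) : dbar F z = dbar G z := by
  simp only [dbar, h.fderiv_eq]

lemma dzc_congr {F G : ℂ → ℂ} {z : ℂ} (h : F =ᶠ[𝓝 z] G) : dzc F z = dzc G z := by
  simp only [dzc, h.fderiv_eq]

@[simp] lemma dz_const (c : ℝ) (z : ℂ) : dz (fun _ => c) z = 0 := by simp [dz]

lemma dz_add {U V : ℂ → ℝ} {z : ℂ} (hU : DifferentiableAt ℝ U z) (hV : DifferentiableAt ℝ V z) :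
    dz (fun w => U w + V w) z = dz U z + dz V z :=
  HasW.dz_eq (by simpa using (hasW_ofReal hU).add (hasW_ofReal hV))

lemma dz_sub {U V : ℂ → ℝ} {z : ℂ} (hU : DifferentiableAt ℝ U z) (hV : DifferentiableAt ℝ V z) :
    dz (fun w => U w - V w) z = dz U z - dz V z :=
  HasW.dz_eq (by simpa using (hasW_ofReal hU).sub (hasW_ofReal hV))

lemma dz_mul {U V : ℂ → ℝ} {z : ℂ} (hU : DifferentiableAt ℝ U z) (hV : DifferentiableAt ℝ V z) :
    dz (fun w => U w * V w) z = dz U z * V z + U z * dz V z :=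
  HasW.dz_eq (by simpa using (hasW_ofReal hU).mul (hasW_ofReal hV))

lemma dz_const_mul {V : ℂ → ℝ} {z : ℂ} (c : ℝ) (hV : DifferentiableAt ℝ V z) :
    dz (fun w => c * V w) z = c * dz V z := by
  rw [dz_mul (differentiableAt_const c) hV]; simp

lemma dz_normSq (z : ℂ) : dz (fun w => ‖w‖ ^ 2) z = conj z := (hasW_normSq z).dz_eq

lemma dz_real_comp {V : ℂ → ℝ} {z : ℂ} (hV : DifferentiableAt ℝ V z) {g : ℝ → ℝ} {g' : ℝ}
    (hg : HasDerivAt g g' (V z)) : dz (fun w => g (V w)) z = g' * dz V z :=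
  ((hasW_ofReal hV).real_comp hg).dz_eq

lemma dz_comp_hol {V : ℂ → ℝ} {φ : ℂ → ℂ} {φ' z : ℂ} (hV : DifferentiableAt ℝ V (φ z))
    (hφ : HasDerivAt φ φ' z) : dz (fun w => V (φ w)) z = dz V (φ z) * φ' :=
  ((hasW_ofReal hV).comp_hol hφ).dz_eq

lemma norm_fderiv_eq (V : ℂ → ℝ) (z : ℂ) : ‖fderiv ℝ V z‖ = 2 * ‖dz V z‖ := by
  refine le_antisymm (ContinuousLinearMap.opNorm_le_bound _ (by positivity) fun v => ?_) ?_
  · rw [fderiv_apply_eq_dz, Real.norm_eq_abs, abs_mul, abs_two, mul_assoc, ← norm_mul]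
    exact mul_le_mul_of_nonneg_left (abs_re_le_norm _) (by norm_num)
  · by_cases h : dz V z = 0
    · simp [h]
    have h1 := (fderiv ℝ V z).le_opNorm (conj (dz V z))
    rw [fderiv_apply_eq_dz, mul_conj, ofReal_re, normSq_eq_norm_sq, Real.norm_eq_abs,
      abs_of_nonneg (by positivity), RCLike.norm_conj] at h1
    have h2 : 0 < ‖dz V z‖ := norm_pos_iff.2 h
    nlinarith

lemma dz_eq_zero_iff {V : ℂ → ℝ} {z : ℂ} : dz V z = 0 ↔ fderiv ℝ V z = 0 := by
  rw [← norm_eq_zero (a := fderiv ℝ V z), norm_fderiv_eq]; simp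

/-! ### Smoothness of the Wirtinger derivatives -/

lemma contDiffOn_dz {S : Set ℂ} (hS : IsOpen S) {V : ℂ → ℝ} {m n : WithTop ℕ∞}
    (hV : ContDiffOn ℝ n V S) (hmn : m + 1 ≤ n) : ContDiffOn ℝ m (dz V) S := by
  have h := hV.fderiv_of_isOpen hS hmn
  have h1 : ContDiffOn ℝ m (fun z => ((fderiv ℝ V z 1 : ℝ) : ℂ)) S :=
    ofRealCLM.contDiff.comp_contDiffOn (h.clm_apply contDiffOn_const)
  have h2 : ContDiffOn ℝ m (fun z => ((fderiv ℝ V z I : ℝ) : ℂ)) S :=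
    ofRealCLM.contDiff.comp_contDiffOn (h.clm_apply contDiffOn_const)
  exact (h1.sub (contDiffOn_const.mul h2)).div_const 2

lemma contDiffOn_dzc {S : Set ℂ} (hS : IsOpen S) {F : ℂ → ℂ} {m n : WithTop ℕ∞}
    (hF : ContDiffOn ℝ n F S) (hmn : m + 1 ≤ n) : ContDiffOn ℝ m (dzc F) S := by
  have h := hF.fderiv_of_isOpen hS hmn
  exact ((h.clm_apply contDiffOn_const).sub
    (contDiffOn_const.mul (h.clm_apply contDiffOn_const))).div_const 2

lemma contDiffOn_dbar {S : Set ℂ} (hS : IsOpen S) {F : ℂ → ℂ} {m n : WithTop ℕ∞}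
    (hF : ContDiffOn ℝ n F S) (hmn : m + 1 ≤ n) : ContDiffOn ℝ m (dbar F) S := by
  have h := hF.fderiv_of_isOpen hS hmn
  exact ((h.clm_apply contDiffOn_const).add
    (contDiffOn_const.mul (h.clm_apply contDiffOn_const))).div_const 2

lemma continuousOn_dz {S : Set ℂ} (hS : IsOpen S) {V : ℂ → ℝ} (hV : ContDiffOn ℝ 1 V S) :
    ContinuousOn (dz V) S :=
  (contDiffOn_dz (m := 0) hS hV (by simp)).continuousOn

lemma continuousOn_dzc {S : Set ℂ} (hS : IsOpen S) {F : ℂ → ℂ} (hF : ContDiffOn ℝ 1 F S) :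
    ContinuousOn (dzc F) S :=
  (contDiffOn_dzc (m := 0) hS hF (by simp)).continuousOn

lemma continuousOn_dbar {S : Set ℂ} (hS : IsOpen S) {F : ℂ → ℂ} (hF : ContDiffOn ℝ 1 F S) :
    ContinuousOn (dbar F) S :=
  (contDiffOn_dbar (m := 0) hS hF (by simp)).continuousOn

lemma continuous_dz {V : ℂ → ℝ} (hV : ContDiff ℝ 1 V) : Continuous (dz V) :=
  continuousOn_univ.1 (continuousOn_dz isOpen_univ hV.contDiffOn)

lemma continuous_dzc {F : ℂ → ℂ} (hF : ContDiff ℝ 1 F) : Continuous (dzc F) :=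
  continuousOn_univ.1 (continuousOn_dzc isOpen_univ hF.contDiffOn)

lemma differentiableAt_of_contDiffOn {E : Type*} [NormedAddCommGroup E] [NormedSpace ℝ E]
    {S : Set ℂ} (hS : IsOpen S) {V : ℂ → E} {n : WithTop ℕ∞}
    (hV : ContDiffOn ℝ n V S) (hn : n ≠ 0) {z : ℂ} (hz : z ∈ S) : DifferentiableAt ℝ V z :=
  (hV.contDiffAt (hS.mem_nhds hz)).differentiableAt hn

lemma contDiff_conj {n : WithTop ℕ∞} : ContDiff ℝ n (fun z : ℂ => conj z) :=
  (conjCLE : ℂ →L[ℝ] ℂ).contDiff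

lemma contDiff_ofReal_comp {S : Set ℂ} {V : ℂ → ℝ} {n : WithTop ℕ∞} (hV : ContDiffOn ℝ n V S) :
    ContDiffOn ℝ n (fun z => (V z : ℂ)) S :=
  ofRealCLM.contDiff.comp_contDiffOn hV

lemma contDiffOn_conj_comp {S : Set ℂ} {F : ℂ → ℂ} {n : WithTop ℕ∞} (hF : ContDiffOn ℝ n F S) :
    ContDiffOn ℝ n (fun z => conj (F z)) S :=
  contDiff_conj.comp_contDiffOn hF

lemma contDiffOn_re_comp {S : Set ℂ} {F : ℂ → ℂ} {n : WithTop ℕ∞} (hF : ContDiffOn ℝ n F S) :
    ContDiffOn ℝ n (fun z => (F z).re) S :=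
  reCLM.contDiff.comp_contDiffOn hF

lemma contDiffOn_im_comp {S : Set ℂ} {F : ℂ → ℂ} {n : WithTop ℕ∞} (hF : ContDiffOn ℝ n F S) :
    ContDiffOn ℝ n (fun z => (F z).im) S :=
  imCLM.contDiff.comp_contDiffOn hF

/-- `∂̄∂V` is real for a `C²` real function (symmetry of the second derivative). -/
lemma im_dbar_dz {V : ℂ → ℝ} {z : ℂ} (hV : ContDiffAt ℝ 2 V z) : (dbar (dz V) z).im = 0 := by
  have hs : IsSymmSndFDerivAt ℝ V z := hV.isSymmSndFDerivAt (by simp)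
  have hd : DifferentiableAt ℝ (fderiv ℝ V) z :=
    (hV.fderiv_right (m := 1) (by norm_num)).differentiableAt (by simp)
  set L := fderiv ℝ (fderiv ℝ V) z with hL
  have h1 : HasFDerivAt (fun w => fderiv ℝ V w 1) (L.flip 1) z := by
    simpa using hd.hasFDerivAt.clm_apply (hasFDerivAt_const (1 : ℂ) z)
  have h2 : HasFDerivAt (fun w => fderiv ℝ V w I) (L.flip I) z := by
    simpa using hd.hasFDerivAt.clm_apply (hasFDerivAt_const (I : ℂ) z)
  have h3 := ((ofRealCLM.hasFDerivAt.comp z h1).sub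
    ((ofRealCLM.hasFDerivAt.comp z h2).const_mul I)).mul_const (2⁻¹ : ℂ)
  have h4 : fderiv ℝ (dz V) z = _ := HasFDerivAt.fderiv (h3.congr_of_eventuallyEq
    (Eventually.of_forall fun w => by simp [dz, div_eq_mul_inv]))
  rw [dbar, h4]
  have := hs.eq 1 I
  simp [← hL] at this ⊢
  rw [this]; ring

/-! ### The conformal map -/

namespace Setup
variable (P : Setup)

lemma analyticOnNhd : AnalyticOnNhd ℂ P.φ D := P.hφ.analyticOnNhd isOpen_D

lemma hasDerivAt {z : ℂ} (hz : z ∈ D) : HasDerivAt P.φ (deriv P.φ z) z :=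
  (P.analyticOnNhd z hz).differentiableAt.hasDerivAt

lemma hasDerivAt_deriv {z : ℂ} (hz : z ∈ D) :
    HasDerivAt (deriv P.φ) (deriv (deriv P.φ) z) z :=
  (P.analyticOnNhd.deriv z hz).differentiableAt.hasDerivAt

lemma contDiffOn_φ {n : WithTop ℕ∞} : ContDiffOn ℝ n P.φ D :=
  (P.analyticOnNhd.contDiffOn_of_completeSpace).restrict_scalars ℝ

lemma contDiffOn_deriv {n : WithTop ℕ∞} : ContDiffOn ℝ n (deriv P.φ) D :=
  (P.analyticOnNhd.deriv.contDiffOn_of_completeSpace).restrict_scalars ℝ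

lemma rho_pos {z : ℂ} (hz : z ∈ D) : 0 < rho P.φ z :=
  pow_pos (norm_pos_iff.2 (P.hφ' z hz)) 2

lemma rho_nonneg (z : ℂ) : 0 ≤ rho P.φ z := by unfold rho; positivity

lemma ofReal_rho (z : ℂ) : (rho P.φ z : ℂ) = deriv P.φ z * conj (deriv P.φ z) := by
  rw [mul_conj, normSq_eq_norm_sq, rho]

lemma contDiffOn_rho {n : WithTop ℕ∞} : ContDiffOn ℝ n (rho P.φ) D :=
  (P.contDiffOn_deriv (n := n)).norm_sq ℝ

lemma continuousOn_rho : ContinuousOn (rho P.φ) D := (P.contDiffOn_rho (n := 0)).continuousOn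

lemma memLp_deriv : MemLp (deriv P.φ) 2 (volume.restrict D) :=
  (memLp_two_iff_integrable_sq_norm
    ((P.contDiffOn_deriv (n := 0)).continuousOn.aestronglyMeasurable
      isOpen_D.measurableSet)).2 P.hρ

end Setup

end Crest.Agent.R101
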