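import Crest.Agent.R101.Transfer

/-!
# Row 101: from `EuclideanSpace ℝ (Fin 2)` to `ℂ`   (TASK F)

Recipe: `e = Complex.orthonormalBasisOneI.repr : ℂ ≃ₗᵢ[ℝ] EuclideanSpace ℝ (Fin 2)`, measure
preserving (`LinearIsometryEquiv.measurePreserving` / `OrthonormalBasis.measurePreserving_repr`,
`MeasurePreserving.setIntegral_preimage_emb`, `MeasurePreserving.integrableOn_comp_preimage`);
`Ω' = e ⁻¹' Ω` (`Homeomorph.isSimplyConnected_preimage`); for any `v`,
`‖∇ v (e z)‖ = ‖fderiv ℝ v (e z)‖ = ‖fderiv ℝ (v ∘ e) z‖ = 2 ‖dz (v ∘ e) z‖`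
(`ContinuousLinearEquiv.comp_right_fderiv`, `norm_fderiv_eq`); apply `planar` to `u ∘ e`, and
`hmin` to `v ∘ e.symm`.
-/

open MeasureTheory
open scoped Gradient

namespace Crest.Agent.R101

/-- the identification of `ℂ` with the Euclidean plane -/
noncomputable def euclidE : ℂ ≃ₗᵢ[ℝ] EuclideanSpace ℝ (Fin 2) := Complex.orthonormalBasisOneI.repr

lemma euclid_mp : MeasurePreserving euclidE volume volume := euclidE.measurePreserving

lemma euclid_emb : MeasurableEmbedding euclidE :=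
  euclidE.toHomeomorph.measurableEmbedding

lemma euclid_norm_grad (v : EuclideanSpace ℝ (Fin 2) → ℝ) (z : ℂ) :
    ‖∇ v (euclidE z)‖ = 2 * ‖dz (fun w => v (euclidE w)) z‖ := by
  rw [← norm_fderiv_eq, gradient, LinearIsometryEquiv.norm_map]
  have h := euclidE.toContinuousLinearEquiv.comp_right_fderiv (f := v) (x := z)
  have h' : fderiv ℝ (fun w => v (euclidE w)) z =
      (fderiv ℝ v (euclidE z)).comp (euclidE : ℂ →L[ℝ] EuclideanSpace ℝ (Fin 2)) := h
  rw [h', ContinuousLinearMap.opNorm_comp_linearIsometryEquiv]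

lemma euclid_grad_sq (v : EuclideanSpace ℝ (Fin 2) → ℝ) (z : ℂ) :
    ‖∇ v (euclidE z)‖ ^ 2 = 4 * ‖dz (fun w => v (euclidE w)) z‖ ^ 2 := by
  rw [euclid_norm_grad]; ring

lemma euclid_integral (Ω : Set (EuclideanSpace ℝ (Fin 2))) (g : EuclideanSpace ℝ (Fin 2) → ℝ) :
    ∫ x in Ω, g x = ∫ z in euclidE ⁻¹' Ω, g (euclidE z) :=
  (euclid_mp.setIntegral_preimage_emb euclid_emb g Ω).symm

lemma euclid_integrableOn (Ω : Set (EuclideanSpace ℝ (Fin 2)))
    (g : EuclideanSpace ℝ (Fin 2) → ℝ) :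
    IntegrableOn g Ω ↔ IntegrableOn (fun z => g (euclidE z)) (euclidE ⁻¹' Ω) :=
  (euclid_mp.integrableOn_comp_preimage euclid_emb).symm

lemma euclid_integral_grad (Ω : Set (EuclideanSpace ℝ (Fin 2)))
    (v : EuclideanSpace ℝ (Fin 2) → ℝ) :
    ∫ x in Ω, ‖∇ v x‖ ^ 2 =
      4 * ∫ z in euclidE ⁻¹' Ω, ‖dz (fun w => v (euclidE w)) z‖ ^ 2 := by
  rw [euclid_integral Ω (fun x => ‖∇ v x‖ ^ 2), ← integral_const_mul]
  simp only [euclid_grad_sq]

lemma euclid_integrableOn_grad (Ω : Set (EuclideanSpace ℝ (Fin 2)))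
    (v : EuclideanSpace ℝ (Fin 2) → ℝ) :
    IntegrableOn (fun x => ‖∇ v x‖ ^ 2) Ω ↔
      IntegrableOn (fun z => ‖dz (fun w => v (euclidE w)) z‖ ^ 2) (euclidE ⁻¹' Ω) := by
  rw [euclid_integrableOn Ω (fun x => ‖∇ v x‖ ^ 2)]
  simp only [euclid_grad_sq]
  exact integrable_const_mul_iff (IsUnit.mk0 (4 : ℝ) (by norm_num)) _

theorem euclid
    (Ω : Set (EuclideanSpace ℝ (Fin 2))) (hopen : IsOpen Ω)
    (hbdd : Bornology.IsBounded Ω) (hsc : IsSimplyConnected Ω)
    (u : EuclideanSpace ℝ (Fin 2) → ℝ) (hu : ContDiffOn ℝ 1 u Ω)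
    (huL2 : IntegrableOn (fun x => u x ^ 2) Ω) (hgradL2 : IntegrableOn (fun x => ‖∇ u x‖ ^ 2) Ω)
    (hmean : ∫ x in Ω, u x = 0) (hnz : ∃ x ∈ Ω, u x ≠ 0)
    (hmin : ∀ v : EuclideanSpace ℝ (Fin 2) → ℝ, ContDiffOn ℝ 1 v Ω →
      IntegrableOn (fun x => v x ^ 2) Ω → IntegrableOn (fun x => ‖∇ v x‖ ^ 2) Ω →
      ∫ x in Ω, v x = 0 →
      (∫ x in Ω, ‖∇ u x‖ ^ 2) * (∫ x in Ω, v x ^ 2) ≤
        (∫ x in Ω, ‖∇ v x‖ ^ 2) * (∫ x in Ω, u x ^ 2)) :
    ∀ x ∈ Ω, ∇ u x ≠ 0 := by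
  intro x hx h0
  have hC : ContDiff ℝ 1 euclidE := euclidE.contDiff
  have hC' : ContDiff ℝ 1 euclidE.symm := euclidE.symm.contDiff
  have hmain := planar (Ω := euclidE ⁻¹' Ω) (hopen.preimage euclidE.continuous)
    (euclidE.antilipschitz.isBounded_preimage hbdd)
    (euclidE.toHomeomorph.isSimplyConnected_preimage.2 hsc)
    (u := fun w => u (euclidE w))
    ⟨hu.comp hC.contDiffOn (Set.mapsTo_preimage _ _), by
      simpa only [mul_one] using (euclid_integrableOn Ω fun x => u x ^ 2).1 huL2,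
      (euclid_integrableOn_grad Ω u).1 hgradL2⟩
    (by rw [← euclid_integral Ω u]; exact hmean)
    (by
      obtain ⟨y, hy, hy'⟩ := hnz
      exact ⟨euclidE.symm y, by simpa using hy, by simpa using hy'⟩)
    (by
      intro V hV hV0
      set v : EuclideanSpace ℝ (Fin 2) → ℝ := fun y => V (euclidE.symm y) with hv
      have hVv : V = fun w => v (euclidE w) := by funext w; simp [hv]
      have h1 := hmin v (hV.1.comp hC'.contDiffOn (fun y hy => by simpa using hy))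
        ((euclid_integrableOn Ω fun x => v x ^ 2).2 (by simpa [hv] using hV.2.1))
        ((euclid_integrableOn_grad Ω v).2 (by rw [← hVv]; exact hV.2.2))
        (by rw [euclid_integral Ω v, ← hV0, hVv])
      rw [euclid_integral_grad, euclid_integral_grad, euclid_integral Ω (fun x => v x ^ 2),
        euclid_integral Ω (fun x => u x ^ 2), ← hVv] at h1
      have h2 : (fun z => v (euclidE z) ^ 2) = fun z => V z ^ 2 := by funext z; simp [hv]
      rw [h2] at h1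
      linarith)
    (euclidE.symm x) (by simpa using hx)
  apply hmain
  have := euclid_norm_grad u (euclidE.symm x)
  rw [LinearIsometryEquiv.apply_symm_apply, h0, norm_zero] at this
  exact norm_eq_zero.1 (by linarith)

end Crest.Agent.R101
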