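import Crest.Agent.R101.Basic

/-!
# Row 101: plane waves pulled back by `φ`, and local order estimates

Author: helper76.
-/

open Complex MeasureTheory Set Metric Filter Topology
open scoped ComplexConjugate

noncomputable section

namespace Crest.Agent.R101

/-- The phase `Re (conj a * φ z)`. -/
def th (φ : ℂ → ℂ) (a z : ℂ) : ℝ := (conj a * φ z).re

namespace Setup
variable (P : Setup)

lemma hasW_th (a : ℂ) {z : ℂ} (hz : z ∈ D) :
    HasW (fun w => (th P.φ a w : ℂ)) (conj a * deriv P.φ z / 2)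
      (a * conj (deriv P.φ z) / 2) z :=
  ((HasDerivAt.hasW (P.hasDerivAt hz)).const_mul (conj a)).re.congr' (by simp) (by simp)

lemma contDiffOn_th (a : ℂ) {n : WithTop ℕ∞} : ContDiffOn ℝ n (th P.φ a) D :=
  contDiffOn_re_comp (contDiffOn_const.mul P.contDiffOn_φ)

/-- First derivatives of `g ∘ th`. -/
lemma hasW_wave (a : ℂ) {g g' : ℝ → ℝ} (hg : ∀ t, HasDerivAt g (g' t) t) {z : ℂ} (hz : z ∈ D) :
    HasW (fun w => (g (th P.φ a w) : ℂ)) (g' (th P.φ a z) * (conj a * deriv P.φ z / 2))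
      (g' (th P.φ a z) * (a * conj (deriv P.φ z) / 2)) z :=
  (P.hasW_th a hz).real_comp (hg _)

lemma dz_wave (a : ℂ) {g g' : ℝ → ℝ} (hg : ∀ t, HasDerivAt g (g' t) t) {z : ℂ} (hz : z ∈ D) :
    dz (fun w => g (th P.φ a w)) z = g' (th P.φ a z) * (conj a * deriv P.φ z / 2) :=
  (P.hasW_wave a hg hz).dz_eq

/-- The Helmholtz equation for `g ∘ th` when `g'' = -g`. -/
lemma dbar_dz_wave (a : ℂ) {g g' : ℝ → ℝ} (hg : ∀ t, HasDerivAt g (g' t) t)
    (hg' : ∀ t, HasDerivAt g' (-g t) t) {z : ℂ} (hz : z ∈ D) :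
    dbar (dz (fun w => g (th P.φ a w))) z =
      -((‖a‖ ^ 2 / 4 * rho P.φ z * g (th P.φ a z) : ℝ) : ℂ) := by
  have e : dz (fun w => g (th P.φ a w)) =ᶠ[𝓝 z]
      fun w => g' (th P.φ a w) * ((conj a / 2) * deriv P.φ w) := by
    filter_upwards [isOpen_D.mem_nhds hz] with w hw
    rw [P.dz_wave a hg hw]; ring
  rw [dbar_congr e, ((P.hasW_wave a hg' hz).mul
    ((HasDerivAt.hasW (P.hasDerivAt_deriv hz)).const_mul (conj a / 2))).dbar_eq]
  have h1 : ((‖a‖ ^ 2 : ℝ) : ℂ) = a * conj a := by rw [mul_conj, normSq_eq_norm_sq]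
  simp only [ofReal_mul, ofReal_div, h1, P.ofReal_rho]
  push_cast
  ring

end Setup

/-- Order of vanishing from the order of vanishing of the derivative. -/
lemma isBigO_pow_succ {E : Type*} [NormedAddCommGroup E] [NormedSpace ℝ E] {F : ℂ → E} {k : ℕ}
    (hF : ∀ᶠ z in 𝓝 (0 : ℂ), DifferentiableAt ℝ F z) (h0 : F 0 = 0)
    (h : fderiv ℝ F =O[𝓝 0] fun z : ℂ => ‖z‖ ^ k) : F =O[𝓝 0] fun z : ℂ => ‖z‖ ^ (k + 1) := by
  obtain ⟨C, hC0, hC⟩ := h.exists_pos
  obtain ⟨r, hr, hr'⟩ := Metric.eventually_nhds_iff_ball.1 (hF.and hC.bound)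
  refine Asymptotics.IsBigO.of_bound C ?_
  filter_upwards [ball_mem_nhds (0 : ℂ) hr] with z hz
  have hsub : closedBall (0 : ℂ) ‖z‖ ⊆ ball 0 r :=
    closedBall_subset_ball (mem_ball_zero_iff.1 hz)
  have := (convex_closedBall (0 : ℂ) ‖z‖).norm_image_sub_le_of_norm_fderiv_le
    (𝕜 := ℝ) (f := F) (C := C * ‖z‖ ^ k) (fun x hx => (hr' x (hsub hx)).1)
    (fun x hx => by
      refine (hr' x (hsub hx)).2.trans ?_
      rw [norm_pow, norm_norm]
      gcongr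
      exact mem_closedBall_zero_iff.1 hx) (x := 0) (y := z) (by simp) (by simp)
  rw [h0, sub_zero, sub_zero] at this
  rw [norm_pow, norm_norm, pow_succ, ← mul_assoc]
  exact this

/-- Real version in terms of `dz`. -/
lemma isBigO_pow_succ_of_dz {V : ℂ → ℝ} {k : ℕ}
    (hV : ∀ᶠ z in 𝓝 (0 : ℂ), DifferentiableAt ℝ V z) (h0 : V 0 = 0)
    (h : dz V =O[𝓝 0] fun z : ℂ => ‖z‖ ^ k) : V =O[𝓝 0] fun z : ℂ => ‖z‖ ^ (k + 1) := by
  refine isBigO_pow_succ hV h0 (Asymptotics.IsBigO.trans ?_ h)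
  exact Asymptotics.IsBigO.of_bound 2 (Eventually.of_forall fun z => (norm_fderiv_eq V z).le)

/-- A function differentiable at `0` differs from its value there by `O(‖z‖)`. -/
lemma isBigO_sub_of_differentiableAt {E : Type*} [NormedAddCommGroup E] [NormedSpace ℝ E]
    {F : ℂ → E} (hF : DifferentiableAt ℝ F 0) :
    (fun z => F z - F 0) =O[𝓝 0] fun z : ℂ => ‖z‖ ^ 1 := by
  simpa using hF.hasFDerivAt.isBigO_sub.norm_right

/-- A `C²` function with a double zero at `0`. -/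
lemma isBigO_of_double_zero {W : ℂ → ℝ} (hW : ContDiffOn ℝ 2 W D) (h0 : W 0 = 0)
    (h1 : dz W 0 = 0) :
    (dz W =O[𝓝 0] fun z : ℂ => ‖z‖ ^ 1) ∧ (W =O[𝓝 0] fun z : ℂ => ‖z‖ ^ 2) := by
  have hd : ContDiffOn ℝ 1 (dz W) D := contDiffOn_dz isOpen_D hW (by norm_num)
  have a : dz W =O[𝓝 0] fun z : ℂ => ‖z‖ ^ 1 := by
    simpa [h1] using isBigO_sub_of_differentiableAt
      (differentiableAt_of_contDiffOn isOpen_D hd (by simp) zero_mem_D)
  refine ⟨a, isBigO_pow_succ_of_dz ?_ h0 a⟩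
  filter_upwards [isOpen_D.mem_nhds zero_mem_D] with z hz
  exact differentiableAt_of_contDiffOn isOpen_D hW (by simp) hz

end Crest.Agent.R101
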