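import Crest.Agent.R101.Green
import Crest.Agent.R101.Wave

/-!
# Row 101: Filonov's trick, the Dirichlet inequality with the Neumann constant   (TASK D)

Notation: `ρ = rho P.φ`, for `‖a‖² = 4 lam`: `C = cos (th φ a)`, `S = sin (th φ a)`
(file `Wave.lean`: `dz_wave`, `dbar_dz_wave`, `contDiffOn_th`), `dz C = -S ā φ'/2`,
`dz S = C ā φ'/2`; these are admissible (bounded, `‖dz ·‖² ≤ lam ρ`).
-/

open Complex MeasureTheory Set Metric Filter Topology
open scoped ComplexConjugate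

noncomputable section

namespace Crest.Agent.R101

namespace Setup
variable (P : Setup)

/-- Bounded `C¹` functions with `‖∂V‖ ≤ K + L ‖φ'‖` are admissible. -/
lemma fil_adm {V : ℂ → ℝ} (hV : ContDiffOn ℝ 1 V D) {M K L : ℝ} (hM : ∀ z ∈ D, |V z| ≤ M)
    (hK : ∀ z ∈ D, ‖dz V z‖ ≤ K + L * ‖deriv P.φ z‖) : Adm D (rho P.φ) V := by
  refine ⟨hV, P.integrableOn_mul_rho (hV.continuousOn.pow 2) (M := M ^ 2) fun z hz => ?_, ?_⟩
  · rw [abs_pow]
    exact pow_le_pow_left₀ (abs_nonneg _) (hM z hz) 2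
  · have hi : IntegrableOn (fun z => 2 * K ^ 2 + 2 * L ^ 2 * rho P.φ z) D :=
      (integrable_const _).add (P.hρ.const_mul _)
    refine Integrable.mono' hi
      (((continuousOn_dz isOpen_D hV).norm.pow 2).aestronglyMeasurable isOpen_D.measurableSet)
      ((ae_restrict_iff' isOpen_D.measurableSet).2 (Eventually.of_forall fun z hz => ?_))
    have h1 := hK z hz
    have h2 := norm_nonneg (dz V z)
    rw [Real.norm_eq_abs, abs_of_nonneg (by positivity), rho]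
    nlinarith [sq_nonneg (K - L * ‖deriv P.φ z‖)]

lemma fil_contDiffOn_cos (a : ℂ) {n : WithTop ℕ∞} :
    ContDiffOn ℝ n (fun z => Real.cos (th P.φ a z)) D := (P.contDiffOn_th a).cos

lemma fil_contDiffOn_sin (a : ℂ) {n : WithTop ℕ∞} :
    ContDiffOn ℝ n (fun z => Real.sin (th P.φ a z)) D := (P.contDiffOn_th a).sin

lemma fil_int_cos (a : ℂ) : IntegrableOn (fun z => Real.cos (th P.φ a z) * rho P.φ z) D :=
  P.integrableOn_mul_rho (P.fil_contDiffOn_cos a (n := 0)).continuousOn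
    (fun _ _ => Real.abs_cos_le_one _)

lemma fil_int_sin (a : ℂ) : IntegrableOn (fun z => Real.sin (th P.φ a z) * rho P.φ z) D :=
  P.integrableOn_mul_rho (P.fil_contDiffOn_sin a (n := 0)).continuousOn
    (fun _ _ => Real.abs_sin_le_one _)

lemma fil_norm_le (c : ℝ) (hc : |c| ≤ 1) (a p : ℂ) :
    ‖(c : ℂ) * (conj a * p / 2)‖ ≤ ‖a‖ * ‖p‖ := by
  rw [norm_mul, norm_div, norm_mul, RCLike.norm_conj, norm_real, Real.norm_eq_abs]
  have : ‖(2 : ℂ)‖ = 2 := by simp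
  rw [this]
  have h := mul_nonneg (norm_nonneg a) (norm_nonneg p)
  nlinarith [abs_nonneg c]

/-- The pointwise algebra for the sum of two waves. -/
lemma fil_two_waves (x y s t : ℝ) (p : ℂ) :
    ‖((-Real.sin s : ℝ) : ℂ) * (conj (⟨x, y⟩ : ℂ) * p / 2) +
        ((-Real.sin t : ℝ) : ℂ) * (conj (⟨x, -y⟩ : ℂ) * p / 2)‖ ^ 2 +
      ‖((Real.cos s : ℝ) : ℂ) * (conj (⟨x, y⟩ : ℂ) * p / 2) +
        ((Real.cos t : ℝ) : ℂ) * (conj (⟨x, -y⟩ : ℂ) * p / 2)‖ ^ 2 =
      (x ^ 2 + y ^ 2) / 4 * ((Real.cos s + Real.cos t) ^ 2 * ‖p‖ ^ 2) +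
        (x ^ 2 + y ^ 2) / 4 * ((Real.sin s + Real.sin t) ^ 2 * ‖p‖ ^ 2) -
        y ^ 2 * (Real.cos (s - t) * ‖p‖ ^ 2) := by
  simp only [← normSq_eq_norm_sq, normSq_apply, Real.cos_sub]
  simp only [add_re, add_im, mul_re, mul_im, ofReal_re, ofReal_im, div_ofNat_re, div_ofNat_im,
    conj_re, conj_im]
  ring

/-- Some plane wave has non-zero mean.  Recipe: take `a ≠ a'` with `‖a‖² = ‖a'‖² = 4 lam` and
`‖a - a'‖ M ≤ 1` (`M` bounds `φ`; e.g. `a' = a e^{iδ}`).  If all four means vanish apply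
`P.neu` to `C + C'` and `S + S'` and add: pointwise
`‖dz(C+C')‖² + ‖dz(S+S')‖² - lam ρ ((C+C')² + (S+S')²) = 2 ρ (Re(conj a * a')/4 - lam) cos(th a - th a') < 0`
on `D` (as `|th a - th a'| ≤ 1`, `Re(conj a * a') < 4 lam`), so the integral is negative. -/
theorem exists_wave_mean_ne_zero : ∃ a : ℂ, ‖a‖ ^ 2 = 4 * P.lam ∧
    ((∫ z in D, Real.cos (th P.φ a z) * rho P.φ z) ≠ 0 ∨
      (∫ z in D, Real.sin (th P.φ a z) * rho P.φ z) ≠ 0) := by
  by_contra hcon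
  push Not at hcon
  obtain ⟨M, hM⟩ := P.hφb
  have hM0 : 0 ≤ M := (norm_nonneg _).trans (hM 0 zero_mem_D)
  have hl := P.lam_pos
  obtain ⟨y, hy0, hy1, hy2⟩ : ∃ y : ℝ, 0 < y ∧ 2 * y * M ≤ 1 ∧ y ^ 2 ≤ 4 * P.lam := by
    refine ⟨min (1 / (2 * (M + 1))) (Real.sqrt P.lam), lt_min (by positivity) (by positivity),
      ?_, ?_⟩
    · have h1 : min (1 / (2 * (M + 1))) (Real.sqrt P.lam) ≤ 1 / (2 * (M + 1)) := min_le_left _ _
      have h2 : 2 * (1 / (2 * (M + 1))) * M ≤ 1 := by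
        rw [show 2 * (1 / (2 * (M + 1))) * M = M / (M + 1) by field_simp,
          div_le_one (by positivity)]
        linarith
      nlinarith
    · have h1 : min (1 / (2 * (M + 1))) (Real.sqrt P.lam) ≤ Real.sqrt P.lam := min_le_right _ _
      have h2 : 0 ≤ min (1 / (2 * (M + 1))) (Real.sqrt P.lam) :=
        le_min (by positivity) (by positivity)
      have h3 := pow_le_pow_left₀ h2 h1 2
      rw [Real.sq_sqrt hl.le] at h3
      linarith
  obtain ⟨x, hx⟩ : ∃ x : ℝ, x ^ 2 + y ^ 2 = 4 * P.lam :=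
    ⟨Real.sqrt (4 * P.lam - y ^ 2), by rw [Real.sq_sqrt (by linarith)]; ring⟩
  set a : ℂ := ⟨x, y⟩ with ha
  set a' : ℂ := ⟨x, -y⟩ with ha'
  have hna : ‖a‖ ^ 2 = 4 * P.lam := by
    rw [← normSq_eq_norm_sq, normSq_apply, ← hx]; simp [ha]; ring
  have hna' : ‖a'‖ ^ 2 = 4 * P.lam := by
    rw [← normSq_eq_norm_sq, normSq_apply, ← hx]; simp [ha']; ring
  obtain ⟨hc, hs⟩ := hcon a hna
  obtain ⟨hc', hs'⟩ := hcon a' hna'
  have dC : ∀ b : ℂ, ∀ z ∈ D, DifferentiableAt ℝ (fun z => Real.cos (th P.φ b z)) z :=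
    fun b z hz => differentiableAt_of_contDiffOn isOpen_D (P.fil_contDiffOn_cos b (n := 1))
      (by simp) hz
  have dS : ∀ b : ℂ, ∀ z ∈ D, DifferentiableAt ℝ (fun z => Real.sin (th P.φ b z)) z :=
    fun b z hz => differentiableAt_of_contDiffOn isOpen_D (P.fil_contDiffOn_sin b (n := 1))
      (by simp) hz
  set V₁ : ℂ → ℝ := fun z => Real.cos (th P.φ a z) + Real.cos (th P.φ a' z) with hV₁
  set V₂ : ℂ → ℝ := fun z => Real.sin (th P.φ a z) + Real.sin (th P.φ a' z) with hV₂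
  have e₁ : ∀ z ∈ D, dz V₁ z =
      ((-Real.sin (th P.φ a z) : ℝ) : ℂ) * (conj a * deriv P.φ z / 2) +
        ((-Real.sin (th P.φ a' z) : ℝ) : ℂ) * (conj a' * deriv P.φ z / 2) := fun z hz => by
    rw [hV₁, dz_add (dC a z hz) (dC a' z hz), P.dz_wave a Real.hasDerivAt_cos hz,
      P.dz_wave a' Real.hasDerivAt_cos hz]
  have e₂ : ∀ z ∈ D, dz V₂ z =
      ((Real.cos (th P.φ a z) : ℝ) : ℂ) * (conj a * deriv P.φ z / 2) +
        ((Real.cos (th P.φ a' z) : ℝ) : ℂ) * (conj a' * deriv P.φ z / 2) := fun z hz => by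
    rw [hV₂, dz_add (dS a z hz) (dS a' z hz), P.dz_wave a Real.hasDerivAt_sin hz,
      P.dz_wave a' Real.hasDerivAt_sin hz]
  have A₁ : Adm D (rho P.φ) V₁ := by
    refine P.fil_adm ((P.fil_contDiffOn_cos a).add (P.fil_contDiffOn_cos a')) (M := 2) (K := 0)
      (L := ‖a‖ + ‖a'‖) (fun z _ => ?_) (fun z hz => ?_)
    · exact (abs_add_le _ _).trans (by
        linarith [Real.abs_cos_le_one (th P.φ a z), Real.abs_cos_le_one (th P.φ a' z)])
    · rw [e₁ z hz]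
      refine (norm_add_le _ _).trans ?_
      have h1 := fil_norm_le (-Real.sin (th P.φ a z))
        (by rw [abs_neg]; exact Real.abs_sin_le_one _) a (deriv P.φ z)
      have h2 := fil_norm_le (-Real.sin (th P.φ a' z))
        (by rw [abs_neg]; exact Real.abs_sin_le_one _) a' (deriv P.φ z)
      linarith
  have A₂ : Adm D (rho P.φ) V₂ := by
    refine P.fil_adm ((P.fil_contDiffOn_sin a).add (P.fil_contDiffOn_sin a')) (M := 2) (K := 0)
      (L := ‖a‖ + ‖a'‖) (fun z _ => ?_) (fun z hz => ?_)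
    · exact (abs_add_le _ _).trans (by
        linarith [Real.abs_sin_le_one (th P.φ a z), Real.abs_sin_le_one (th P.φ a' z)])
    · rw [e₂ z hz]
      refine (norm_add_le _ _).trans ?_
      have h1 := fil_norm_le (Real.cos (th P.φ a z)) (Real.abs_cos_le_one _) a (deriv P.φ z)
      have h2 := fil_norm_le (Real.cos (th P.φ a' z)) (Real.abs_cos_le_one _) a' (deriv P.φ z)
      linarith
  have m₁ : ∫ z in D, V₁ z * rho P.φ z = 0 := by
    simp only [hV₁, add_mul]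
    rw [integral_add (P.fil_int_cos a) (P.fil_int_cos a'), hc, hc', add_zero]
  have m₂ : ∫ z in D, V₂ z * rho P.φ z = 0 := by
    simp only [hV₂, add_mul]
    rw [integral_add (P.fil_int_sin a) (P.fil_int_sin a'), hs, hs', add_zero]
  have n₁ := P.neu V₁ A₁ m₁
  have n₂ := P.neu V₂ A₂ m₂
  have hGc : ContinuousOn (fun z => Real.cos (th P.φ a z - th P.φ a' z)) D :=
    (((P.contDiffOn_th a (n := 0)).sub (P.contDiffOn_th a')).cos).continuousOn
  have hGi : IntegrableOn (fun z => Real.cos (th P.φ a z - th P.φ a' z) * rho P.φ z) D :=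
    P.integrableOn_mul_rho hGc (fun _ _ => Real.abs_cos_le_one _)
  have hGp : ∀ z ∈ D, 0 < Real.cos (th P.φ a z - th P.φ a' z) * rho P.φ z := fun z hz => by
    refine mul_pos (Real.cos_pos_of_mem_Ioo ?_) (P.rho_pos hz)
    have h1 : th P.φ a z - th P.φ a' z = 2 * y * (P.φ z).im := by
      simp [th, ha, ha']; ring
    have h2 : |(P.φ z).im| ≤ M := (abs_im_le_norm _).trans (hM z hz)
    have h3 : |2 * y * (P.φ z).im| ≤ 1 := by
      rw [abs_mul, abs_of_pos (by positivity : (0 : ℝ) < 2 * y)]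
      nlinarith
    rw [h1]
    have := abs_le.1 h3
    constructor <;> linarith [Real.pi_gt_three]
  have hpos : 0 < ∫ z in D, Real.cos (th P.φ a z - th P.φ a' z) * rho P.φ z := by
    rw [setIntegral_pos_iff_support_of_nonneg_ae
      ((ae_restrict_iff' isOpen_D.measurableSet).2 (Eventually.of_forall fun z hz => (hGp z hz).le))
      hGi]
    refine (measure_ball_pos volume (0 : ℂ) one_pos).trans_le (measure_mono fun z hz => ⟨?_, hz⟩)
    exact (hGp z hz).ne'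
  have key : (∫ z in D, ‖dz V₁ z‖ ^ 2) + ∫ z in D, ‖dz V₂ z‖ ^ 2 =
      P.lam * (∫ z in D, V₁ z ^ 2 * rho P.φ z) + P.lam * (∫ z in D, V₂ z ^ 2 * rho P.φ z) -
        y ^ 2 * ∫ z in D, Real.cos (th P.φ a z - th P.φ a' z) * rho P.φ z := by
    have hi : IntegrableOn (fun z => P.lam * (V₁ z ^ 2 * rho P.φ z) +
        P.lam * (V₂ z ^ 2 * rho P.φ z)) D := (A₁.2.1.const_mul _).add (A₂.2.1.const_mul _)
    rw [← integral_add A₁.2.2 A₂.2.2, ← integral_const_mul, ← integral_const_mul,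
      ← integral_const_mul, ← integral_add (A₁.2.1.const_mul _) (A₂.2.1.const_mul _),
      ← integral_sub hi (hGi.const_mul _)]
    refine setIntegral_congr_fun isOpen_D.measurableSet fun z hz => ?_
    have h := fil_two_waves x y (th P.φ a z) (th P.φ a' z) (deriv P.φ z)
    rw [hx] at h
    rw [e₁ z hz, e₂ z hz, h, hV₁, hV₂, rho]
    ring
  nlinarith [mul_pos (pow_pos hy0 2) hpos]

/-- The pointwise algebra for the Dirichlet inequality. -/
lemma fil_dir_alg (β u : ℂ) (g₁ g₂ : ℝ) :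
    ‖β + ((-g₂ : ℝ) : ℂ) * u‖ ^ 2 + ‖(g₁ : ℂ) * u‖ ^ 2 =
      ‖β‖ ^ 2 + (g₁ ^ 2 + g₂ ^ 2) * ‖u‖ ^ 2 + 2 * (conj β * (((-g₂ : ℝ) : ℂ) * u)).re := by
  simp only [← normSq_eq_norm_sq, normSq_apply]
  simp only [add_re, add_im, mul_re, mul_im, ofReal_re, ofReal_im, conj_re, conj_im]
  ring

/-- The cross term in the Dirichlet inequality integrates to zero. -/
lemma fil_cross {b : ℂ → ℝ} (hb : ContDiff ℝ 1 b) (hb0 : ∀ z, ‖z‖ = 1 → b z = 0) (a : ℂ)
    {g g' : ℝ → ℝ} (hg : ∀ t, HasDerivAt g (g' t) t) (hg' : ∀ t, HasDerivAt g' (-g t) t)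
    (hg2 : ContDiff ℝ 2 g) {B : ℝ} (hB' : ∀ t, |g' t| ≤ B)
    (hXi : IntegrableOn (fun z => (conj (dz b z) * dz (fun w => g (th P.φ a w)) z).re -
      ‖a‖ ^ 2 / 4 * (b z * g (th P.φ a z) * rho P.φ z)) D) :
    ∫ z in D, ((conj (dz b z) * dz (fun w => g (th P.φ a w)) z).re -
      ‖a‖ ^ 2 / 4 * (b z * g (th P.φ a z) * rho P.φ z)) = 0 := by
  obtain ⟨L, hL0, hL⟩ := bound_of_vanish hb hb0
  have he : ContDiffOn ℝ 2 (fun w => g (th P.φ a w)) D :=
    hg2.comp_contDiffOn (P.contDiffOn_th a)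
  have hde : ContDiffOn ℝ 1 (dz fun w => g (th P.φ a w)) D :=
    contDiffOn_dz isOpen_D he (by norm_num)
  have hB0 : 0 ≤ B := (abs_nonneg _).trans (hB' 0)
  refine green_small (Y := fun z => (b z : ℂ) * dz (fun w => g (th P.φ a w)) z)
    ((contDiff_ofReal_comp hb.contDiffOn).mul hde) (fun z hz => ?_) hXi
    (E := fun z => L * (B * ‖a‖) * ‖deriv P.φ z‖)
    (((P.memLp_deriv.integrable (by norm_num)).norm).const_mul _) (fun z hz => ?_)
  · have h1 := (hasW_ofReal (hb.differentiable (by simp) z)).mul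
      (hasW_of_differentiableAt (differentiableAt_of_contDiffOn isOpen_D hde (by simp) hz))
    rw [h1.dbar_eq, P.dbar_dz_wave a hg hg' hz, ← ofReal_neg, ← ofReal_mul, add_re, ofReal_re]
    ring
  · have hz1 : 0 ≤ 1 - ‖z‖ ^ 2 := by nlinarith [mem_D.1 hz, norm_nonneg z]
    rw [norm_mul, norm_real, Real.norm_eq_abs, P.dz_wave a hg hz, norm_mul, norm_real,
      Real.norm_eq_abs, norm_div, norm_mul, RCLike.norm_conj]
    have h2 : ‖(2 : ℂ)‖ = 2 := by simp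
    rw [h2]
    have h3 := mul_nonneg (norm_nonneg a) (norm_nonneg (deriv P.φ z))
    calc |b z| * (|g' (th P.φ a z)| * (‖a‖ * ‖deriv P.φ z‖ / 2))
        ≤ (L * (1 - ‖z‖ ^ 2)) * (B * (‖a‖ * ‖deriv P.φ z‖)) := by
          refine mul_le_mul (hL z hz) (mul_le_mul (hB' _) (by linarith) (by positivity) hB0)
            (by positivity) (by positivity)
      _ = (1 - ‖z‖ ^ 2) * (L * (B * ‖a‖) * ‖deriv P.φ z‖) := by ring

/-- The Dirichlet inequality.  Recipe: with `a` from the previous lemma, `I_C, I_S` the two means,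
`N = I_C² + I_S² > 0`, `m = ∫ b ρ`, `β₁ = -m I_C/N`, `β₂ = m I_S/N`, `e = β₁ C - β₂ S`,
`v₁ = b + e`, `v₂ = β₁ S + β₂ C` have mean zero.  Pointwise
`‖dz v₁‖² + ‖dz v₂‖² - lam ρ (v₁² + v₂²) = ‖dz b‖² - lam ρ b² + 2 [Re(dz e * conj (dz b)) - lam ρ b e]`,
and the last bracket is `Re dbar (b · dz e)`, whose integral vanishes by `green_small`
(`bound_of_vanish`: `|b| ≤ L (1-|z|²)`; `‖dz e‖ ≤ const ‖φ'‖`, integrable by `memLp_deriv`). -/
theorem dirichlet {b : ℂ → ℝ} (hb : ContDiff ℝ 1 b) (hb0 : ∀ z, ‖z‖ = 1 → b z = 0) :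
    P.lam * ∫ z in D, b z ^ 2 * rho P.φ z ≤ ∫ z in D, ‖dz b z‖ ^ 2 := by
  obtain ⟨a, hna, hI⟩ := P.exists_wave_mean_ne_zero
  set IC := ∫ z in D, Real.cos (th P.φ a z) * rho P.φ z with hIC
  set IS := ∫ z in D, Real.sin (th P.φ a z) * rho P.φ z with hIS
  have hN : 0 < IC ^ 2 + IS ^ 2 := by
    rcases hI with h | h
    · have := pow_pos (abs_pos.2 h) 2
      rw [sq_abs] at this
      positivity
    · have := pow_pos (abs_pos.2 h) 2
      rw [sq_abs] at this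
      positivity
  set m := ∫ z in D, b z * rho P.φ z with hm
  obtain ⟨β₁, β₂, hβ₁, hβ₂⟩ : ∃ β₁ β₂ : ℝ, m + (β₁ * IC - β₂ * IS) = 0 ∧ β₁ * IS + β₂ * IC = 0 :=
    ⟨-m * IC / (IC ^ 2 + IS ^ 2), m * IS / (IC ^ 2 + IS ^ 2), by field_simp; ring,
      by field_simp; ring⟩
  set g₁ : ℝ → ℝ := fun t => β₁ * Real.cos t - β₂ * Real.sin t with hg₁
  set g₂ : ℝ → ℝ := fun t => β₁ * Real.sin t + β₂ * Real.cos t with hg₂
  have d₁ : ∀ t, HasDerivAt g₁ (-g₂ t) t := fun t =>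
    (((Real.hasDerivAt_cos t).const_mul β₁).fun_sub
      ((Real.hasDerivAt_sin t).const_mul β₂)).congr_deriv (by simp only [hg₂]; ring)
  have d₂ : ∀ t, HasDerivAt g₂ (g₁ t) t := fun t =>
    (((Real.hasDerivAt_sin t).const_mul β₁).fun_add
      ((Real.hasDerivAt_cos t).const_mul β₂)).congr_deriv (by simp only [hg₁]; ring)
  have c₁ : ContDiff ℝ 2 g₁ := by simp only [hg₁]; fun_prop
  have c₂ : ContDiff ℝ 2 g₂ := by simp only [hg₂]; fun_prop
  have b₁ : ∀ t, |g₁ t| ≤ |β₁| + |β₂| := fun t => by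
    refine (abs_sub _ _).trans (add_le_add ?_ ?_)
    · rw [abs_mul]; exact mul_le_of_le_one_right (abs_nonneg _) (Real.abs_cos_le_one _)
    · rw [abs_mul]; exact mul_le_of_le_one_right (abs_nonneg _) (Real.abs_sin_le_one _)
  have b₂ : ∀ t, |g₂ t| ≤ |β₁| + |β₂| := fun t => by
    refine (abs_add_le _ _).trans (add_le_add ?_ ?_)
    · rw [abs_mul]; exact mul_le_of_le_one_right (abs_nonneg _) (Real.abs_sin_le_one _)
    · rw [abs_mul]; exact mul_le_of_le_one_right (abs_nonneg _) (Real.abs_cos_le_one _)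
  have b₂' : ∀ t, |-g₂ t| ≤ |β₁| + |β₂| := fun t => by rw [abs_neg]; exact b₂ t
  have nb : ∀ (c : ℝ), |c| ≤ |β₁| + |β₂| → ∀ p : ℂ,
      ‖(c : ℂ) * (conj a * p / 2)‖ ≤ (|β₁| + |β₂|) * ‖a‖ * ‖p‖ := fun c hc p => by
    rw [norm_mul, norm_div, norm_mul, RCLike.norm_conj, norm_real, Real.norm_eq_abs]
    have h2 : ‖(2 : ℂ)‖ = 2 := by simp
    rw [h2, mul_assoc]
    have h := mul_nonneg (norm_nonneg a) (norm_nonneg p)
    exact mul_le_mul hc (by linarith) (by positivity) (by positivity)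
  have se : ContDiffOn ℝ 1 (fun w => g₁ (th P.φ a w)) D :=
    (c₁.of_le (by norm_num)).comp_contDiffOn (P.contDiffOn_th a)
  have s₂ : ContDiffOn ℝ 1 (fun w => g₂ (th P.φ a w)) D :=
    (c₂.of_le (by norm_num)).comp_contDiffOn (P.contDiffOn_th a)
  obtain ⟨Mb, -, hMb⟩ := exists_bound_D hb.continuous
  obtain ⟨Kb, -, hKb⟩ := exists_bound_D (continuous_dz hb)
  set V₁ : ℂ → ℝ := fun z => b z + g₁ (th P.φ a z) with hV₁
  set V₂ : ℂ → ℝ := fun z => g₂ (th P.φ a z) with hV₂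
  have e₀ : ∀ z ∈ D, dz (fun w => g₁ (th P.φ a w)) z =
      ((-g₂ (th P.φ a z) : ℝ) : ℂ) * (conj a * deriv P.φ z / 2) := fun z hz =>
    P.dz_wave a d₁ hz
  have e₁ : ∀ z ∈ D, dz V₁ z = dz b z +
      ((-g₂ (th P.φ a z) : ℝ) : ℂ) * (conj a * deriv P.φ z / 2) := fun z hz => by
    rw [hV₁, dz_add (hb.differentiable (by simp) z)
      (differentiableAt_of_contDiffOn isOpen_D se (by simp) hz), e₀ z hz]
  have e₂ : ∀ z ∈ D, dz V₂ z = (g₁ (th P.φ a z) : ℂ) * (conj a * deriv P.φ z / 2) :=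
    fun z hz => P.dz_wave a d₂ hz
  have A₁ : Adm D (rho P.φ) V₁ := by
    refine P.fil_adm (hb.contDiffOn.add se) (M := Mb + (|β₁| + |β₂|)) (K := Kb)
      (L := (|β₁| + |β₂|) * ‖a‖) (fun z hz => ?_) (fun z hz => ?_)
    · exact (abs_add_le _ _).trans (add_le_add (hMb z hz) (b₁ _))
    · rw [e₁ z hz]
      exact (norm_add_le _ _).trans (add_le_add (hKb z hz) (nb _ (b₂' _) _))
  have A₂ : Adm D (rho P.φ) V₂ := by
    refine P.fil_adm s₂ (M := |β₁| + |β₂|) (K := 0)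
      (L := (|β₁| + |β₂|) * ‖a‖) (fun z _ => b₂ _) (fun z hz => ?_)
    rw [e₂ z hz, zero_add]
    exact nb _ (b₁ _) _
  have Ab := P.adm_of_contDiff hb
  have ib : IntegrableOn (fun z => b z * rho P.φ z) D :=
    P.integrableOn_mul_rho hb.continuous.continuousOn hMb
  have m₁ : ∫ z in D, V₁ z * rho P.φ z = 0 := by
    have : (fun z => V₁ z * rho P.φ z) = fun z => b z * rho P.φ z +
        (β₁ * (Real.cos (th P.φ a z) * rho P.φ z) - β₂ * (Real.sin (th P.φ a z) * rho P.φ z)) := by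
      funext z; simp only [hV₁, hg₁]; ring
    have hi : IntegrableOn (fun z => β₁ * (Real.cos (th P.φ a z) * rho P.φ z) -
        β₂ * (Real.sin (th P.φ a z) * rho P.φ z)) D :=
      ((P.fil_int_cos a).const_mul _).sub ((P.fil_int_sin a).const_mul _)
    rw [this, integral_add ib hi,
      integral_sub ((P.fil_int_cos a).const_mul _) ((P.fil_int_sin a).const_mul _),
      integral_const_mul, integral_const_mul]
    exact hβ₁
  have m₂ : ∫ z in D, V₂ z * rho P.φ z = 0 := by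
    have : (fun z => V₂ z * rho P.φ z) = fun z =>
        β₁ * (Real.sin (th P.φ a z) * rho P.φ z) + β₂ * (Real.cos (th P.φ a z) * rho P.φ z) := by
      funext z; simp only [hV₂, hg₂]; ring
    rw [this, integral_add ((P.fil_int_sin a).const_mul _) ((P.fil_int_cos a).const_mul _),
      integral_const_mul, integral_const_mul]
    exact hβ₂
  have n₁ := P.neu V₁ A₁ m₁
  have n₂ := P.neu V₂ A₂ m₂
  -- the pointwise identity
  have pt : ∀ z ∈ D, (conj (dz b z) * dz (fun w => g₁ (th P.φ a w)) z).re -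
      ‖a‖ ^ 2 / 4 * (b z * g₁ (th P.φ a z) * rho P.φ z) =
      (1 / 2) * (((‖dz V₁ z‖ ^ 2 + ‖dz V₂ z‖ ^ 2) -
        (P.lam * (V₁ z ^ 2 * rho P.φ z) + P.lam * (V₂ z ^ 2 * rho P.φ z))) -
        (‖dz b z‖ ^ 2 - P.lam * (b z ^ 2 * rho P.φ z))) := fun z hz => by
    have hu : ‖conj a * deriv P.φ z / 2‖ ^ 2 = P.lam * rho P.φ z := by
      have h2 : ‖(2 : ℂ)‖ = 2 := by simp
      rw [norm_div, norm_mul, RCLike.norm_conj, h2, div_pow, mul_pow, hna, rho]
      ring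
    rw [e₀ z hz, e₁ z hz, e₂ z hz, fil_dir_alg, hu, hna]
    simp only [hV₁, hV₂]
    ring
  have i₁ : IntegrableOn (fun z => ‖dz V₁ z‖ ^ 2 + ‖dz V₂ z‖ ^ 2) D := A₁.2.2.add A₂.2.2
  have i₂ : IntegrableOn (fun z => P.lam * (V₁ z ^ 2 * rho P.φ z) +
      P.lam * (V₂ z ^ 2 * rho P.φ z)) D := (A₁.2.1.const_mul _).add (A₂.2.1.const_mul _)
  have i₃ : IntegrableOn (fun z => (‖dz V₁ z‖ ^ 2 + ‖dz V₂ z‖ ^ 2) -
      (P.lam * (V₁ z ^ 2 * rho P.φ z) + P.lam * (V₂ z ^ 2 * rho P.φ z))) D := i₁.sub i₂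
  have i₄ : IntegrableOn (fun z => ‖dz b z‖ ^ 2 - P.lam * (b z ^ 2 * rho P.φ z)) D :=
    Ab.2.2.sub (Ab.2.1.const_mul _)
  have i₅ : IntegrableOn (fun z => (1 / 2 : ℝ) * (((‖dz V₁ z‖ ^ 2 + ‖dz V₂ z‖ ^ 2) -
      (P.lam * (V₁ z ^ 2 * rho P.φ z) + P.lam * (V₂ z ^ 2 * rho P.φ z))) -
      (‖dz b z‖ ^ 2 - P.lam * (b z ^ 2 * rho P.φ z)))) D := (i₃.sub i₄).const_mul _
  have key := P.fil_cross hb hb0 a d₁ (g' := fun t => -g₂ t) (fun t => (d₂ t).neg) c₁ b₂'
    (i₅.congr_fun (fun z hz => (pt z hz).symm) isOpen_D.measurableSet)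
  rw [setIntegral_congr_fun isOpen_D.measurableSet pt, integral_const_mul, integral_sub i₃ i₄,
    integral_sub i₁ i₂, integral_add A₁.2.2 A₂.2.2,
    integral_add (A₁.2.1.const_mul _) (A₂.2.1.const_mul _),
    integral_sub Ab.2.2 (Ab.2.1.const_mul _), integral_const_mul, integral_const_mul,
    integral_const_mul] at key
  linarith

end Setup

end Crest.Agent.R101
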