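import Crest.Agent.R101.Basic

/-!
# Row 101: Green's formula on the punctured disc through radial cut-offs

Author: helper76.
-/

open Complex MeasureTheory Set Metric Filter Topology
open scoped ComplexConjugate

noncomputable section

namespace Crest.Agent.R101

/-- "The flux with density `F` through the unit circle vanishes" (weak form, through the cut-off
`σ((1-|z|²)/ε - 1)`). -/
def OF (F : ℂ → ℝ) : Prop :=
  Tendsto (fun ε : ℝ => ∫ z in D, deriv Real.smoothTransition ((1 - ‖z‖ ^ 2) / ε - 1) / ε * F z)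
    (𝓝[>] 0) (𝓝 0)

local notation "σ" => Real.smoothTransition

lemma green_deriv_zero_of_lt {x : ℝ} (hx : x < 0) : deriv σ x = 0 := by
  have : σ =ᶠ[𝓝 x] fun _ => 0 := by
    filter_upwards [Iio_mem_nhds hx] with y hy using Real.smoothTransition.zero_of_nonpos hy.le
  rw [this.deriv_eq, deriv_const]

lemma green_deriv_zero_of_gt {x : ℝ} (hx : 1 < x) : deriv σ x = 0 := by
  have : σ =ᶠ[𝓝 x] fun _ => 1 := by
    filter_upwards [Ioi_mem_nhds hx] with y hy using Real.smoothTransition.one_of_one_le hy.le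
  rw [this.deriv_eq, deriv_const]

lemma green_continuous_deriv : Continuous (deriv σ) :=
  (Real.smoothTransition.contDiff (n := 1)).continuous_deriv le_rfl

lemma green_hasDerivAt (x : ℝ) : HasDerivAt σ (deriv σ x) x :=
  ((Real.smoothTransition.contDiff (n := 1)).differentiable (by simp) x).hasDerivAt

lemma green_deriv_bound : ∃ C, 0 < C ∧ ∀ x, |deriv σ x| ≤ C := by
  obtain ⟨M, hM⟩ := (isCompact_Icc (a := (0 : ℝ)) (b := 1)).exists_bound_of_continuousOn
    green_continuous_deriv.continuousOn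
  refine ⟨max M 1, lt_max_of_lt_right one_pos, fun x => ?_⟩
  rcases lt_or_ge x 0 with h | h
  · simp [green_deriv_zero_of_lt h]
  rcases lt_or_ge 1 x with h' | h'
  · simp [green_deriv_zero_of_gt h']
  exact (hM x ⟨h, h'⟩).trans (le_max_left _ _)

/-- Outer cut-off. -/
def cutO (ε : ℝ) (z : ℂ) : ℝ := σ ((1 - ‖z‖ ^ 2) / ε - 1)
/-- Minus the `s`-derivative of the outer cut-off. -/
def cutO' (ε : ℝ) (z : ℂ) : ℝ := deriv σ ((1 - ‖z‖ ^ 2) / ε - 1) / ε
/-- Inner cut-off. -/
def cutI (ε : ℝ) (z : ℂ) : ℝ := σ (‖z‖ ^ 2 / ε - 1)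
/-- The `s`-derivative of the inner cut-off. -/
def cutI' (ε : ℝ) (z : ℂ) : ℝ := deriv σ (‖z‖ ^ 2 / ε - 1) / ε

lemma contDiff_cutO (ε : ℝ) : ContDiff ℝ 1 (cutO ε) :=
  Real.smoothTransition.contDiff.comp
    (((contDiff_const.sub (contDiff_norm_sq ℝ)).div_const ε).sub contDiff_const)

lemma contDiff_cutI (ε : ℝ) : ContDiff ℝ 1 (cutI ε) :=
  Real.smoothTransition.contDiff.comp (((contDiff_norm_sq ℝ).div_const ε).sub contDiff_const)

lemma continuous_cutO' (ε : ℝ) : Continuous (cutO' ε) := by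
  have := green_continuous_deriv
  unfold cutO'; fun_prop

lemma continuous_cutI' (ε : ℝ) : Continuous (cutI' ε) := by
  have := green_continuous_deriv
  unfold cutI'; fun_prop

lemma hasW_cutO (ε : ℝ) (z : ℂ) :
    HasW (fun w => (cutO ε w : ℂ)) (-(cutO' ε z) * conj z) (-(cutO' ε z) * z) z := by
  have h : HasDerivAt (fun s : ℝ => σ ((1 - s) / ε - 1))
      (deriv σ ((1 - ‖z‖ ^ 2) / ε - 1) * (-1 / ε)) (‖z‖ ^ 2) := by
    have h1 : HasDerivAt (fun s : ℝ => (1 - s) / ε - 1) (-1 / ε) (‖z‖ ^ 2) := by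
      simpa using (((hasDerivAt_id (‖z‖ ^ 2)).const_sub 1).div_const ε).sub_const 1
    exact (green_hasDerivAt _).comp _ h1
  exact ((hasW_normSq z).real_comp h).congr' (by simp [cutO']; ring) (by simp [cutO']; ring)

lemma hasW_cutI (ε : ℝ) (z : ℂ) :
    HasW (fun w => (cutI ε w : ℂ)) (cutI' ε z * conj z) (cutI' ε z * z) z := by
  have h : HasDerivAt (fun s : ℝ => σ (s / ε - 1))
      (deriv σ (‖z‖ ^ 2 / ε - 1) * (1 / ε)) (‖z‖ ^ 2) := by
    have h1 : HasDerivAt (fun s : ℝ => s / ε - 1) (1 / ε) (‖z‖ ^ 2) := by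
      simpa using ((hasDerivAt_id (‖z‖ ^ 2)).div_const ε).sub_const 1
    exact (green_hasDerivAt _).comp _ h1
  exact ((hasW_normSq z).real_comp h).congr' (by simp only [cutI']; push_cast; ring)
    (by simp only [cutI']; push_cast; ring)

lemma cutO_eq_zero {ε : ℝ} (hε : 0 < ε) {z : ℂ} (h : 1 - ‖z‖ ^ 2 ≤ ε) : cutO ε z = 0 :=
  Real.smoothTransition.zero_of_nonpos (by rw [sub_nonpos, div_le_one hε]; exact h)

lemma cutO_eq_one {ε : ℝ} (hε : 0 < ε) {z : ℂ} (h : 2 * ε ≤ 1 - ‖z‖ ^ 2) : cutO ε z = 1 :=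
  Real.smoothTransition.one_of_one_le (by rw [le_sub_iff_add_le, le_div_iff₀ hε]; linarith)

lemma cutI_eq_zero {ε : ℝ} (hε : 0 < ε) {z : ℂ} (h : ‖z‖ ^ 2 ≤ ε) : cutI ε z = 0 :=
  Real.smoothTransition.zero_of_nonpos (by rw [sub_nonpos, div_le_one hε]; exact h)

lemma cutI_eq_one {ε : ℝ} (hε : 0 < ε) {z : ℂ} (h : 2 * ε ≤ ‖z‖ ^ 2) : cutI ε z = 1 :=
  Real.smoothTransition.one_of_one_le (by rw [le_sub_iff_add_le, le_div_iff₀ hε]; linarith)

lemma cutO'_eq_zero_of_lt {ε : ℝ} (hε : 0 < ε) {z : ℂ} (h : 1 - ‖z‖ ^ 2 < ε) : cutO' ε z = 0 := by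
  rw [cutO', green_deriv_zero_of_lt (by rw [sub_neg, div_lt_one hε]; exact h), zero_div]

lemma cutO'_eq_zero_of_gt {ε : ℝ} (hε : 0 < ε) {z : ℂ} (h : 2 * ε < 1 - ‖z‖ ^ 2) :
    cutO' ε z = 0 := by
  rw [cutO', green_deriv_zero_of_gt (by rw [lt_sub_iff_add_lt, lt_div_iff₀ hε]; linarith), zero_div]

lemma cutI'_eq_zero_of_lt {ε : ℝ} (hε : 0 < ε) {z : ℂ} (h : ‖z‖ ^ 2 < ε) : cutI' ε z = 0 := by
  rw [cutI', green_deriv_zero_of_lt (by rw [sub_neg, div_lt_one hε]; exact h), zero_div]

lemma cutI'_eq_zero_of_gt {ε : ℝ} (hε : 0 < ε) {z : ℂ} (h : 2 * ε < ‖z‖ ^ 2) :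
    cutI' ε z = 0 := by
  rw [cutI', green_deriv_zero_of_gt (by rw [lt_sub_iff_add_lt, lt_div_iff₀ hε]; linarith), zero_div]

lemma abs_cutO_le (ε : ℝ) (z : ℂ) : |cutO ε z| ≤ 1 := by
  rw [cutO, abs_of_nonneg (Real.smoothTransition.nonneg _)]; exact Real.smoothTransition.le_one _

lemma abs_cutI_le (ε : ℝ) (z : ℂ) : |cutI ε z| ≤ 1 := by
  rw [cutI, abs_of_nonneg (Real.smoothTransition.nonneg _)]; exact Real.smoothTransition.le_one _

lemma abs_one_sub_cutO_le (ε : ℝ) (z : ℂ) : |1 - cutO ε z| ≤ 1 := by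
  have h1 := Real.smoothTransition.nonneg ((1 - ‖z‖ ^ 2) / ε - 1)
  have h2 := Real.smoothTransition.le_one ((1 - ‖z‖ ^ 2) / ε - 1)
  rw [cutO, abs_le]; constructor <;> linarith

/-- The closed annulus `a ≤ |z|² ≤ b`. -/
def cAnn (a b : ℝ) : Set ℂ := {z | a ≤ ‖z‖ ^ 2 ∧ ‖z‖ ^ 2 ≤ b}

lemma isClosed_cAnn (a b : ℝ) : IsClosed (cAnn a b) :=
  isClosed_Icc.preimage (f := fun z : ℂ => ‖z‖ ^ 2) (by fun_prop)

lemma cAnn_subset {a b : ℝ} (ha : 0 < a) (hb : b < 1) : cAnn a b ⊆ Dp := fun z hz => by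
  refine mem_Dp.2 ⟨?_, fun h => ?_⟩
  · nlinarith [hz.2, norm_nonneg z]
  · have := hz.1; rw [h] at this; simp at this; linarith

lemma isCompact_cAnn {a b : ℝ} (ha : 0 < a) (hb : b < 1) : IsCompact (cAnn a b) :=
  (isCompact_closedBall (0 : ℂ) 1).of_isClosed_subset (isClosed_cAnn a b)
    (((cAnn_subset ha hb).trans Dp_subset_D).trans ball_subset_closedBall)

lemma green_support {E : Type*} [Zero E] {η : ℂ → E} {a b : ℝ} (ha : 0 < a) (hb : b < 1)
    (h : ∀ z, z ∉ cAnn a b → η z = 0) : HasCompactSupport η ∧ tsupport η ⊆ Dp := by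
  have h1 : tsupport η ⊆ cAnn a b :=
    closure_minimal (fun z hz => by_contra fun h' => hz (h z h')) (isClosed_cAnn a b)
  exact ⟨(isCompact_cAnn ha hb).of_isClosed_subset (isClosed_tsupport _) h1,
    h1.trans (cAnn_subset ha hb)⟩

lemma not_mem_cAnn {a b : ℝ} {z : ℂ} (h : z ∉ cAnn a b) : ‖z‖ ^ 2 < a ∨ b < ‖z‖ ^ 2 := by
  simp only [cAnn, Set.mem_ofPred_eq, not_and_or, not_le] at h; exact h

lemma eventually_small : ∀ᶠ ε : ℝ in 𝓝[>] 0, 0 < ε ∧ ε < 1 / 4 :=
  Ioo_mem_nhdsGT (by norm_num)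

lemma cutO'_support {ε : ℝ} (h0 : 0 < ε) (h1 : ε < 1 / 4) :
    HasCompactSupport (cutO' ε) ∧ tsupport (cutO' ε) ⊆ Dp :=
  green_support (a := 1 - 2 * ε) (b := 1 - ε) (by linarith) (by linarith) fun z hz => by
    rcases not_mem_cAnn hz with h | h
    · exact cutO'_eq_zero_of_gt h0 (by linarith)
    · exact cutO'_eq_zero_of_lt h0 (by linarith)

lemma integrable_cutO'_mul {ε : ℝ} (h0 : 0 < ε) (h1 : ε < 1 / 4) {F : ℂ → ℝ}
    (hF : ContinuousOn F Dp) : Integrable (fun z => cutO' ε z * F z) :=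
  integrable_mul_of_tsupport_real isOpen_Dp (continuous_cutO' ε) (cutO'_support h0 h1).1
    (cutO'_support h0 h1).2 hF

lemma tendsto_cutO {z : ℂ} (hz : z ∈ D) : ∀ᶠ ε : ℝ in 𝓝[>] 0, cutO ε z = 1 := by
  have h : 0 < (1 - ‖z‖ ^ 2) / 2 := by
    have := mem_D.1 hz
    nlinarith [norm_nonneg z]
  filter_upwards [Ioo_mem_nhdsGT h] with ε hε using cutO_eq_one hε.1 (by linarith [hε.2])

lemma tendsto_cutI {z : ℂ} (hz : z ≠ 0) : ∀ᶠ ε : ℝ in 𝓝[>] 0, cutI ε z = 1 := by
  have h : 0 < ‖z‖ ^ 2 / 2 := by positivity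
  filter_upwards [Ioo_mem_nhdsGT h] with ε hε using cutI_eq_one hε.1 (by linarith [hε.2])

lemma ae_mem_Dp : ∀ᵐ z ∂(volume.restrict D), z ∈ Dp := by
  have h1 : ∀ᵐ z ∂(volume.restrict D), z ∈ D := ae_restrict_mem isOpen_D.measurableSet
  have h2 : ∀ᵐ z ∂(volume.restrict D), z ∉ ({0} : Set ℂ) :=
    ae_restrict_of_ae (measure_eq_zero_iff_ae_notMem.1 (measure_singleton _))
  filter_upwards [h1, h2] with z a b using ⟨a, b⟩

lemma integral_re_C {f : ℂ → ℂ} {μ : Measure ℂ} (hf : Integrable f μ) :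
    ∫ z, (f z).re ∂μ = (∫ z, f z ∂μ).re := integral_re hf

/-- The inner flux tends to zero. -/
lemma green_inner {F : ℂ → ℝ} (h0 : Tendsto F (𝓝[≠] 0) (𝓝 0)) :
    Tendsto (fun ε : ℝ => ∫ z, cutI' ε z * cutO ε z * F z) (𝓝[>] 0) (𝓝 0) := by
  obtain ⟨C, hC0, hC⟩ := green_deriv_bound
  rw [NormedAddGroup.tendsto_nhds_zero]
  intro δ hδ
  have hδ' : 0 < δ / (2 * (2 * Real.pi * C)) := by positivity
  obtain ⟨r, hr, hr'⟩ := Metric.eventually_nhds_iff_ball.1
    (eventually_nhdsWithin_iff.1 ((NormedAddGroup.tendsto_nhds_zero.1 h0) _ hδ'))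
  filter_upwards [Ioo_mem_nhdsGT (show 0 < r ^ 2 / 2 by positivity)] with ε hε
  have hε0 := hε.1
  set B : Set ℂ := closedBall 0 (Real.sqrt (2 * ε)) with hB
  have hz : ∀ z, z ∉ B → cutI' ε z * cutO ε z * F z = 0 := fun z hz => by
    rw [hB, mem_closedBall_zero_iff, not_le, Real.sqrt_lt' ] at hz
    · rw [cutI'_eq_zero_of_gt hε0 hz]; simp
    · exact lt_of_le_of_lt (Real.sqrt_nonneg _) hz
  rw [← setIntegral_eq_integral_of_forall_compl_eq_zero hz]
  have hb : ∀ z ∈ B, ‖cutI' ε z * cutO ε z * F z‖ ≤ C / ε * (δ / (2 * (2 * Real.pi * C))) := by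
    intro z hzB
    by_cases hz0 : z = 0
    · rw [cutI'_eq_zero_of_lt hε0 (by simpa [hz0] using hε0)]
      simp only [zero_mul, norm_zero]; positivity
    have h1 : z ∈ ball (0 : ℂ) r := by
      rw [hB, mem_closedBall_zero_iff] at hzB
      refine mem_ball_zero_iff.2 (hzB.trans_lt ?_)
      rw [Real.sqrt_lt' hr]; linarith [hε.2]
    have h2 := (hr' z h1 hz0).le
    have h3 : |cutI' ε z| ≤ C / ε := by
      rw [cutI', abs_div, abs_of_pos hε0]; gcongr; exact hC _
    rw [norm_mul, norm_mul, Real.norm_eq_abs, Real.norm_eq_abs]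
    calc |cutI' ε z| * |cutO ε z| * ‖F z‖ ≤ C / ε * 1 * (δ / (2 * (2 * Real.pi * C))) := by
          gcongr; exact abs_cutO_le _ _
      _ = _ := by ring
  refine (norm_setIntegral_le_of_norm_le_const measure_closedBall_lt_top hb).trans_lt ?_
  have hv : volume.real B = Real.pi * (2 * ε) := by
    rw [hB, Measure.real, Complex.volume_closedBall, ENNReal.toReal_mul, ENNReal.toReal_pow,
      ENNReal.toReal_ofReal (Real.sqrt_nonneg _), Real.sq_sqrt (by positivity)]
    simp [mul_comm]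
  rw [hv]
  have : C / ε * (δ / (2 * (2 * Real.pi * C))) * (Real.pi * (2 * ε)) = δ / 2 := by
    field_simp
  rw [this]; linarith

/-- Green's formula: `∫_D Re ∂̄Y = 0` when the fluxes at `0` and at the circle vanish. -/
theorem green {Y : ℂ → ℂ} (hY : ContDiffOn ℝ 1 Y Dp) {X : ℂ → ℝ}
    (hX : ∀ z ∈ Dp, (dbar Y z).re = X z) (hXi : IntegrableOn X D)
    (h0 : Tendsto (fun z => (z * Y z).re) (𝓝[≠] 0) (𝓝 0)) (h1 : OF (fun z => (z * Y z).re)) :
    ∫ z in D, X z = 0 := by
  set F : ℂ → ℝ := fun z => (z * Y z).re with hF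
  have hFc : ContinuousOn F Dp :=
    continuous_re.comp_continuousOn (continuousOn_id.mul hY.continuousOn)
  -- the truncated integrals converge to the full integral
  have A : Tendsto (fun ε : ℝ => ∫ z in D, cutI ε z * cutO ε z * X z) (𝓝[>] 0)
      (𝓝 (∫ z in D, X z)) := by
    refine tendsto_integral_filter_of_dominated_convergence (fun z => ‖X z‖) ?_ ?_ hXi.norm ?_
    · exact Eventually.of_forall fun ε =>
        (((contDiff_cutI ε).continuous.mul (contDiff_cutO ε).continuous).aestronglyMeasurable).mul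
          hXi.aestronglyMeasurable
    · refine Eventually.of_forall fun ε => Eventually.of_forall fun z => ?_
      rw [norm_mul, norm_mul, Real.norm_eq_abs, Real.norm_eq_abs]
      calc |cutI ε z| * |cutO ε z| * ‖X z‖ ≤ 1 * 1 * ‖X z‖ := by
            gcongr
            · exact abs_cutI_le _ _
            · exact abs_cutO_le _ _
        _ = _ := by ring
    · filter_upwards [ae_mem_Dp] with z hz
      refine tendsto_const_nhds.congr' ?_
      filter_upwards [tendsto_cutO hz.1, tendsto_cutI (mem_Dp.1 hz).2] with ε a b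
      rw [a, b]; ring
  -- integration by parts
  have B : ∀ᶠ ε : ℝ in 𝓝[>] 0, (∫ z in D, cutO' ε z * F z) - ∫ z, cutI' ε z * cutO ε z * F z =
      ∫ z in D, cutI ε z * cutO ε z * X z := by
    filter_upwards [eventually_small] with ε ⟨hε0, hε1⟩
    set η : ℂ → ℂ := fun z => ((cutI ε z * cutO ε z : ℝ) : ℂ) with hη
    have hηc : ContDiff ℝ 1 η :=
      ofRealCLM.contDiff.comp ((contDiff_cutI ε).mul (contDiff_cutO ε))
    have hz : ∀ z, z ∉ cAnn ε (1 - ε) → cutI ε z * cutO ε z = 0 := fun z hz => by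
      rcases not_mem_cAnn hz with h | h
      · rw [cutI_eq_zero hε0 h.le, zero_mul]
      · rw [cutO_eq_zero hε0 (by linarith), mul_zero]
    obtain ⟨s1, s2⟩ := green_support (η := η) hε0 (by linarith : 1 - ε < 1)
      fun z h => by simp only [hη, hz z h, ofReal_zero]
    have hd : ∀ z, dbar η z = ((cutI' ε z * cutO ε z - cutO' ε z : ℝ) : ℂ) * z := fun z => by
      have := ((hasW_cutI ε z).mul (hasW_cutO ε z)).dbar_eq
      simp only [← ofReal_mul] at this
      rw [hη, this]
      by_cases h : 2 * ε < 1 - ‖z‖ ^ 2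
      · simp [cutO'_eq_zero_of_gt hε0 h]; ring
      · rw [cutI_eq_one hε0 (by linarith)]; push_cast; ring
    have key := congrArg re (integral_mul_dbar isOpen_Dp hηc s1 s2 hY)
    have i1 : Integrable (fun z => η z * dbar Y z) :=
      integrable_mul_of_tsupport isOpen_Dp hηc.continuous s1 s2 (continuousOn_dbar isOpen_Dp hY)
    obtain ⟨t1, t2⟩ := green_support (η := fun z => cutI' ε z * cutO ε z) hε0
      (by linarith : 2 * ε < 1) fun z h => by
        rcases not_mem_cAnn h with h | h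
        · simp only [cutI'_eq_zero_of_lt hε0 h, zero_mul]
        · simp only [cutI'_eq_zero_of_gt hε0 h, zero_mul]
    have i3 : Integrable (fun z => cutI' ε z * cutO ε z * F z) :=
      integrable_mul_of_tsupport_real isOpen_Dp
        ((continuous_cutI' ε).mul (contDiff_cutO ε).continuous) t1 t2 hFc
    have i4 := integrable_cutO'_mul hε0 hε1 hFc
    have i2 : Integrable (fun z => dbar η z * Y z) := by
      refine integrable_mul_of_tsupport isOpen_Dp
        (continuousOn_univ.1 (continuousOn_dbar isOpen_univ hηc.contDiffOn)) ?_ ?_ hY.continuousOn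
      all_goals
        have := green_support (η := dbar η) hε0 (by linarith : 1 - ε < 1) fun z h => by
          rw [hd]
          rcases not_mem_cAnn h with h | h
          · rw [cutI'_eq_zero_of_lt hε0 h, cutO'_eq_zero_of_gt hε0 (by linarith)]; simp
          · rw [cutO_eq_zero hε0 (by linarith), cutO'_eq_zero_of_lt hε0 (by linarith)]; simp
      · exact this.1
      · exact this.2
    rw [neg_re, ← integral_re_C i1, ← integral_re_C i2] at key
    have e1 : ∫ z, (η z * dbar Y z).re = ∫ z in D, cutI ε z * cutO ε z * X z := by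
      rw [← setIntegral_eq_integral_of_forall_compl_eq_zero (s := D)]
      · refine integral_congr_ae ?_
        filter_upwards [ae_mem_Dp] with z hz
        rw [hη, re_ofReal_mul, hX z hz]
      · intro z hz'
        have : z ∉ cAnn ε (1 - ε) := fun h =>
          hz' (Dp_subset_D (cAnn_subset hε0 (by linarith) h))
        simp only [hη, hz z this]; simp
    have e2 : ∫ z, (dbar η z * Y z).re =
        (∫ z, cutI' ε z * cutO ε z * F z) - ∫ z, cutO' ε z * F z := by
      rw [← integral_sub i3 i4]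
      refine integral_congr_ae (Eventually.of_forall fun z => ?_)
      simp only [hd, mul_assoc, re_ofReal_mul, hF]; ring
    have e3 : ∫ z in D, cutO' ε z * F z = ∫ z, cutO' ε z * F z := by
      refine setIntegral_eq_integral_of_forall_compl_eq_zero fun z hz' => ?_
      rw [image_eq_zero_of_notMem_tsupport fun h =>
        hz' (Dp_subset_D ((cutO'_support hε0 hε1).2 h)), zero_mul]
    rw [e3, ← e1, key, e2]; ring
  have C := (Tendsto.sub h1 (green_inner h0)).congr' B
  rw [sub_zero] at C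
  exact tendsto_nhds_unique A C

lemma mem_Ann_of_cut {ε : ℝ} (h1 : ε < 1 / 4) {z : ℂ} (hz : z ∈ D) (h : ¬ 2 * ε < 1 - ‖z‖ ^ 2) :
    z ∈ Ann := by
  refine mem_Ann.2 ⟨?_, mem_D.1 hz⟩
  by_contra h'
  nlinarith [norm_nonneg z]

theorem OF_of_small {F E : ℂ → ℝ} (hE : IntegrableOn E Ann)
    (h : ∀ z ∈ Ann, |F z| ≤ (1 - ‖z‖ ^ 2) * E z) : OF F := by
  obtain ⟨C, hC0, hC⟩ := green_deriv_bound
  have hE' : IntegrableOn (Ann.indicator fun z => |E z|) D :=
    ((integrable_indicator_iff isOpen_Ann.measurableSet).2 hE.abs).integrableOn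
  have A : Tendsto (fun ε : ℝ => ∫ z in D, 2 * C * ((1 - cutO (2 * ε) z) *
      Ann.indicator (fun z => |E z|) z)) (𝓝[>] 0) (𝓝 (∫ _ in D, (0 : ℝ))) := by
    refine tendsto_integral_filter_of_dominated_convergence
      (fun z => 2 * C * ‖Ann.indicator (fun z => |E z|) z‖) ?_ ?_ (hE'.norm.const_mul _) ?_
    · exact Eventually.of_forall fun ε => (((continuous_const.sub
        (contDiff_cutO _).continuous).aestronglyMeasurable).mul hE'.aestronglyMeasurable).const_mul _
    · refine Eventually.of_forall fun ε => Eventually.of_forall fun z => ?_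
      rw [norm_mul, Real.norm_eq_abs, abs_of_pos (by positivity), norm_mul]
      gcongr
      exact mul_le_of_le_one_left (norm_nonneg _) (abs_one_sub_cutO_le _ _)
    · filter_upwards [ae_restrict_mem isOpen_D.measurableSet] with z hz
      refine tendsto_const_nhds.congr' ?_
      have h : 0 < (1 - ‖z‖ ^ 2) / 4 := by
        have := mem_D.1 hz
        nlinarith [norm_nonneg z]
      filter_upwards [Ioo_mem_nhdsGT h] with ε hε
      rw [cutO_eq_one (by linarith [hε.1]) (by linarith [hε.2])]; simp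
  rw [integral_zero] at A
  refine squeeze_zero_norm' ?_ A
  filter_upwards [eventually_small] with ε ⟨hε0, hε1⟩
  refine norm_integral_le_of_norm_le ?_ ?_
  · refine Integrable.const_mul (hE'.bdd_mul (c := 1) ((continuous_const.sub
        (contDiff_cutO _).continuous).aestronglyMeasurable) ?_) _
    exact Eventually.of_forall fun z => abs_one_sub_cutO_le _ _
  · filter_upwards [ae_restrict_mem isOpen_D.measurableSet] with z hz
    change ‖cutO' ε z * F z‖ ≤ _
    by_cases h' : 2 * ε < 1 - ‖z‖ ^ 2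
    · rw [cutO'_eq_zero_of_gt hε0 h', zero_mul, norm_zero]
      have h1 : 0 ≤ 1 - cutO (2 * ε) z := sub_nonneg.2 (Real.smoothTransition.le_one _)
      have h2 : 0 ≤ Ann.indicator (fun z => |E z|) z :=
        indicator_nonneg (fun _ _ => abs_nonneg _) _
      positivity
    · have hzA := mem_Ann_of_cut hε1 hz h'
      rw [cutO_eq_zero (by linarith) (not_lt.1 h'), indicator_of_mem hzA, norm_mul,
        Real.norm_eq_abs, Real.norm_eq_abs]
      have h3 : |cutO' ε z| ≤ C / ε := by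
        rw [cutO', abs_div, abs_of_pos hε0]; gcongr; exact hC _
      have h4 : |F z| ≤ 2 * ε * |E z| := by
        refine (h z hzA).trans ((le_abs_self _).trans ?_)
        rw [abs_mul, abs_of_nonneg (by nlinarith [mem_D.1 hz, norm_nonneg z])]
        gcongr
        exact not_lt.1 h'
      calc |cutO' ε z| * |F z| ≤ C / ε * (2 * ε * |E z|) := by gcongr
        _ = _ := by field_simp; ring

/-- Green's formula for a field that is `C¹` on the whole disc and `O(1-|z|²)·L¹`. -/
theorem green_small {Y : ℂ → ℂ} (hY : ContDiffOn ℝ 1 Y D) {X : ℂ → ℝ}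
    (hX : ∀ z ∈ D, (dbar Y z).re = X z) (hXi : IntegrableOn X D) {E : ℂ → ℝ}
    (hE : IntegrableOn E D) (h : ∀ z ∈ D, ‖Y z‖ ≤ (1 - ‖z‖ ^ 2) * E z) :
    ∫ z in D, X z = 0 := by
  refine green (hY.mono Dp_subset_D) (fun z hz => hX z hz.1) hXi ?_
    (OF_of_small (hE.mono_set Ann_subset_D) fun z hz => ?_)
  · have hc : ContinuousAt (fun z => (z * Y z).re) 0 :=
      continuous_re.continuousAt.comp (continuousAt_id.mul
        (hY.continuousOn.continuousAt (isOpen_D.mem_nhds zero_mem_D)))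
    simpa using hc.tendsto.mono_left nhdsWithin_le_nhds
  · refine (abs_re_le_norm _).trans (le_trans ?_ (h z (Ann_subset_D hz)))
    rw [norm_mul]
    exact mul_le_of_le_one_left (norm_nonneg _) (mem_Ann.1 hz).2.le

lemma OF.add {F G : ℂ → ℝ} (hF : OF F) (hG : OF G) (hFc : ContinuousOn F Dp)
    (hGc : ContinuousOn G Dp) : OF (fun z => F z + G z) := by
  have := Tendsto.add hF hG
  rw [add_zero] at this
  refine this.congr' ?_
  filter_upwards [eventually_small] with ε ⟨hε0, hε1⟩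
  refine (integral_add (integrable_cutO'_mul hε0 hε1 hFc).integrableOn
    (integrable_cutO'_mul hε0 hε1 hGc).integrableOn).symm.trans ?_
  refine integral_congr_ae (Eventually.of_forall fun z => ?_)
  simp only [cutO']; ring

/-- Extension by zero from the annulus. -/
lemma integrableOn_D_of_Ann {F G : ℂ → ℝ} (hF : AEStronglyMeasurable F (volume.restrict D))
    (hG : IntegrableOn G Ann) (h0 : ∀ z ∈ D, z ∉ Ann → F z = 0) (h : ∀ z ∈ Ann, |F z| ≤ G z) :
    IntegrableOn F D := by
  have hG' : IntegrableOn (Ann.indicator G) D :=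
    ((integrable_indicator_iff isOpen_Ann.measurableSet).2 hG).integrableOn
  refine hG'.mono' hF ?_
  filter_upwards [ae_restrict_mem isOpen_D.measurableSet] with z hz
  by_cases hA : z ∈ Ann
  · rw [indicator_of_mem hA]; exact h z hA
  · rw [indicator_of_notMem hA, h0 z hz hA, norm_zero]

lemma OF_weak_aux {ρ : ℂ → ℝ} (hρ : ContinuousOn ρ D) (hρ0 : ∀ z, 0 ≤ ρ z) {lam : ℝ}
    {U : ℂ → ℝ} (hU : Adm D ρ U) (hw : Weak D ρ lam U) {V : ℂ → ℝ} (hV : ContDiffOn ℝ 1 V Dp)
    (hV2 : MemLp V 2 (volume.restrict Ann)) (hVρ : IntegrableOn (fun z => V z ^ 2 * ρ z) Ann)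
    (hVd : MemLp (dz V) 2 (volume.restrict Ann)) : OF (fun z => (z * dz U z).re * V z) := by
  obtain ⟨C, hC0, hC⟩ := green_deriv_bound
  have mA := isOpen_Ann.measurableSet
  have mD := isOpen_D.measurableSet
  have hdU : ContinuousOn (dz U) D := continuousOn_dz isOpen_D hU.1
  have hdV : ContinuousOn (dz V) Dp := continuousOn_dz isOpen_Dp hV
  have hU2 : MemLp (dz U) 2 (volume.restrict Ann) :=
    ((memLp_two_iff_integrable_sq_norm (hdU.aestronglyMeasurable mD)).2 hU.2.2).mono_measure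
      (Measure.restrict_mono Ann_subset_D le_rfl)
  -- the two integrable densities on the annulus
  set G : ℂ → ℝ := fun z => lam * (U z * V z * ρ z) - (dz U z * conj (dz V z)).re with hG
  have hGc : ContinuousOn G Dp := by
    refine (continuousOn_const.mul (((hU.1.continuousOn.mono Dp_subset_D).mul
      hV.continuousOn).mul (hρ.mono Dp_subset_D))).sub ?_
    exact continuous_re.comp_continuousOn ((hdU.mono Dp_subset_D).mul
      (continuous_conj.comp_continuousOn hdV))
  have i1 : IntegrableOn (fun z => U z * V z * ρ z) Ann := by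
    refine ((hU.2.1.mono_set Ann_subset_D).add hVρ).mono'
      ((((hU.1.continuousOn.mono Ann_subset_D).mul (hV.continuousOn.mono Ann_subset_Dp)).mul
        (hρ.mono Ann_subset_D)).aestronglyMeasurable mA) (Eventually.of_forall fun z => ?_)
    rw [Real.norm_eq_abs, abs_mul, abs_of_nonneg (hρ0 z), Pi.add_apply, ← add_mul]
    refine mul_le_mul_of_nonneg_right ?_ (hρ0 z)
    rw [abs_le]; constructor <;> nlinarith [sq_nonneg (U z + V z), sq_nonneg (U z - V z)]
  have i2 : IntegrableOn (fun z => (dz U z * conj (dz V z)).re) Ann := by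
    have hc : MemLp (fun z => conj (dz V z)) 2 (volume.restrict Ann) :=
      (conjCLE : ℂ →L[ℝ] ℂ).comp_memLp' hVd
    exact (hU2.integrable_mul hc).re
  have iG : IntegrableOn G Ann := (i1.const_mul lam).sub i2
  have iG' : IntegrableOn (Ann.indicator G) D :=
    ((integrable_indicator_iff mA).2 iG).integrableOn
  have A : Tendsto (fun ε : ℝ => ∫ z in D, (1 - cutO ε z) * Ann.indicator G z) (𝓝[>] 0)
      (𝓝 (∫ _ in D, (0 : ℝ))) := by
    refine tendsto_integral_filter_of_dominated_convergence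
      (fun z => ‖Ann.indicator G z‖) ?_ ?_ iG'.norm ?_
    · exact Eventually.of_forall fun ε => ((continuous_const.sub
        (contDiff_cutO _).continuous).aestronglyMeasurable).mul iG'.aestronglyMeasurable
    · refine Eventually.of_forall fun ε => Eventually.of_forall fun z => ?_
      rw [norm_mul]
      exact mul_le_of_le_one_left (norm_nonneg _) (abs_one_sub_cutO_le _ _)
    · filter_upwards [ae_restrict_mem mD] with z hz
      refine tendsto_const_nhds.congr' ?_
      filter_upwards [tendsto_cutO hz] with ε hε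
      rw [hε]; simp
  rw [integral_zero] at A
  refine A.congr' ?_
  filter_upwards [eventually_small] with ε ⟨hε0, hε1⟩
  set η : ℂ → ℝ := fun z => (1 - cutO ε z) * V z with hη
  have hout : ∀ z ∈ D, z ∉ Ann → 2 * ε < 1 - ‖z‖ ^ 2 := fun z hz hA =>
    by_contra fun h => hA (mem_Ann_of_cut hε1 hz h)
  have hloc : ∀ z : ℂ, 2 * ε < 1 - ‖z‖ ^ 2 → η =ᶠ[𝓝 z] fun _ => 0 := fun z hz => by
    have : IsOpen {w : ℂ | 2 * ε < 1 - ‖w‖ ^ 2} := isOpen_lt continuous_const (by fun_prop)
    filter_upwards [this.mem_nhds hz] with w hw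
    simp only [hη, cutO_eq_one hε0 (le_of_lt hw), sub_self, zero_mul]
  have hηc : ContDiffOn ℝ 1 η D := fun z hz => by
    by_cases hA : z ∈ Ann
    · exact ((contDiff_const.sub (contDiff_cutO ε)).contDiffAt.mul
        (hV.contDiffAt (isOpen_Dp.mem_nhds (Ann_subset_Dp hA)))).contDiffWithinAt
    · exact (contDiffAt_const.congr_of_eventuallyEq (hloc z (hout z hz hA))).contDiffWithinAt
  have hdη : ∀ z ∈ Ann, dz η z = cutO' ε z * conj z * V z + (1 - cutO ε z) * dz V z := by
    intro z hz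
    have h1 := hasW_ofReal (differentiableAt_of_contDiffOn isOpen_Dp hV (by simp)
      (Ann_subset_Dp hz))
    have h2 := (((hasW_const 1 z).sub (hasW_cutO ε z)).mul h1)
    refine (HasW.dz_eq (V := η) (h2.congr_of_eventuallyEq
      (Eventually.of_forall fun w => by simp [hη]))).trans (by ring)
  have hdη0 : ∀ z ∈ D, z ∉ Ann → dz η z = 0 := fun z hz hA => by
    rw [dz_congr (hloc z (hout z hz hA)), dz_const]
  have hη0 : ∀ z ∈ D, z ∉ Ann → η z = 0 := fun z hz hA => (hloc z (hout z hz hA)).self_of_nhds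
  have h3 : ∀ z, |cutO' ε z| ≤ C / ε := fun z => by
    rw [cutO', abs_div, abs_of_pos hε0]; gcongr; exact hC _
  have hadm : Adm D ρ η := by
    refine ⟨hηc, integrableOn_D_of_Ann
      (((hηc.continuousOn.pow 2).mul hρ).aestronglyMeasurable mD) hVρ
      (fun z hz hA => by rw [hη0 z hz hA]; simp) (fun z _ => ?_),
      integrableOn_D_of_Ann (G := fun z => 2 * (C / ε) ^ 2 * V z ^ 2 + 2 * ‖dz V z‖ ^ 2)
      (((continuousOn_dz isOpen_D hηc).norm.pow 2).aestronglyMeasurable mD)
      (by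
        have := (hV2.integrable_sq.const_mul (2 * (C / ε) ^ 2)).add
          (((memLp_two_iff_integrable_sq_norm hVd.1).1 hVd).const_mul 2)
        exact this)
      (fun z hz hA => by rw [hdη0 z hz hA]; simp) (fun z hz => ?_)⟩
    · rw [abs_of_nonneg (mul_nonneg (sq_nonneg _) (hρ0 z))]
      refine mul_le_mul_of_nonneg_right ?_ (hρ0 z)
      rw [hη, mul_pow]
      refine mul_le_of_le_one_left (sq_nonneg _) ?_
      rw [sq_le_one_iff_abs_le_one]; exact abs_one_sub_cutO_le _ _
    · rw [abs_of_nonneg (sq_nonneg _), hdη z hz]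
      have a1 : ‖(cutO' ε z : ℂ) * conj z * V z‖ ≤ C / ε * |V z| := by
        rw [norm_mul, norm_mul, norm_real, norm_real, RCLike.norm_conj, Real.norm_eq_abs,
          Real.norm_eq_abs]
        calc |cutO' ε z| * ‖z‖ * |V z| ≤ C / ε * 1 * |V z| := by
              gcongr
              · exact h3 z
              · exact (mem_Ann.1 hz).2.le
          _ = _ := by ring
      have a2 : ‖(1 - cutO ε z : ℂ) * dz V z‖ ≤ ‖dz V z‖ := by
        rw [norm_mul]
        refine mul_le_of_le_one_left (norm_nonneg _) ?_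
        have : (1 - cutO ε z : ℂ) = ((1 - cutO ε z : ℝ) : ℂ) := by push_cast; rfl
        rw [this, norm_real]; exact abs_one_sub_cutO_le _ _
      have a3 := (norm_add_le _ _).trans (add_le_add a1 a2)
      calc _ ≤ (C / ε * |V z| + ‖dz V z‖) ^ 2 := by gcongr
        _ ≤ 2 * (C / ε * |V z|) ^ 2 + 2 * ‖dz V z‖ ^ 2 := by
            nlinarith [sq_nonneg (C / ε * |V z| - ‖dz V z‖)]
        _ = _ := by rw [mul_pow, sq_abs]; ring
  have key := hw η hadm
  have hFc : ContinuousOn (fun z => (z * dz U z).re * V z) Dp :=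
    (continuous_re.comp_continuousOn (continuousOn_id.mul (hdU.mono Dp_subset_D))).mul
      hV.continuousOn
  have j1 := (integrable_cutO'_mul hε0 hε1 hFc).integrableOn (s := D)
  have j2 : IntegrableOn (fun z => (1 - cutO ε z) * Ann.indicator G z) D :=
    iG'.bdd_mul (c := 1) ((continuous_const.sub
      (contDiff_cutO _).continuous).aestronglyMeasurable)
      (Eventually.of_forall fun z => abs_one_sub_cutO_le _ _)
  have j3 : IntegrableOn (fun z => U z * η z * ρ z) D := by
    refine integrableOn_D_of_Ann (((hU.1.continuousOn.mul hηc.continuousOn).mul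
      hρ).aestronglyMeasurable mD) i1.abs (fun z hz hA => by rw [hη0 z hz hA]; simp)
      (fun z _ => ?_)
    have : U z * η z * ρ z = (1 - cutO ε z) * (U z * V z * ρ z) := by rw [hη]; ring
    rw [this, abs_mul]
    exact mul_le_of_le_one_left (abs_nonneg _) (abs_one_sub_cutO_le _ _)
  have e : ∫ z in D, (dz U z * conj (dz η z)).re =
      ∫ z in D, (cutO' ε z * ((z * dz U z).re * V z) - (1 - cutO ε z) * Ann.indicator G z +
        lam * (U z * η z * ρ z)) := by
    refine setIntegral_congr_fun mD fun z hz => ?_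
    by_cases hA : z ∈ Ann
    · simp only [hdη z hA, indicator_of_mem hA]
      simp [hG, hη]
      ring
    · simp only [hdη0 z hz hA, hη0 z hz hA, indicator_of_notMem hA,
        cutO'_eq_zero_of_gt hε0 (hout z hz hA)]
      simp
  have j4 : IntegrableOn (fun z => cutO' ε z * ((z * dz U z).re * V z) -
      (1 - cutO ε z) * Ann.indicator G z) D := j1.sub j2
  rw [e, integral_add j4 (j3.const_mul lam), integral_sub j1 j2,
    integral_const_mul] at key
  change _ = ∫ z in D, cutO' ε z * ((z * dz U z).re * V z)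
  linarith

/-- The weak Neumann condition kills the flux `Re(z ∂U) V`, up to `O(1-|z|²)·L¹` errors. -/
theorem OF_of_weak {ρ : ℂ → ℝ} (hρ : ContinuousOn ρ D) (hρ0 : ∀ z, 0 ≤ ρ z) {lam : ℝ}
    {U : ℂ → ℝ} (hU : Adm D ρ U) (hw : Weak D ρ lam U) {V : ℂ → ℝ} (hV : ContDiffOn ℝ 1 V Dp)
    (hV2 : MemLp V 2 (volume.restrict Ann)) (hVρ : IntegrableOn (fun z => V z ^ 2 * ρ z) Ann)
    (hVd : MemLp (dz V) 2 (volume.restrict Ann)) {F E : ℂ → ℝ} (hF : ContinuousOn F Dp)
    (hE : IntegrableOn E Ann)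
    (h : ∀ z ∈ Ann, |F z - (z * dz U z).re * V z| ≤ (1 - ‖z‖ ^ 2) * E z) : OF F := by
  have hFc : ContinuousOn (fun z => (z * dz U z).re * V z) Dp :=
    (continuous_re.comp_continuousOn (continuousOn_id.mul
      ((continuousOn_dz isOpen_D hU.1).mono Dp_subset_D))).mul hV.continuousOn
  have := (OF_of_small hE h).add (OF_weak_aux hρ hρ0 hU hw hV hV2 hVρ hVd) (hF.sub hFc) hFc
  simpa using this

end Crest.Agent.R101
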