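import Crest.Agent.R101.BC

/-!
# Row 101: the main theorem on the disc

Author: helper76.

With `W = U - c J` (double zero at `0`), `A = W_z/z + c z̄ J_z`, `B = z W_z + c J_z/z̄`, the fields
`κ A + κ̄ B` satisfy the weak boundary condition, so the vector inequality gives
`lam ∫ (|A|² + |B|²) ≤ ∫ (|∂̄A|² + |∂̄B|²)/ρ`.  On the other hand a pointwise divergence identity
gives `∫ (|∂̄A|² + |∂̄B|²)/ρ - lam (|A|² + |B|²) = -(lam/2) ∫ (1 + |z|⁻⁴)(W² + c² K²) < 0`.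
-/

open Complex MeasureTheory Set Metric Filter Topology
open scoped ComplexConjugate

noncomputable section

namespace Crest.Agent.R101

namespace Ctx
variable (Q : Ctx)

/-- `H = W² - c² (J² - 1)`. -/
def H (z : ℂ) : ℂ := (Q.W z : ℂ) ^ 2 - (Q.c : ℂ) ^ 2 * ((Q.J z : ℂ) ^ 2 - 1)

/-- The flux field. -/
def Y (z : ℂ) : ℂ := -(Q.lam * (Q.A z * conj (Q.A₀ z) + Q.B z * conj (Q.B₀ z))) +
  Q.lam / 2 * ((conj z - z⁻¹ ^ 2 * (conj z)⁻¹) * Q.H z)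

/-- The non-negative remainder. -/
def R (z : ℂ) : ℝ := Q.lam / 2 * ((1 + (‖z‖ ^ 2)⁻¹ ^ 2) * (Q.W z ^ 2 + Q.c ^ 2 * Q.K z ^ 2))

/-- The divergence of the flux field. -/
def X (z : ℂ) : ℝ := (‖Q.ψA z‖ ^ 2 / Q.ρ z + ‖Q.ψB z‖ ^ 2 / Q.ρ z) -
  Q.lam * (‖Q.A z‖ ^ 2 + ‖Q.B z‖ ^ 2) + Q.R z

lemma cd_H : ContDiffOn ℝ 1 Q.H D :=
  (Q.cd_W.pow 2).sub (contDiffOn_const.mul ((Q.cd_J.pow 2).sub contDiffOn_const))

lemma cd_Y : ContDiffOn ℝ 1 Q.Y Dp :=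
  (contDiffOn_const.mul ((Q.cd_A.mul (contDiffOn_conj_comp Q.cd_A₀)).add
    (Q.cd_B.mul (contDiffOn_conj_comp Q.cd_B₀)))).neg.add
    (contDiffOn_const.mul ((cd_conj.sub ((cd_inv.pow 2).mul cd_conj_inv)).mul
      (Q.cd_H.mono Dp_subset_D)))

lemma cast_norm_sq (a : ℂ) : ((‖a‖ : ℝ) : ℂ) ^ 2 = a * conj a := by
  rw [mul_conj, normSq_eq_norm_sq]; push_cast; rfl

lemma dbar_Y {z : ℂ} (hz : z ∈ Dp) : (dbar Q.Y z).re = Q.X z := by
  have hz0 : z ≠ 0 := (mem_Dp.1 hz).2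
  have hzc : conj z ≠ 0 := by simpa using hz0
  obtain ⟨a1, h1⟩ := Q.hasW_A hz
  obtain ⟨a2, h2⟩ := Q.hasW_B hz
  obtain ⟨a3, h3⟩ := Q.hasW_A₀ hz
  obtain ⟨a4, h4⟩ := Q.hasW_B₀ hz
  have h5 := ((hasW_ofReal (Q.diff_W hz.1)).pow 2).sub
    ((((hasW_ofReal (Q.diff_J hz.1)).pow 2).sub (hasW_const 1 z)).const_mul ((Q.c : ℂ) ^ 2))
  have h6 := (hasW_conj z).sub (((hasW_inv hz0).pow 2).mul (hasW_conj_inv hz0))
  have h7 := (((h1.mul h3.conj).add (h2.mul h4.conj)).const_mul (Q.lam : ℂ)).neg.add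
    ((h6.mul h5).const_mul (Q.lam / 2 : ℂ))
  have e : dbar Q.Y z = _ := h7.dbar_eq
  have hρ : (Q.ρ z : ℂ) ≠ 0 := by exact_mod_cast (Q.toSetup.rho_pos hz.1).ne'
  have hl : (Q.lam : ℂ) ≠ 0 := by exact_mod_cast Q.lam_pos.ne'
  have key : (Q.K z : ℂ) ^ 2 =
      1 - (Q.J z : ℂ) ^ 2 - 2 * (dz Q.J z * conj (dz Q.J z)) / (Q.lam * Q.ρ z) := by
    have := congrArg (fun x : ℝ => (x : ℂ)) (Q.toSetup.norm_dz_Jf_sq hz.1)
    simp only [ofReal_mul, ofReal_pow, cast_norm_sq, ofReal_sub, ofReal_one, ofReal_ofNat] at this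
    field_simp
    linear_combination this
  have : ((2 * (dbar Q.Y z).re : ℝ) : ℂ) = ((2 * Q.X z : ℝ) : ℂ) := by
    rw [← add_conj, e]
    simp only [X, R, ofReal_mul, ofReal_add, ofReal_sub, ofReal_div, ofReal_pow, ofReal_inv,
      cast_norm_sq, ofReal_one, ofReal_ofNat, key]
    simp only [ψA, ψB, A, B, A₀, B₀, map_add, map_mul, map_neg, map_sub, map_pow, map_inv₀,
      conj_conj, conj_ofReal, map_div₀, map_ofNat, map_one, map_zero, Nat.cast_ofNat]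
    field_simp
    ring
  have h := ofReal_injective this
  linarith

lemma ord_H : Ord Q.H 0 :=
  ord_of_continuousAt (Q.cd_H.continuousOn.continuousAt (isOpen_D.mem_nhds zero_mem_D))

lemma ord_zY : Ord (fun z => z * Q.Y z) 1 := by
  have T1 := ((ord_id.mul (Q.ord_A.mul Q.ord_A₀.conj)).const_mul (-Q.lam)).mono (m := 1)
    (by norm_num)
  have T2 := ((Q.ord_B.mul ((ord_id.mul ord_conj).mul Q.ord_W)).const_mul (-Q.lam)).mono (m := 1)
    (by norm_num)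
  have T3 := ((Q.ord_J.mul (ord_id.mul Q.ord_dzW)).const_mul (-Q.lam * Q.c)).mono (m := 1)
    (by norm_num)
  have T4 := ((Q.ord_J.mul (ord_conj_inv.mul Q.ord_n)).const_mul (-Q.lam * Q.c ^ 2)).mono (m := 1)
    (by norm_num)
  have T5 := (((ord_id.mul ord_conj).mul Q.ord_H).const_mul (Q.lam / 2)).mono (m := 1)
    (by norm_num)
  have T6 := (((ord_inv.mul ord_conj_inv).mul (Q.ord_W.mul Q.ord_W)).const_mul
    (-Q.lam / 2)).mono (m := 1) (by norm_num)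
  have T7 := (((Q.ord_J.add (ord_const 1)).mul ((ord_inv.mul ord_conj_inv).mul Q.ord_j)).const_mul
    (Q.lam / 2 * Q.c ^ 2)).mono (m := 1) (by norm_num)
  have T8 := (Q.ord_J_sub.const_mul (Q.lam ^ 2 * Q.c ^ 2 * Q.ρ 0 / 2)).mono (m := 1)
    (by norm_num)
  refine (((((((T1.add T2).add T3).add T4).add T5).add T6).add T7).add T8).congr fun z hz => ?_
  have hz0 : z ≠ 0 := (mem_Dp.1 hz).2
  have hzc : conj z ≠ 0 := by simpa using hz0
  simp only [Y, H, B, B₀, ofReal_mul, ofReal_add, ofReal_sub, ofReal_pow, cast_norm_sq,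
    ofReal_one, map_add, map_mul, map_inv₀, conj_conj, conj_ofReal]
  field_simp
  ring

lemma continuousOn_p : ContDiffOn ℝ 1 (fun z : ℂ => ‖z‖ ^ 2 + (‖z‖ ^ 2)⁻¹) {z | z ≠ 0} :=
  (contDiff_norm_sq ℝ).contDiffOn.add ((contDiff_norm_sq ℝ).contDiffOn.inv fun _ hz =>
    pow_ne_zero 2 (norm_ne_zero_iff.2 hz))

lemma L_s : MemLp (fun z : ℂ => ‖z‖ ^ 2) ⊤ μA := memLp_top_Ann (by fun_prop)

lemma L_s_inv : MemLp (fun z : ℂ => (‖z‖ ^ 2)⁻¹) ⊤ μA :=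
  memLp_top_Ann (ContinuousOn.inv₀ (by fun_prop) fun _ hz => pow_ne_zero 2 (norm_ne_zero_iff.2 hz))

lemma OF_zY : OF (fun z => (z * Q.Y z).re) := by
  set p : ℂ → ℝ := fun z => ‖z‖ ^ 2 + (‖z‖ ^ 2)⁻¹ with hp
  set V : ℂ → ℝ := fun z => -Q.lam * (p z * Q.W z + 2 * Q.c * Q.J z) with hV
  have hne : IsOpen {z : ℂ | z ≠ 0} := isOpen_ne
  have hpc : ContDiffOn ℝ 1 p {z | z ≠ 0} := continuousOn_p
  have hpt : MemLp p ⊤ μA := memLp_top_Ann hpc.continuousOn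
  have hVc : ContDiffOn ℝ 1 V Dp :=
    contDiffOn_const.mul (((hpc.mono fun z hz => (mem_Dp.1 hz).2).mul
      ((Q.contDiffOn_W.of_le (by norm_num)).mono Dp_subset_D)).add
      (contDiffOn_const.mul ((Q.contDiffOn_J.of_le (by norm_num)).mono Dp_subset_D)))
  have hV2 : MemLp V 2 μA :=
    ((memLp_mul_top hpt Q.L_W).add ((memLp_of_top Q.L_J 2).const_mul _)).const_mul _
  have hVρ : IntegrableOn (fun z => V z ^ 2 * Q.ρ z) Ann := by
    have h := ((memLp_mul_top (memLp_ofReal hpt) Q.L_φ'W).add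
      (Q.L_φ'J.const_mul (2 * Q.c : ℂ))).const_mul (-Q.lam : ℂ)
    have h' : MemLp (fun z => conj (deriv Q.φ z) * V z) 2 μA :=
      memLp_congr_Ann h fun z _ => by simp only [hV, Pi.add_apply]; push_cast; ring
    refine ((memLp_two_iff_integrable_sq_norm h'.1).1 h').congr
      (Eventually.of_forall fun z => ?_)
    simp [rho, mul_pow, mul_comm]
  have hVd : MemLp (dz V) 2 μA := by
    have h := (((memLp_mul_top (memLp_top_Ann (continuousOn_dz hne hpc)) (memLp_ofReal Q.L_W)).add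
      (memLp_mul_top (memLp_ofReal hpt) Q.L_dzW)).add
      (Q.L_dzJ.const_mul ((2 * Q.c : ℝ) : ℂ))).const_mul ((-Q.lam : ℝ) : ℂ)
    refine memLp_congr_Ann h fun z hz => ?_
    have d1 : DifferentiableAt ℝ p z :=
      differentiableAt_of_contDiffOn hne hpc (by simp) (mem_Dp.1 (Ann_subset_Dp hz)).2
    have d2 := Q.diff_W (Ann_subset_D hz)
    have d3 := Q.diff_J (Ann_subset_D hz)
    have d4 : DifferentiableAt ℝ (fun w => p w * Q.W w) z := d1.mul d2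
    have d5 : DifferentiableAt ℝ (fun w => 2 * Q.c * Q.J w) z := d3.const_mul _
    have d6 : DifferentiableAt ℝ (fun w => p w * Q.W w + 2 * Q.c * Q.J w) z := d4.add d5
    rw [hV, dz_const_mul _ d6, dz_add d4 d5, dz_mul d1 d2, dz_const_mul _ d3]
    rfl
  have hH : MemLp (fun z => Q.W z * Q.W z - Q.c ^ 2 * (Q.J z * Q.J z - 1)) 1 μA :=
    (memLp_mul_two Q.L_W Q.L_W).sub (MemLp.const_mul
      (memLp_of_top ((memLp_mul_top Q.L_J Q.L_J).sub (memLp_top_const 1)) 1) _)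
  have hRJ : MemLp (fun z => (z * dz Q.J z).re) 2 μA := memLp_re (memLp_mul_top L_id Q.L_dzJ)
  have hE : MemLp (fun z => -Q.lam * Q.c * ((‖z‖ ^ 2)⁻¹ * ((z * dz Q.J z).re *
      ((‖z‖ ^ 2 * Q.W z + Q.c * Q.J z) - (Q.W z + Q.c * (‖z‖ ^ 2 * Q.J z))))) -
      Q.lam / 2 * (((1 + ‖z‖ ^ 2) * (‖z‖ ^ 2)⁻¹) *
        (Q.W z * Q.W z - Q.c ^ 2 * (Q.J z * Q.J z - 1)))) 1 μA := by
    have hJ2 := memLp_of_top Q.L_J 2
    have a1 := ((memLp_mul_top L_s Q.L_W).add (hJ2.const_mul Q.c)).sub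
      (Q.L_W.add ((memLp_mul_top L_s hJ2).const_mul Q.c))
    have a2 := (memLp_mul_top L_s_inv (memLp_mul_two hRJ a1)).const_mul (-Q.lam * Q.c)
    have a3 := (memLp_mul_top (memLp_mul_top ((memLp_top_const (1 : ℝ)).add L_s) L_s_inv)
      hH).const_mul (Q.lam / 2)
    exact memLp_congr_Ann (a2.sub a3) fun z _ => by simp only [Pi.add_apply, Pi.sub_apply]
  refine OF_of_weak' Q.toSetup.continuousOn_rho Q.toSetup.rho_nonneg Q.hU Q.hw hVc hV2 hVρ hVd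
    (continuous_re.comp_continuousOn (continuousOn_id.mul Q.cd_Y.continuousOn)) hE fun z hz => ?_
  have hz0 : z ≠ 0 := (mem_Dp.1 (Ann_subset_Dp hz)).2
  have hzc : conj z ≠ 0 := by simpa using hz0
  have hs : ‖z‖ ^ 2 ≠ 0 := pow_ne_zero 2 (norm_ne_zero_iff.2 hz0)
  have e1 : z * Q.Y z = (V z : ℂ) * (z * dz Q.U z) +
      ((-Q.lam * Q.c * (1 - ‖z‖ ^ 2) * (‖z‖ ^ 2)⁻¹ * ((‖z‖ ^ 2 * Q.W z + Q.c * Q.J z) -
        (Q.W z + Q.c * (‖z‖ ^ 2 * Q.J z))) : ℝ) : ℂ) * (z * dz Q.J z) +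
      ((-(Q.lam / 2) * (1 - ‖z‖ ^ 2) * ((1 + ‖z‖ ^ 2) * (‖z‖ ^ 2)⁻¹) *
        (Q.W z * Q.W z - Q.c ^ 2 * (Q.J z * Q.J z - 1)) : ℝ) : ℂ) := by
    simp only [Y, H, A, B, A₀, B₀, hV, hp, Q.dz_W (Ann_subset_D hz), ofReal_mul, ofReal_add,
      ofReal_sub, ofReal_pow, ofReal_inv, ofReal_neg, ofReal_div, ofReal_ofNat, cast_norm_sq,
      ofReal_one, map_add, map_mul, map_inv₀, conj_conj, conj_ofReal]
    field_simp
    ring
  change (z * Q.Y z).re = _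
  rw [e1, add_re, add_re, re_ofReal_mul, re_ofReal_mul, ofReal_re]
  ring

lemma continuousOn_R : ContinuousOn Q.R Dp := by
  refine continuousOn_const.mul ((continuousOn_const.add (ContinuousOn.pow
    (ContinuousOn.inv₀ (by fun_prop) fun _ hz => ?_) 2)).mul
    (((Q.contDiffOn_W.continuousOn.mono Dp_subset_D).pow 2).add (continuousOn_const.mul
      ((Q.toSetup.continuousOn_Kf.mono Dp_subset_D).pow 2))))
  exact pow_ne_zero 2 (norm_ne_zero_iff.2 (mem_Dp.1 hz).2)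

lemma integrableOn_R : IntegrableOn Q.R D := by
  refine integrableOn_D_of_near Q.continuousOn_R ?_ ?_
  · have h1 := (ord_inv.mul ord_conj_inv).mul (ord_inv.mul ord_conj_inv)
    have h2 := (Q.ord_W.mul Q.ord_W).add ((Q.ord_K.mul Q.ord_K).const_mul ((Q.c : ℂ) ^ 2))
    have h3 : Ord (fun z => (Q.R z : ℂ)) 0 := by
      refine (((h2.mono (by norm_num)).add (h1.mul h2)).const_mul (Q.lam / 2)).congr
        fun z _ => ?_
      simp only [R, ofReal_mul, ofReal_add, ofReal_pow, ofReal_inv, ofReal_div, ofReal_ofNat,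
        cast_norm_sq, ofReal_one]
      ring
    exact Complex.isBigO_ofReal_left.1 h3.isBigO_one
  · have h := (memLp_mul_top ((memLp_top_const (1 : ℝ)).add (memLp_mul_top L_s_inv L_s_inv))
      ((memLp_mul_two Q.L_W Q.L_W).add ((memLp_of_top (memLp_mul_top Q.L_K Q.L_K) 1).const_mul
        (Q.c ^ 2)))).const_mul (Q.lam / 2)
    refine memLp_one_iff_integrable.1 (memLp_congr_Ann h fun z _ => ?_)
    simp only [R, Pi.add_apply]; ring

lemma R_nonneg (z : ℂ) : 0 ≤ Q.R z := by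
  have := Q.lam_pos
  unfold R; positivity

theorem R_eq_zero {z : ℂ} (hz : z ∈ Dp) : Q.R z = 0 := by
  have i1 : IntegrableOn (fun z => ‖Q.ψA z‖ ^ 2 / Q.ρ z + ‖Q.ψB z‖ ^ 2 / Q.ρ z) D :=
    (Q.integrableOn_normSq_div Q.L_ψA).add (Q.integrableOn_normSq_div Q.L_ψB)
  have i2 : IntegrableOn (fun z => ‖Q.A z‖ ^ 2 + ‖Q.B z‖ ^ 2) D :=
    ((memLp_two_iff_integrable_sq_norm Q.L_A.1).1 Q.L_A).add
      ((memLp_two_iff_integrable_sq_norm Q.L_B.1).1 Q.L_B)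
  have i3 : IntegrableOn (fun z => (‖Q.ψA z‖ ^ 2 / Q.ρ z + ‖Q.ψB z‖ ^ 2 / Q.ρ z) -
      Q.lam * (‖Q.A z‖ ^ 2 + ‖Q.B z‖ ^ 2)) D := i1.sub (i2.const_mul _)
  have h := green Q.cd_Y (fun z hz => Q.dbar_Y hz) (i3.add Q.integrableOn_R)
    Q.ord_zY.tendsto_re Q.OF_zY
  simp only [X] at h
  rw [integral_add i3 Q.integrableOn_R, integral_sub i1 (i2.const_mul _), integral_const_mul] at h
  have h1 : ∫ z in D, Q.R z = 0 :=
    le_antisymm (by linarith [Q.vec_sum]) (integral_nonneg fun z => Q.R_nonneg z)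
  have h2 : Q.R =ᵐ[volume.restrict D] 0 :=
    (integral_eq_zero_iff_of_nonneg (fun z => Q.R_nonneg z) Q.integrableOn_R).1 h1
  exact Measure.eqOn_open_of_ae_eq (ae_restrict_of_ae_restrict_of_subset Dp_subset_D h2)
    isOpen_Dp Q.continuousOn_R continuousOn_const hz

theorem U_eq_zero {z : ℂ} (hz : z ∈ D) : Q.U z = 0 := by
  have h : ∀ w ∈ Dp, Q.W w = 0 ∧ Q.c * Q.K w = 0 := fun w hw => by
    have h1 := Q.R_eq_zero hw
    have h2 : 0 < Q.lam / 2 := half_pos Q.lam_pos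
    have h3 : 0 < 1 + (‖w‖ ^ 2)⁻¹ ^ 2 := by positivity
    have h4 : Q.W w ^ 2 + (Q.c * Q.K w) ^ 2 = 0 := by
      rw [mul_pow]
      exact (mul_eq_zero.1 ((mul_eq_zero.1 h1).resolve_left h2.ne')).resolve_left h3.ne'
    constructor <;> nlinarith [sq_nonneg (Q.W w), sq_nonneg (Q.c * Q.K w)]
  obtain ⟨w, hw, hK⟩ := Q.toSetup.exists_Kf_ne_zero
  have hc : Q.c = 0 := (mul_eq_zero.1 (h w hw).2).resolve_right hK
  by_cases h0 : z = 0
  · rw [h0]; exact hc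
  · have := (h z ⟨hz, h0⟩).1
    rwa [W, hc, zero_mul, sub_zero] at this

end Ctx

theorem Setup.disc_main (P : Setup) {U : ℂ → ℝ} (hU2 : ContDiffOn ℝ 2 U D)
    (hU : Adm D (rho P.φ) U) (hw : Weak D (rho P.φ) P.lam U) (hnz : ∃ z ∈ D, U z ≠ 0) :
    dz U 0 ≠ 0 := fun h0 => by
  obtain ⟨z, hz, h⟩ := hnz
  exact h (Ctx.U_eq_zero ⟨P, U, hU2, hU, hw, h0⟩ hz)

end Crest.Agent.R101
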