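import Crest.Agent.R101.Green

/-!
# Row 101: order calculus at `0` and multipliers on the annulus

Author: helper76.
-/

open Complex MeasureTheory Set Metric Filter Topology
open scoped ComplexConjugate

noncomputable section

namespace Crest.Agent.R101

/-- `F = O(|z|^k)` as `z → 0`, `z ≠ 0`. -/
def Ord (F : ℂ → ℂ) (k : ℤ) : Prop := F =O[𝓝[≠] 0] fun z : ℂ => ‖z‖ ^ k

lemma eventually_Dp : ∀ᶠ z in 𝓝[≠] (0 : ℂ), z ∈ Dp := by
  filter_upwards [nhdsWithin_le_nhds (isOpen_D.mem_nhds zero_mem_D), self_mem_nhdsWithin]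
    with z h1 h2 using ⟨h1, h2⟩

lemma Ord.of_isBigO {F : ℂ → ℂ} {k : ℕ} (h : F =O[𝓝 0] fun z : ℂ => ‖z‖ ^ k) : Ord F k := by
  simpa [Ord] using h.mono nhdsWithin_le_nhds

lemma Ord.of_isBigO_real {F : ℂ → ℝ} {k : ℕ} (h : F =O[𝓝 0] fun z : ℂ => ‖z‖ ^ k) :
    Ord (fun z => (F z : ℂ)) k :=
  Ord.of_isBigO (Complex.isBigO_ofReal_left.2 h)

lemma Ord.congr {F G : ℂ → ℂ} {k : ℤ} (h : Ord F k) (e : ∀ z ∈ Dp, F z = G z) : Ord G k :=
  Asymptotics.IsBigO.congr' h (eventually_Dp.mono e) EventuallyEq.rfl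

lemma Ord.mono {F : ℂ → ℂ} {k m : ℤ} (h : Ord F k) (hm : m ≤ k) : Ord F m := by
  refine Asymptotics.IsBigO.trans h (Asymptotics.IsBigO.of_bound 1 ?_)
  filter_upwards [eventually_Dp] with z hz
  obtain ⟨h1, h2⟩ := mem_Dp.1 hz
  rw [norm_zpow, norm_zpow, norm_norm, one_mul]
  exact zpow_le_zpow_right_of_le_one₀ (norm_pos_iff.2 h2) h1.le hm

lemma Ord.mul {F G : ℂ → ℂ} {k m : ℤ} (hF : Ord F k) (hG : Ord G m) :
    Ord (fun z => F z * G z) (k + m) := by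
  have h := Asymptotics.IsBigO.mul (Asymptotics.IsBigO.norm_left hF)
    (Asymptotics.IsBigO.norm_left hG)
  refine Asymptotics.IsBigO.of_norm_left (h.congr' (Eventually.of_forall fun z => ?_) ?_)
  · simp
  · filter_upwards [eventually_Dp] with z hz
    rw [zpow_add₀ (norm_pos_iff.2 (mem_Dp.1 hz).2).ne']

lemma Ord.add {F G : ℂ → ℂ} {k : ℤ} (hF : Ord F k) (hG : Ord G k) :
    Ord (fun z => F z + G z) k := Asymptotics.IsBigO.add hF hG

lemma Ord.sub {F G : ℂ → ℂ} {k : ℤ} (hF : Ord F k) (hG : Ord G k) :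
    Ord (fun z => F z - G z) k := Asymptotics.IsBigO.sub hF hG

lemma Ord.neg {F : ℂ → ℂ} {k : ℤ} (hF : Ord F k) : Ord (fun z => -F z) k :=
  Asymptotics.IsBigO.neg_left hF

lemma Ord.const_mul {F : ℂ → ℂ} {k : ℤ} (c : ℂ) (hF : Ord F k) : Ord (fun z => c * F z) k :=
  Asymptotics.IsBigO.const_mul_left hF c

lemma Ord.conj {F : ℂ → ℂ} {k : ℤ} (hF : Ord F k) : Ord (fun z => conj (F z)) k :=
  Asymptotics.IsBigO.of_norm_left (by simpa using Asymptotics.IsBigO.norm_left hF)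

lemma ord_const (c : ℂ) : Ord (fun _ => c) 0 := by
  simpa [Ord] using Asymptotics.isBigO_const_const c (one_ne_zero (α := ℝ)) _

lemma ord_id : Ord (fun z => z) 1 :=
  Asymptotics.IsBigO.of_bound 1 (Eventually.of_forall fun z => by simp)

lemma ord_inv : Ord (fun z => z⁻¹) (-1) :=
  Asymptotics.IsBigO.of_bound 1 (Eventually.of_forall fun z => by simp)

lemma ord_conj : Ord (fun z => conj z) 1 := ord_id.conj

lemma ord_conj_inv : Ord (fun z => (conj z)⁻¹) (-1) := by simpa using ord_inv.conj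

lemma ord_of_continuousAt {F : ℂ → ℂ} (hF : ContinuousAt F 0) : Ord F 0 := by
  simpa [Ord] using (hF.tendsto.isBigO_one ℝ).mono nhdsWithin_le_nhds

lemma Ord.isBigO_one {F : ℂ → ℂ} (hF : Ord F 0) : F =O[𝓝[≠] 0] fun _ => (1 : ℝ) := by
  simpa [Ord] using hF

lemma Ord.tendsto {F : ℂ → ℂ} (hF : Ord F 1) : Tendsto F (𝓝[≠] 0) (𝓝 0) := by
  refine Asymptotics.IsBigO.trans_tendsto hF ?_
  have : Tendsto (fun z : ℂ => ‖z‖) (𝓝 0) (𝓝 0) := tendsto_norm_zero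
  simpa using this.mono_left nhdsWithin_le_nhds

lemma Ord.tendsto_re {F : ℂ → ℂ} (hF : Ord F 1) :
    Tendsto (fun z => (F z).re) (𝓝[≠] 0) (𝓝 0) := by
  simpa [Function.comp_def] using (continuous_re.tendsto 0).comp hF.tendsto

lemma Ord.memLp {F : ℂ → ℂ} (hF : Ord F 0) (hc : ContinuousOn F Dp) {p : ENNReal}
    (h1 : MemLp F p (volume.restrict Ann)) : MemLp F p (volume.restrict D) :=
  memLp_D_of_near hc hF.isBigO_one h1

/-- The measure on the annulus. -/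
abbrev μA : Measure ℂ := volume.restrict Ann

/-- Functions continuous away from `0` are bounded on the annulus. -/
lemma memLp_top_Ann {E : Type*} [NormedAddCommGroup E] [SecondCountableTopology E] {F : ℂ → E}
    (hF : ContinuousOn F {z | z ≠ 0}) : MemLp F ⊤ μA := by
  have hK : IsCompact (closedBall (0 : ℂ) 1 \ ball 0 (1 / 2)) :=
    (isCompact_closedBall _ _).diff isOpen_ball
  obtain ⟨M, hM⟩ := hK.exists_bound_of_continuousOn (hF.mono fun z hz h => hz.2 (by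
    rw [h]; exact mem_ball_self (by norm_num)))
  exact memLp_of_bound isOpen_Ann.measurableSet
    (hF.mono fun z hz => (mem_Dp.1 (Ann_subset_Dp hz)).2)
    (fun z hz => hM z ⟨ball_subset_closedBall hz.1, fun h => hz.2 (ball_subset_closedBall h)⟩) _

lemma memLp_congr_Ann {E : Type*} [NormedAddCommGroup E] {F G : ℂ → E} {p : ENNReal}
    (h : MemLp F p μA) (e : ∀ z ∈ Ann, F z = G z) : MemLp G p μA :=
  h.ae_eq ((ae_restrict_iff' isOpen_Ann.measurableSet).2 (Eventually.of_forall e))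

lemma memLp_mul_top {𝕜 : Type*} [NormedRing 𝕜] {F G : ℂ → 𝕜} {p : ENNReal}
    (hF : MemLp F ⊤ μA) (hG : MemLp G p μA) : MemLp (fun z => F z * G z) p μA :=
  MemLp.mul' hG hF

lemma memLp_mul_two {𝕜 : Type*} [NormedRing 𝕜] {F G : ℂ → 𝕜}
    (hF : MemLp F 2 μA) (hG : MemLp G 2 μA) : MemLp (fun z => F z * G z) 1 μA :=
  MemLp.mul' hG hF

lemma memLp_of_top {E : Type*} [NormedAddCommGroup E] {F : ℂ → E} (hF : MemLp F ⊤ μA)
    (p : ENNReal) : MemLp F p μA := hF.mono_exponent le_top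

lemma memLp_Ann_of_D {E : Type*} [NormedAddCommGroup E] {F : ℂ → E} {p : ENNReal}
    (hF : MemLp F p (volume.restrict D)) : MemLp F p μA :=
  hF.mono_measure (Measure.restrict_mono Ann_subset_D le_rfl)

lemma memLp_conj {F : ℂ → ℂ} {p : ENNReal} {μ : Measure ℂ} (hF : MemLp F p μ) :
    MemLp (fun z => conj (F z)) p μ :=
  (conjCLE : ℂ →L[ℝ] ℂ).comp_memLp' hF

lemma memLp_ofReal {F : ℂ → ℝ} {p : ENNReal} {μ : Measure ℂ} (hF : MemLp F p μ) :
    MemLp (fun z => (F z : ℂ)) p μ :=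
  ofRealCLM.comp_memLp' hF

lemma memLp_re {F : ℂ → ℂ} {p : ENNReal} {μ : Measure ℂ} (hF : MemLp F p μ) :
    MemLp (fun z => (F z).re) p μ :=
  reCLM.comp_memLp' hF

lemma memLp_im {F : ℂ → ℂ} {p : ENNReal} {μ : Measure ℂ} (hF : MemLp F p μ) :
    MemLp (fun z => (F z).im) p μ :=
  imCLM.comp_memLp' hF

/-- Equality form of `OF_of_weak`. -/
theorem OF_of_weak' {ρ : ℂ → ℝ} (hρ : ContinuousOn ρ D) (hρ0 : ∀ z, 0 ≤ ρ z) {lam : ℝ}
    {U : ℂ → ℝ} (hU : Adm D ρ U) (hw : Weak D ρ lam U) {V : ℂ → ℝ} (hV : ContDiffOn ℝ 1 V Dp)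
    (hV2 : MemLp V 2 μA) (hVρ : IntegrableOn (fun z => V z ^ 2 * ρ z) Ann)
    (hVd : MemLp (dz V) 2 μA) {F E : ℂ → ℝ} (hF : ContinuousOn F Dp)
    (hE : MemLp E 1 μA)
    (h : ∀ z ∈ Ann, F z = (z * dz U z).re * V z + (1 - ‖z‖ ^ 2) * E z) : OF F := by
  refine OF_of_weak hρ hρ0 hU hw hV hV2 hVρ hVd hF (E := fun z => |E z|)
    (memLp_one_iff_integrable.1 hE).abs fun z hz => ?_
  rw [h z hz, add_sub_cancel_left, abs_mul, abs_of_nonneg]
  nlinarith [(mem_Ann.1 hz).2, norm_nonneg z]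

end Crest.Agent.R101
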