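import Crest.Agent.R101.Var

/-!
# Row 101: interior regularity for the weak Helmholtz equation   (TASK A)

Recipe (no polar coordinates, no fundamental solution).  Note `4 Re(dz u * conj (dz η)) = ∇u·∇η`
and `fderiv ℝ u z v = 2 Re(dz u z * v)` (`fderiv_apply_eq_dz`).  Call a function `u` that is `C¹`
on a ball `B = ball x R'` a weak solution if `∫ Re(dz u * conj (dz η)) = lam ∫ u η` for all `C¹`
`η` with compact support in `B` (from `Weak` by `adm_of_hasCompactSupport`).

1. (mean value lemma) Let `u` be a weak solution, `u x = 0`, `0 < R < R'`, `lam R² < 1`.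
   For `K : ℝ → ℝ` continuous, `K s = 0` for `s ≥ 1`, put `M_K(t) = ∫ y, u (x + t y) K(‖y‖²)`,
   `t ∈ [0,R]`, and `TK(s) = ∫_s^1 K` (so `TK` is `C¹`, `(TK)' = -K`, `TK s = 0` for `s ≥ 1`,
   and `|K| ≤ c` on `[0,∞)` implies `|TK| ≤ c` on `[0,∞)`).  Then
   `M_K'(t) = ∫ 2 Re(dz u(x+ty) y) K(‖y‖²) dy = -2 lam t M_{TK}(t)`:
   test the weak equation with `η(z) = TK(‖z-x‖²/t²)`, `dz η = -K(..) conj(z-x)/t²`, and change
   variables `z = x + t y` (`integral_add_left_eq_self`, `Measure.integral_comp_smul`).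
   (Use FTC in `t` + Fubini, or `hasDerivAt_integral_of_dominated_loc_of_deriv_le`; it is
   convenient to replace `u` by a globally `C¹` compactly supported function `χ u` first.)
   Since `M_K(0) = 0`: induction on `n`: for all such `K` with `|K| ≤ 1` on `[0,∞)` and all
   `t ∈ [0,R]`, `|M_K(t)| ≤ C (lam R²)^n`.  Hence `M_K(R) = 0`.
2. The plane wave `e_x(z) = cos (2 √lam (z - x).re)` is a classical, hence weak, solution
   (`integral_mul_dbar`; `dbar (dz e_x) = -lam e_x`).  Apply 1 to `u - u(x) e_x`: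
   `∫ u(x + R y) K(‖y‖²) dy = u(x) κ`, `κ = ∫ cos (2 √lam R y.re) K(‖y‖²) dy > 0` for a smooth
   `K ≥ 0`, `K ≠ 0` (e.g. `K s = Real.smoothTransition (1 - s)` or `expNegInvGlue (1 - s)`) and
   `R` small (`2 √lam R < 1`), `κ` independent of `x`.
3. So near any `p ∈ S`, `u = κ⁻¹ · (ũ ⋆ K_R)` with `ũ = χ u` continuous with compact support and
   `K_R` smooth with compact support: `HasCompactSupport.contDiff_convolution_right` (or
   `_left`), hence `u` is `C²` near `p`.
-/

open Complex MeasureTheory Set Metric Filter Topology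
open scoped ComplexConjugate

noncomputable section

namespace Crest.Agent.R101

/-- Radial profiles. -/
def RegK (K : ℝ → ℝ) : Prop := Continuous K ∧ (∀ s, 1 ≤ s → K s = 0) ∧ ∀ s, 0 ≤ s → |K s| ≤ 1

/-- The primitive of a profile vanishing at `1`. -/
def regT (K : ℝ → ℝ) (s : ℝ) : ℝ := ∫ σ in s..1, K σ

/-- Weighted radial means. -/
def regM (w : ℂ → ℝ) (x : ℂ) (K : ℝ → ℝ) (t : ℝ) : ℝ := ∫ y : ℂ, w (x + t • y) * K (‖y‖ ^ 2)

/-- The weak equation on an open set, for test functions with compact support. -/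
def RegW (lam : ℝ) (w : ℂ → ℝ) (U : Set ℂ) : Prop :=
  ∀ η : ℂ → ℝ, ContDiff ℝ 1 η → HasCompactSupport η → tsupport η ⊆ U →
    ∫ z, (dz w z * conj (dz η z)).re = lam * ∫ z, w z * η z

lemma regT_deriv {K : ℝ → ℝ} (hK : Continuous K) (s : ℝ) : HasDerivAt (regT K) (-K s) s :=
  intervalIntegral.integral_hasDerivAt_left (hK.intervalIntegrable _ _)
    (hK.stronglyMeasurableAtFilter _ _) hK.continuousAt

lemma regT_contDiff {K : ℝ → ℝ} (hK : Continuous K) : ContDiff ℝ 1 (regT K) :=
  contDiff_one_iff_deriv.2 ⟨fun s => (regT_deriv hK s).differentiableAt, by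
    rw [show deriv (regT K) = fun s => -K s from funext fun s => (regT_deriv hK s).deriv]
    exact hK.neg⟩

lemma RegK.T {K : ℝ → ℝ} (hK : RegK K) : RegK (regT K) := by
  have h : ∀ s, 1 ≤ s → regT K s = 0 := fun s hs => by
    rw [regT, intervalIntegral.integral_congr (g := fun _ => 0) fun σ hσ => hK.2.1 σ ?_,
      intervalIntegral.integral_zero]
    rw [uIcc_of_ge hs] at hσ
    exact hσ.1
  refine ⟨(regT_contDiff hK.1).continuous, h, fun s hs => ?_⟩
  rcases le_total 1 s with h1 | h1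
  · simp [h s h1]
  · refine (intervalIntegral.norm_integral_le_of_norm_le_const (C := 1) (f := K) fun σ hσ =>
      hK.2.2 σ ?_).trans ?_
    · rw [uIoc_of_le h1] at hσ
      exact hs.trans hσ.1.le
    · rw [one_mul, abs_of_nonneg (by linarith)]; linarith

lemma RegK.zero {K : ℝ → ℝ} (hK : RegK K) {y : ℂ} (hy : y ∉ closedBall (0 : ℂ) 1) :
    K (‖y‖ ^ 2) = 0 :=
  hK.2.1 _ (one_le_pow₀ (not_le.1 (mt mem_closedBall_zero_iff.2 hy)).le)

lemma RegK.integrable {K : ℝ → ℝ} (hK : RegK K) {f : ℂ → ℝ} (hf : Continuous f) :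
    Integrable fun y : ℂ => f y * K (‖y‖ ^ 2) :=
  (hf.mul (hK.1.comp (by fun_prop))).integrable_of_hasCompactSupport
    (HasCompactSupport.intro (isCompact_closedBall 0 1) fun y hy => by simp [hK.zero hy])

lemma reg_mem {x y : ℂ} {t r : ℝ} (ht : |t| ≤ r) (hy : y ∈ closedBall (0 : ℂ) 1) :
    x + t • y ∈ closedBall x r := by
  rw [mem_closedBall_zero_iff] at hy
  rw [add_mem_closedBall_iff_norm, norm_smul, Real.norm_eq_abs]
  exact (mul_le_of_le_one_right (abs_nonneg _) hy).trans ht

lemma regM_bound {w : ℂ → ℝ} (hw : Continuous w) (x : ℂ) (R : ℝ) :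
    ∃ C, ∀ K, RegK K → ∀ t, |t| ≤ R → |regM w x K t| ≤ C := by
  obtain ⟨C, hC⟩ := (isCompact_closedBall x R).exists_bound_of_continuousOn hw.continuousOn
  refine ⟨∫ y, (closedBall (0 : ℂ) 1).indicator (fun _ => C) y, fun K hK t ht =>
    norm_integral_le_of_norm_le (f := fun y : ℂ => w (x + t • y) * K (‖y‖ ^ 2))
      ((integrable_indicator_iff measurableSet_closedBall).2
      (integrableOn_const measure_closedBall_lt_top.ne)) (Eventually.of_forall fun y => ?_)⟩
  by_cases hy : y ∈ closedBall (0 : ℂ) 1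
  · rw [indicator_of_mem hy, norm_mul]
    exact (mul_le_of_le_one_right (norm_nonneg _) (hK.2.2 _ (sq_nonneg _))).trans
      (hC _ (reg_mem ht hy))
  · simp [hK.zero hy, hy]

lemma regM_deriv {w : ℂ → ℝ} (hw : ContDiff ℝ 1 w) (x : ℂ) {K : ℝ → ℝ} (hK : RegK K) (t : ℝ) :
    HasDerivAt (regM w x K) (∫ y : ℂ, fderiv ℝ w (x + t • y) y * K (‖y‖ ^ 2)) t := by
  have hc := hw.continuous
  have hd := hw.continuous_fderiv (by simp)
  obtain ⟨C, hC⟩ := (isCompact_closedBall x (|t| + 1)).exists_bound_of_continuousOn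
    hd.continuousOn
  refine (hasDerivAt_integral_of_dominated_loc_of_deriv_le (ball_mem_nhds t one_pos)
    (F := fun t y => w (x + t • y) * K (‖y‖ ^ 2))
    (F' := fun t y => fderiv ℝ w (x + t • y) y * K (‖y‖ ^ 2)) (bound := fun y => C * |K (‖y‖ ^ 2)|)
    (Eventually.of_forall fun s => (hK.integrable (by fun_prop)).1) (hK.integrable (by fun_prop))
    (hK.integrable (by fun_prop)).1 (Eventually.of_forall fun y s hs => ?_)
    (by simpa using (hK.integrable (f := fun _ => 1) continuous_const).abs.const_mul C)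
    (Eventually.of_forall fun y s _ => HasDerivAt.mul_const ?_ _)).2
  · by_cases hy : y ∈ closedBall (0 : ℂ) 1
    · have h1 : |s| ≤ |t| + 1 := by
        have := abs_sub_abs_le_abs_sub s t
        rw [mem_ball, Real.dist_eq] at hs
        linarith
      rw [norm_mul]
      refine mul_le_mul_of_nonneg_right (((fderiv ℝ w _).le_opNorm y).trans
        ((mul_le_of_le_one_right (norm_nonneg _) (mem_closedBall_zero_iff.1 hy)).trans
          (hC _ (reg_mem h1 hy)))) (abs_nonneg _)
    · simp [hK.zero hy]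
  · exact ((hw.differentiable (by simp) _).hasFDerivAt.comp_hasDerivAt s
      (((hasDerivAt_id s).smul_const y).const_add x)).congr_deriv (by simp)

lemma reg_aff (F : ℂ → ℝ) (x : ℂ) (t : ℝ) : ∫ y, F (x + t • y) = |(t ^ 2)⁻¹| * ∫ z, F z := by
  rw [Measure.integral_comp_smul volume (fun z => F (x + z)) t, integral_add_left_eq_self]
  simp

lemma regM_ode {lam : ℝ} {w : ℂ → ℝ} {U : Set ℂ} (hw : ContDiff ℝ 1 w) (hW : RegW lam w U) {x : ℂ}
    {K : ℝ → ℝ} (hK : RegK K) {t : ℝ} (ht : 0 < t) (hU : closedBall x t ⊆ U) :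
    HasDerivAt (regM w x K) (-2 * lam * t * regM w x (regT K) t) t := by
  have hq : ContDiff ℝ 1 fun z : ℂ => (t ^ 2)⁻¹ * ‖z - x‖ ^ 2 :=
    contDiff_const.mul ((contDiff_id.sub contDiff_const).norm_sq ℝ)
  have hs : Function.support (fun z : ℂ => regT K ((t ^ 2)⁻¹ * ‖z - x‖ ^ 2)) ⊆ closedBall x t :=
    fun z hz => by_contra fun h => hz (hK.T.2.1 _ (by
      rw [mem_closedBall, dist_eq_norm, not_le] at h
      rw [← div_eq_inv_mul, one_le_div (by positivity)]
      gcongr))
  have h := hW _ ((regT_contDiff hK.1).comp hq)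
    (HasCompactSupport.intro (isCompact_closedBall x t) fun z hz => by_contra fun h => hz (hs h))
    ((closure_minimal hs isClosed_closedBall).trans hU)
  have h' := congrArg (|(t ^ 2)⁻¹| * ·) h
  have e : ∀ y : ℂ, (t ^ 2)⁻¹ * ‖x + t • y - x‖ ^ 2 = ‖y‖ ^ 2 := fun y => by
    rw [add_sub_cancel_left, norm_smul, mul_pow, Real.norm_eq_abs, sq_abs]
    field_simp
  have hz : ∀ z, dz (regT K ∘ fun z : ℂ => (t ^ 2)⁻¹ * ‖z - x‖ ^ 2) z =
      (-K ((t ^ 2)⁻¹ * ‖z - x‖ ^ 2) : ℝ) * (((t ^ 2)⁻¹ : ℝ) * conj (z - x)) := fun z => by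
    have h1 : DifferentiableAt ℝ (fun w : ℂ => ‖w‖ ^ 2) (z - x) :=
      (contDiff_norm_sq ℝ (n := 1)).differentiable (by simp) _
    have h2 := dz_comp_hol (φ := fun z => z - x) h1 ((hasDerivAt_id z).sub_const x)
    rw [Function.comp_def, dz_real_comp (hq.differentiable (by simp) z) (regT_deriv hK.1 _),
      dz_const_mul (V := fun z => ‖z - x‖ ^ 2) _ (h1.comp z (differentiableAt_id.sub_const x)), h2,
      dz_normSq]
    simp
  simp only [mul_left_comm _ lam, ← reg_aff _ x t, hz, Function.comp_apply, e] at h'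
  convert regM_deriv hw x hK t using 1
  rw [regM, show ∀ a, -2 * lam * t * a = -2 * t * (lam * a) by intros; ring, ← h',
    ← integral_const_mul]
  refine integral_congr_ae (Eventually.of_forall fun y => ?_)
  simp only [fderiv_apply_eq_dz, add_sub_cancel_left, map_mul, conj_conj, conj_ofReal,
    real_smul]
  rw [show dz w (x + t * y) * ((-K (‖y‖ ^ 2) : ℝ) * (((t ^ 2)⁻¹ : ℝ) * (t * y))) =
    (-K (‖y‖ ^ 2) * t⁻¹ : ℝ) * (dz w (x + t * y) * y) by
      have : (t : ℂ) ≠ 0 := by exact_mod_cast ht.ne'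
      push_cast; field_simp, re_ofReal_mul]
  field_simp

lemma reg_zero {lam R C : ℝ} (hlam : 0 < lam) (hR : 0 < R) (hq : 2 * lam * R ^ 2 < 1)
    (M : (ℝ → ℝ) → ℝ → ℝ) (hc : ∀ K, RegK K → Continuous (M K)) (h0 : ∀ K, RegK K → M K 0 = 0)
    (hb : ∀ K, RegK K → ∀ t, |t| ≤ R → |M K t| ≤ C)
    (hd : ∀ K, RegK K → ∀ t ∈ Ioo 0 R, HasDerivAt (M K) (-2 * lam * t * M (regT K) t) t)
    {K : ℝ → ℝ} (hK : RegK K) : M K R = 0 := by
  have key : ∀ n : ℕ, ∀ K, RegK K → ∀ t ∈ Ioc 0 R, |M K t| ≤ C * (2 * lam * R ^ 2) ^ n := by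
    intro n
    induction n with
    | zero => exact fun K hK t ht => by simpa using hb K hK t (by rw [abs_of_pos ht.1]; exact ht.2)
    | succ n ih =>
      intro K hK t ht
      obtain ⟨c, hc, e⟩ := exists_hasDerivAt_eq_slope (M K) _ ht.1 (hc K hK).continuousOn
        fun s hs => hd K hK s ⟨hs.1, hs.2.trans_le ht.2⟩
      have h1 := ih _ hK.T c ⟨hc.1, hc.2.le.trans ht.2⟩
      rw [h0 K hK, sub_zero, sub_zero, eq_div_iff ht.1.ne'] at e
      have h2 : c * t ≤ R ^ 2 := by nlinarith [hc.1, hc.2, ht.1, ht.2]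
      have h3 := hc.1
      have h4 := ht.1
      rw [← e, show -2 * lam * c * M (regT K) c * t = -(M (regT K) c * (2 * lam * (c * t))) by ring,
        abs_neg, abs_mul, abs_of_pos (by positivity : 0 < 2 * lam * (c * t)), pow_succ,
        ← mul_assoc C]
      exact mul_le_mul h1 (by gcongr) (by positivity) ((abs_nonneg _).trans h1)
  have := ge_of_tendsto' ((tendsto_pow_atTop_nhds_zero_of_lt_one (by positivity) hq).const_mul C)
    fun n => key n K hK R ⟨hR, le_rfl⟩
  simpa using this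

lemma reg_wave {lam : ℝ} (hlam : 0 < lam) (x : ℂ) :
    RegW lam (fun z => Real.cos (2 * √lam * (z - x).re)) univ := by
  intro η hη hc _
  have hφ : ∀ z : ℂ, HasFDerivAt (fun z : ℂ => 2 * √lam * (z - x).re) ((2 * √lam) • reCLM) z :=
    fun z => by
      simpa using (reCLM.hasFDerivAt.comp z ((hasFDerivAt_id z).sub_const x)).const_mul (2 * √lam)
  have hs' : Continuous fun z : ℂ => Real.sin (2 * √lam * (z - x).re) := by fun_prop
  have hc' : Continuous fun z : ℂ => Real.cos (2 * √lam * (z - x).re) := by fun_prop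
  have h1 : ∀ z, fderiv ℝ (fun z : ℂ => Real.sin (2 * √lam * (z - x).re)) z 1 =
      Real.cos (2 * √lam * (z - x).re) * (2 * √lam) := fun z => by
    rw [(hφ z).sin.fderiv]; simp
  have h2 : ∀ z, (dz (fun z : ℂ => Real.cos (2 * √lam * (z - x).re)) z * conj (dz η z)).re =
      -(√lam / 2) * (fderiv ℝ η z 1 * Real.sin (2 * √lam * (z - x).re)) := fun z => by
    rw [dz, (hφ z).cos.fderiv, fderiv_apply_eq_dz η]
    simp [-ofReal_sin]
    ring
  have hd := (hη.continuous_fderiv (by simp)).clm_apply (continuous_const (y := (1 : ℂ)))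
  have h3 := integral_mul_fderiv_eq_neg_fderiv_mul_of_integrable (μ := volume) (f := η) (v := 1)
    (g := fun z : ℂ => Real.sin (2 * √lam * (z - x).re))
    ((hd.mul hs').integrable_of_hasCompactSupport (hc.fderiv_apply ℝ 1).mul_right)
    (by
      simp only [h1]
      exact (hη.continuous.mul (hc'.mul continuous_const)).integrable_of_hasCompactSupport
        hc.mul_right)
    ((hη.continuous.mul hs').integrable_of_hasCompactSupport hc.mul_right)
    (fun z _ => hη.differentiable (by simp) z) fun z _ => (hφ z).sin.differentiableAt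
  simp only [h2, integral_const_mul]
  rw [neg_mul, ← mul_neg, ← h3, ← integral_const_mul, ← integral_const_mul]
  refine integral_congr_ae (Eventually.of_forall fun z => ?_)
  simp only [h1]
  linear_combination (η z * Real.cos (2 * √lam * (z - x).re)) * Real.mul_self_sqrt hlam.le

lemma reg_mean {lam R : ℝ} (hlam : 0 < lam) (hR : 0 < R) (hq : 2 * lam * R ^ 2 < 1) {w : ℂ → ℝ}
    {U : Set ℂ} (hw : ContDiff ℝ 1 w) (hW : RegW lam w U) {x : ℂ} (hU : closedBall x R ⊆ U)
    {K : ℝ → ℝ} (hK : RegK K) :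
    regM w x K R = w x * ∫ y : ℂ, Real.cos (2 * √lam * (R * y.re)) * K (‖y‖ ^ 2) := by
  have he : ContDiff ℝ 1 fun z : ℂ => Real.cos (2 * √lam * (z - x).re) :=
    (contDiff_const.mul (reCLM.contDiff.comp (contDiff_id.sub contDiff_const))).cos
  obtain ⟨C, hC⟩ := regM_bound hw.continuous x R
  obtain ⟨C', hC'⟩ := regM_bound he.continuous x R
  have := reg_zero (C := C + |w x| * C') hlam hR hq (fun K t => regM w x K t -
    w x * regM (fun z => Real.cos (2 * √lam * (z - x).re)) x K t)
    (fun K hK => (continuous_iff_continuousAt.2 fun t => (regM_deriv hw x hK t).continuousAt).sub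
      (continuous_const.mul (continuous_iff_continuousAt.2 fun t =>
        (regM_deriv he x hK t).continuousAt)))
    (fun K _ => by simp [regM, integral_const_mul])
    (fun K hK t ht => (abs_sub _ _).trans (add_le_add (hC K hK t ht) (by
      rw [abs_mul]; exact mul_le_mul_of_nonneg_left (hC' K hK t ht) (abs_nonneg _))))
    (fun K hK t ht => ((regM_ode hw hW hK ht.1 ((closedBall_subset_closedBall ht.2.le).trans hU)).sub
      ((regM_ode he (reg_wave hlam x) hK ht.1 (subset_univ _)).const_mul (w x))).congr_deriv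
        (by ring)) hK
  simpa [regM, sub_eq_zero] using this

theorem contDiffOn_two_of_weak {S : Set ℂ} (hS : IsOpen S) {lam : ℝ} (hlam : 0 < lam)
    {u : ℂ → ℝ} (hu : ContDiffOn ℝ 1 u S) (hw : Weak S (fun _ => 1) lam u) :
    ContDiffOn ℝ 2 u S := by
  refine fun p hp => ContDiffAt.contDiffWithinAt ?_
  obtain ⟨ε, hε, hεS⟩ := Metric.isOpen_iff.1 hS p hp
  obtain ⟨R, hR, hRε, hRl⟩ : ∃ R, 0 < R ∧ 4 * R < ε ∧ 2 * √lam * R ≤ 1 := by
    have := Real.sqrt_pos.2 hlam
    refine ⟨min (ε / 5) (1 / (2 * √lam)), by positivity,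
      by linarith [min_le_left (ε / 5) (1 / (2 * √lam))], ?_⟩
    rw [mul_comm, ← le_div_iff₀ (by positivity)]
    exact min_le_right _ _
  have hq : 2 * lam * R ^ 2 < 1 := by
    have := pow_le_one₀ (by positivity) hRl (n := 2)
    rw [mul_pow, mul_pow, Real.sq_sqrt hlam.le] at this
    nlinarith [mul_pos hlam (pow_pos hR 2)]
  let χ : ContDiffBump p := ⟨3 * R, 4 * R, by positivity, by linarith⟩
  have hv : ContDiff ℝ 1 fun z => χ z * u z := contDiff_iff_contDiffAt.2 fun z => by
    by_cases hz : z ∈ tsupport fun z => χ z * u z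
    swap
    · exact contDiffAt_const.congr_of_eventuallyEq (notMem_tsupport_iff_eventuallyEq.1 hz)
    have h1 := tsupport_mul_subset_left hz
    rw [χ.tsupport_eq] at h1
    exact χ.contDiff.contDiffAt.mul (hu.contDiffAt (hS.mem_nhds (hεS
      (closedBall_subset_ball hRε h1))))
  have hb : ball p (3 * R) ⊆ S := (ball_subset_ball (by linarith)).trans hεS
  have hvu : ∀ z ∈ ball p (3 * R), (fun z => χ z * u z) =ᶠ[𝓝 z] u := fun z hz => by
    filter_upwards [χ.eventuallyEq_one_of_mem_ball hz] with y hy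
    simp [hy]
  have hW : RegW lam (fun z => χ z * u z) (ball p (3 * R)) := fun η hη hc hs => by
    have h0 : ∀ z, z ∉ tsupport η → η z = 0 ∧ dz η z = 0 := fun z hz =>
      ⟨image_eq_zero_of_notMem_tsupport hz,
        (dz_congr (notMem_tsupport_iff_eventuallyEq.1 hz)).trans (dz_const 0 z)⟩
    have h := hw η (adm_of_hasCompactSupport hS continuousOn_const hη hc (hs.trans hb))
    rw [setIntegral_eq_integral_of_forall_compl_eq_zero fun z hz => by
        simp [h0 z fun h => hz (hb (hs h))],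
      setIntegral_eq_integral_of_forall_compl_eq_zero fun z hz => by
        simp [h0 z fun h => hz (hb (hs h))]] at h
    refine Eq.trans (congrArg _ (funext fun z => ?_)) (h.trans
      (congrArg _ (congrArg _ (funext fun z => ?_)))) <;> by_cases hz : z ∈ tsupport η
    · rw [dz_congr (hvu z (hs hz))]
    · simp [h0 z hz]
    · simp only [(hvu z (hs hz)).eq_of_nhds, mul_one]
    · simp [h0 z hz]
  have hK : RegK fun s => Real.smoothTransition (1 - s) :=
    ⟨by fun_prop, fun s hs => Real.smoothTransition.zero_of_nonpos (by linarith), fun s _ => by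
      rw [abs_of_nonneg (Real.smoothTransition.nonneg _)]; exact Real.smoothTransition.le_one _⟩
  have hκ : 0 < ∫ y : ℂ, Real.cos (2 * √lam * (R * y.re)) * Real.smoothTransition (1 - ‖y‖ ^ 2) := by
    refine integral_pos_of_integrable_nonneg_nonzero (x := 0) (by fun_prop)
      (hK.integrable (by fun_prop)) (fun y => ?_) (by simp)
    by_cases hy : y ∈ closedBall (0 : ℂ) 1
    · refine mul_nonneg (Real.cos_pos_of_le_one ?_).le (Real.smoothTransition.nonneg _)
      rw [← mul_assoc, abs_mul, abs_of_nonneg (by positivity)]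
      exact mul_le_one₀ hRl (abs_nonneg _) ((abs_re_le_norm y).trans (mem_closedBall_zero_iff.1 hy))
    · exact (mul_eq_zero_of_right _ (hK.zero hy)).ge
  have hg : ContDiff ℝ (2 : ℕ∞) fun z : ℂ => Real.smoothTransition (1 - (R ^ 2)⁻¹ * ‖z‖ ^ 2) :=
    Real.smoothTransition.contDiff.comp (contDiff_const.sub (contDiff_const.mul (contDiff_norm_sq ℝ)))
  have hcg : HasCompactSupport fun z : ℂ => Real.smoothTransition (1 - (R ^ 2)⁻¹ * ‖z‖ ^ 2) :=
    HasCompactSupport.intro (isCompact_closedBall 0 R) fun z hz => hK.2.1 _ (by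
      rw [mem_closedBall_zero_iff, not_le] at hz
      rw [← div_eq_inv_mul, one_le_div (by positivity)]
      gcongr)
  have h2 := hcg.contDiff_convolution_right (μ := volume) (ContinuousLinearMap.mul ℝ ℝ)
    hv.continuous.locallyIntegrable hg
  refine (((contDiff_const (c := |(R ^ 2)⁻¹|)).mul h2).div_const (∫ y : ℂ, Real.cos
    (2 * √lam * (R * y.re)) * Real.smoothTransition (1 - ‖y‖ ^ 2))).contDiffAt.congr_of_eventuallyEq ?_
  filter_upwards [ball_mem_nhds p hR] with x hx
  have h3 := reg_mean hlam hR hq hv hW (x := x) (closedBall_subset_ball' (by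
    rw [mem_ball] at hx; linarith)) hK
  rw [(hvu x (ball_subset_ball (by linarith) hx)).eq_of_nhds] at h3
  rw [eq_div_iff hκ.ne', ← h3, convolution_def, ← reg_aff _ x R, regM]
  refine integral_congr_ae (Eventually.of_forall fun y => ?_)
  simp only [ContinuousLinearMap.mul_apply', sub_add_cancel_left, norm_neg, norm_smul, mul_pow,
    Real.norm_eq_abs, sq_abs]
  rw [← mul_assoc, inv_mul_cancel₀ (by positivity), one_mul]

end Crest.Agent.R101
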