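import Crest.Agent.R101.Main
import Crest.Agent.R101.Reg
import Crest.Agent.Lib.RMT.Main
import Crest.Agent.Lib.RMT.Inverse

/-!
# Row 101: transfer from a simply connected planar domain to the disc   (TASK E)
-/

open Complex MeasureTheory Set Metric Filter Topology
open scoped ComplexConjugate

noncomputable section

namespace Crest.Agent.R101

/-- The inverse Riemann map.  Recipe: `Crest.Agent.Lib.RMT.riemann_mapping` (`Ω ≠ univ` as it is
bounded) gives `f`; `Crest/Agent/Lib/RMT/Inverse.lean` has `deriv f ≠ 0` for injective holomorphic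
maps and the differentiability of `ψ = Function.invFunOn f Ω`. -/
theorem exists_conformal {Ω : Set ℂ} (hΩ : IsOpen Ω) (hb : Bornology.IsBounded Ω)
    (hsc : IsSimplyConnected Ω) {p : ℂ} (hp : p ∈ Ω) :
    ∃ ψ f : ℂ → ℂ, DifferentiableOn ℂ ψ D ∧ DifferentiableOn ℂ f Ω ∧ MapsTo ψ D Ω ∧
      MapsTo f Ω D ∧ (∀ z ∈ D, f (ψ z) = z) ∧ (∀ w ∈ Ω, ψ (f w) = w) ∧
      (∀ z ∈ D, deriv ψ z ≠ 0) ∧ ψ 0 = p := by
  have hne : Ω ≠ univ := by
    intro h
    rw [h] at hb
    exact NormedSpace.unbounded_univ ℝ ℂ hb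
  obtain ⟨f, hf, hinj, himg, hfp⟩ := Crest.Agent.Lib.RMT.riemann_mapping hΩ hsc hne hp
  have hl : LeftInvOn (Function.invFunOn f Ω) f Ω := hinj.leftInvOn_invFunOn
  have hex : ∀ z ∈ D, ∃ w ∈ Ω, f w = z := fun z hz => by
    have : z ∈ f '' Ω := himg ▸ hz
    exact this
  have hψd : DifferentiableOn ℂ (Function.invFunOn f Ω) D := by
    intro z hz
    obtain ⟨w, hw, rfl⟩ := hex z hz
    exact (Crest.Agent.Lib.RMT.differentiableAt_invFunOn_of_injOn hΩ hf hinj
      hw).differentiableWithinAt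
  have hr : ∀ z ∈ D, f (Function.invFunOn f Ω z) = z := fun z hz =>
    Function.invFunOn_eq (hex z hz)
  refine ⟨Function.invFunOn f Ω, f, hψd, hf, fun z hz => Function.invFunOn_mem (hex z hz),
    fun w hw => ?_, hr, fun w hw => hl hw, fun z hz => ?_, ?_⟩
  · have : f w ∈ f '' Ω := mem_image_of_mem f hw
    rwa [himg] at this
  · refine Crest.Agent.Lib.RMT.deriv_ne_zero_of_injOn isOpen_D hψd (fun a ha b hb hab => ?_) hz
    rw [← hr a ha, ← hr b hb, hab]
  · rw [← hfp]; exact hl hp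

lemma transfer_det (c : ℂ) : (wl c 0).det = ‖c‖ ^ 2 := by
  have h : ((wl c 0 : ℂ →L[ℝ] ℂ) : ℂ →ₗ[ℝ] ℂ) = Algebra.lmul ℝ ℂ c := by
    ext1 v
    simp
  rw [ContinuousLinearMap.det, h, ← Algebra.norm_apply, Algebra.norm_complex_apply,
    normSq_eq_norm_sq]

section cov
variable {Ω : Set ℂ} {ψ : ℂ → ℂ}

lemma transfer_hasDerivAt (hψ : DifferentiableOn ℂ ψ D) {z : ℂ} (hz : z ∈ D) :
    HasDerivAt ψ (deriv ψ z) z :=
  (hψ.differentiableAt (isOpen_D.mem_nhds hz)).hasDerivAt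

lemma transfer_integral (hψ : DifferentiableOn ℂ ψ D) (hinj : InjOn ψ D) (himg : ψ '' D = Ω)
    (g : ℂ → ℝ) : ∫ w in Ω, g w = ∫ z in D, g (ψ z) * rho ψ z := by
  rw [← himg, integral_image_eq_integral_abs_det_fderiv_smul volume isOpen_D.measurableSet
    (f' := fun z => wl (deriv ψ z) 0)
    (fun z hz => HasFDerivAt.hasFDerivWithinAt
      (HasDerivAt.hasW (transfer_hasDerivAt hψ hz))) hinj]
  refine integral_congr_ae (Eventually.of_forall fun z => ?_)
  simp only [transfer_det, smul_eq_mul, rho]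
  rw [abs_of_nonneg (by positivity), mul_comm]

lemma transfer_integrableOn (hψ : DifferentiableOn ℂ ψ D) (hinj : InjOn ψ D) (himg : ψ '' D = Ω)
    (g : ℂ → ℝ) : IntegrableOn g Ω ↔ IntegrableOn (fun z => g (ψ z) * rho ψ z) D := by
  rw [← himg, integrableOn_image_iff_integrableOn_abs_det_fderiv_smul volume
    isOpen_D.measurableSet (f' := fun z => wl (deriv ψ z) 0)
    (fun z hz => HasFDerivAt.hasFDerivWithinAt
      (HasDerivAt.hasW (transfer_hasDerivAt hψ hz))) hinj]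
  have : (fun z => |(wl (deriv ψ z) 0).det| • g (ψ z)) = fun z => g (ψ z) * rho ψ z := by
    funext z
    simp only [transfer_det, smul_eq_mul, rho]
    rw [abs_of_nonneg (by positivity), mul_comm]
  rw [this]

lemma transfer_dz (hΩ : IsOpen Ω) (hψ : DifferentiableOn ℂ ψ D) (hm : MapsTo ψ D Ω)
    {v V : ℂ → ℝ} (hv : ContDiffOn ℝ 1 v Ω) (hV : ∀ z ∈ D, V z = v (ψ z)) {z : ℂ} (hz : z ∈ D) :
    dz V z = dz v (ψ z) * deriv ψ z := by
  have h1 : V =ᶠ[𝓝 z] fun w => v (ψ w) :=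
    Filter.eventually_of_mem (isOpen_D.mem_nhds hz) hV
  rw [dz_congr h1, dz_comp_hol (differentiableAt_of_contDiffOn hΩ hv (by simp) (hm hz))
    (transfer_hasDerivAt hψ hz)]

lemma transfer_dz_sq (hΩ : IsOpen Ω) (hψ : DifferentiableOn ℂ ψ D) (hm : MapsTo ψ D Ω)
    {v V : ℂ → ℝ} (hv : ContDiffOn ℝ 1 v Ω) (hV : ∀ z ∈ D, V z = v (ψ z)) :
    EqOn (fun z => ‖dz v (ψ z)‖ ^ 2 * rho ψ z) (fun z => ‖dz V z‖ ^ 2) D := by
  intro z hz
  simp only [transfer_dz hΩ hψ hm hv hV hz, rho, norm_mul, mul_pow]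

end cov

/-- The planar theorem in complex notation.  Recipe: `lam = ∫‖dz u‖² / ∫u²`; `∫ u² > 0`
(continuity, `hnz`); `lam > 0` (else `dz u = 0` on `Ω`, `u` constant on the connected `Ω`,
mean zero, contradiction); `Neu Ω 1 lam`; `weak_of_neu`; `contDiffOn_two_of_weak`.  With `ψ, f`
from `exists_conformal`, `φ = ψ - p`; change of variables `∫_Ω g = ∫_D g (ψ z) ρ z`
(`integral_image_eq_integral_abs_det_fderiv_smul`,
`integrableOn_image_iff_integrableOn_abs_det_fderiv_smul`, the real determinant of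
multiplication by `ψ'` is `‖ψ'‖²`), `dz (v ∘ ψ) = dz v (ψ z) ψ'` (`dz_comp_hol`); an
admissible `V` on `D` is `v ∘ ψ` on `D` for `v = V ∘ f`, admissible on `Ω`; this gives the
`Setup`; `U = u ∘ ψ` is admissible, mean zero, extremal, so `weak_of_neu` and `disc_main` apply,
and `dz U 0 = dz u p * ψ'(0)`. -/
theorem planar {Ω : Set ℂ} (hΩ : IsOpen Ω) (hb : Bornology.IsBounded Ω)
    (hsc : IsSimplyConnected Ω) {u : ℂ → ℝ} (hu : Adm Ω (fun _ => 1) u)
    (hmean : ∫ z in Ω, u z = 0) (hnz : ∃ z ∈ Ω, u z ≠ 0)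
    (hmin : ∀ v, Adm Ω (fun _ => 1) v → ∫ z in Ω, v z = 0 →
      (∫ z in Ω, ‖dz u z‖ ^ 2) * (∫ z in Ω, v z ^ 2) ≤
        (∫ z in Ω, ‖dz v z‖ ^ 2) * ∫ z in Ω, u z ^ 2) :
    ∀ p ∈ Ω, dz u p ≠ 0 := by
  intro p hp
  have hΩm : MeasurableSet Ω := hΩ.measurableSet
  have hfin : volume Ω < ⊤ := hb.measure_lt_top
  have hone : IntegrableOn (fun _ : ℂ => (1 : ℝ)) Ω := integrableOn_const hfin.ne
  have huc : ContinuousOn u Ω := hu.1.continuousOn
  have hu2 : IntegrableOn (fun z => u z ^ 2) Ω := by simpa using hu.2.1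
  obtain ⟨z0, hz0, hz0'⟩ := hnz
  set A : ℝ := ∫ z in Ω, ‖dz u z‖ ^ 2 with hA
  set Bq : ℝ := ∫ z in Ω, u z ^ 2 with hB
  have hB0 : 0 < Bq := by
    refine lt_of_le_of_ne (integral_nonneg fun z => sq_nonneg _) fun h => hz0' ?_
    have h1 := (setIntegral_eq_zero_iff_of_nonneg_ae
      (Eventually.of_forall fun z => sq_nonneg (u z)) hu2).1 h.symm
    have h2 := Measure.eqOn_open_of_ae_eq h1 hΩ (huc.pow 2) continuousOn_const hz0
    simpa using h2
  have hA0 : 0 < A := by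
    refine lt_of_le_of_ne (integral_nonneg fun z => sq_nonneg _) fun h => ?_
    have h1 := (setIntegral_eq_zero_iff_of_nonneg_ae
      (Eventually.of_forall fun z => sq_nonneg ‖dz u z‖) hu.2.2).1 h.symm
    have h2 := Measure.eqOn_open_of_ae_eq h1 hΩ
      ((continuousOn_dz hΩ hu.1).norm.pow 2) continuousOn_const
    have h3 : EqOn (fderiv ℝ u) 0 Ω := fun z hz => by
      have := h2 hz
      simp only [Pi.zero_apply, ne_eq, OfNat.ofNat_ne_zero, not_false_eq_true, pow_eq_zero_iff,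
        norm_eq_zero] at this
      exact dz_eq_zero_iff.1 this
    have h4 : ∀ z ∈ Ω, u z = u z0 := fun z hz =>
      hΩ.is_const_of_fderiv_eq_zero hsc.isPathConnected.isConnected.isPreconnected
        (hu.1.differentiableOn (by simp)) h3 hz hz0
    rw [setIntegral_congr_fun hΩm h4, setIntegral_const, smul_eq_mul, mul_eq_zero] at hmean
    rcases hmean with h5 | h5
    · have h6 : 0 < volume Ω := hΩ.measure_pos volume ⟨z0, hz0⟩
      have h7 : 0 < volume.real Ω := ENNReal.toReal_pos h6.ne' hfin.ne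
      exact h7.ne' h5
    · exact hz0' h5
  set lam : ℝ := A / Bq with hlam
  have hlam0 : 0 < lam := div_pos hA0 hB0
  have hlamB : lam * Bq = A := div_mul_cancel₀ A hB0.ne'
  have hN : Neu Ω (fun _ => 1) lam := by
    intro V hV hV0
    simp only [mul_one] at hV0 ⊢
    have := hmin V hV hV0
    rw [hlam, div_mul_eq_mul_div, div_le_iff₀ hB0]
    exact this
  have hw : Weak Ω (fun _ => 1) lam u :=
    weak_of_neu hΩ ⟨p, hp⟩ continuousOn_const (fun _ _ => one_pos) hone hN hu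
      (by simpa using hmean) (by simpa using hlamB)
  have hC2 : ContDiffOn ℝ 2 u Ω := contDiffOn_two_of_weak hΩ hlam0 hu.1 hw
  obtain ⟨ψ, f, hψ, hf, hψm, hfm, hfψ, hψf, hψ', hψ0⟩ := exists_conformal hΩ hb hsc hp
  have hinj : InjOn ψ D := fun a ha b hb hab => by rw [← hfψ a ha, ← hfψ b hb, hab]
  have himg : ψ '' D = Ω :=
    Subset.antisymm hψm.image_subset fun w hw => ⟨f w, hfm hw, hψf w hw⟩
  have hrho : rho (fun z => ψ z - p) = rho ψ := by
    funext z; simp only [rho, deriv_sub_const]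
  have hψC : ∀ n : WithTop ℕ∞, ContDiffOn ℝ n ψ D := fun n =>
    ((hψ.analyticOnNhd isOpen_D).contDiffOn_of_completeSpace).restrict_scalars ℝ
  have hfC : ContDiffOn ℝ 1 f Ω :=
    ((hf.analyticOnNhd hΩ).contDiffOn_of_completeSpace).restrict_scalars ℝ
  have hDm : MeasurableSet D := isOpen_D.measurableSet
  have hρ : IntegrableOn (rho ψ) D := by
    simpa using (transfer_integrableOn hψ hinj himg fun _ => 1).1 hone
  have hNeu : Neu D (rho ψ) lam := by
    intro V hV hV0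
    set v : ℂ → ℝ := fun w => V (f w) with hv
    have hvC : ContDiffOn ℝ 1 v Ω := hV.1.comp hfC hfm
    have hVv : ∀ z ∈ D, V z = v (ψ z) := fun z hz => by simp only [hv, hfψ z hz]
    have e1 : EqOn (fun z => v (ψ z) ^ 2 * rho ψ z) (fun z => V z ^ 2 * rho ψ z) D :=
      fun z hz => by simp only [hVv z hz]
    have e2 := transfer_dz_sq hΩ hψ hψm hvC hVv
    have e3 : EqOn (fun z => v (ψ z) * rho ψ z) (fun z => V z * rho ψ z) D :=
      fun z hz => by simp only [hVv z hz]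
    have hadm : Adm Ω (fun _ => 1) v := by
      refine ⟨hvC, ?_, ?_⟩
      · simp only [mul_one]
        exact (transfer_integrableOn hψ hinj himg fun w => v w ^ 2).2
          ((integrableOn_congr_fun e1 hDm).2 hV.2.1)
      · exact (transfer_integrableOn hψ hinj himg fun w => ‖dz v w‖ ^ 2).2
          ((integrableOn_congr_fun e2 hDm).2 hV.2.2)
    have h1 := hN v hadm (by
      simp only [mul_one]
      rw [transfer_integral hψ hinj himg v, setIntegral_congr_fun hDm e3, hV0])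
    simp only [mul_one] at h1
    rwa [transfer_integral hψ hinj himg (fun w => v w ^ 2),
      transfer_integral hψ hinj himg (fun w => ‖dz v w‖ ^ 2), setIntegral_congr_fun hDm e1,
      setIntegral_congr_fun hDm e2] at h1
  obtain ⟨R, hR⟩ := hb.exists_norm_le
  let P : Setup :=
    { φ := fun z => ψ z - p
      lam := lam
      hφ := hψ.sub_const p
      hφ' := fun z hz => by rw [deriv_sub_const]; exact hψ' z hz
      hφb := ⟨R + ‖p‖, fun z hz => (norm_sub_le _ _).trans (by linarith [hR _ (hψm hz)])⟩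
      hφ0 := by simp [hψ0]
      hρ := by rw [hrho]; exact hρ
      lam_pos := hlam0
      neu := by rw [hrho]; exact hNeu }
  have hPρ : rho P.φ = rho ψ := hrho
  set U : ℂ → ℝ := fun z => u (ψ z) with hU
  have hUu : ∀ z ∈ D, U z = u (ψ z) := fun _ _ => rfl
  have e2 := transfer_dz_sq hΩ hψ hψm hu.1 hUu
  have hU2 : ContDiffOn ℝ 2 U D := hC2.comp (hψC 2) hψm
  have hUadm : Adm D (rho P.φ) U := by
    rw [hPρ]
    refine ⟨hu.1.comp (hψC 1) hψm, ?_, ?_⟩
    · exact (transfer_integrableOn hψ hinj himg fun w => u w ^ 2).1 hu2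
    · exact (integrableOn_congr_fun e2 hDm).1
        ((transfer_integrableOn hψ hinj himg fun w => ‖dz u w‖ ^ 2).1 hu.2.2)
  have hUw : Weak D (rho P.φ) P.lam U := by
    refine weak_of_neu isOpen_D ⟨0, zero_mem_D⟩ P.continuousOn_rho (fun z hz => P.rho_pos hz)
      P.hρ P.neu hUadm ?_ ?_
    · rw [hPρ, ← hmean, transfer_integral hψ hinj himg u]
    · rw [hPρ, ← setIntegral_congr_fun hDm e2,
        ← transfer_integral hψ hinj himg (fun w => ‖dz u w‖ ^ 2),
        ← transfer_integral hψ hinj himg (fun w => u w ^ 2)]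
      exact hlamB
  have hmain := P.disc_main hU2 hUadm hUw ⟨f z0, hfm hz0, by simpa only [hU, hψf z0 hz0] using hz0'⟩
  rw [transfer_dz hΩ hψ hψm hu.1 hUu zero_mem_D, hψ0] at hmain
  exact left_ne_zero_of_mul hmain

end Crest.Agent.R101
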